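import Vale.Agent.P325.PTools
import Vale.Agent.Lib.PolyTime.Raw

/-! From the library form of the theorem to machines on raw bit strings. -/

namespace Vale.Agent.P325

open Vale.Agent.Lib.PolyTime

namespace Fnl

/-- One step of the decoder. -/
def dstep (s : List Bool × Bool × List (List Bool)) (d : Bool) :
    List Bool × Bool × List (List Bool) :=
  if s.2.1 = true then (d :: s.1, false, s.2.2)
  else if d = true then (s.1, true, s.2.2) else ([], false, s.1 :: s.2.2)

/-- The decoder for lists of naturals. -/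
def dec (x : List Bool) : List ℕ :=
  (x.foldl dstep ([], false, [])).2.2.reverse.map fun w => bval w.reverse

theorem foldl_word (w : List Bool) : ∀ (c : List Bool) (acc : List (List Bool)),
    (w.flatMap fun b => [true, b]).foldl dstep (c, false, acc) = (w.reverse ++ c, false, acc) := by
  induction w with
  | nil => simp
  | cons b w ih => intro c acc; simp [dstep, ih]

theorem foldl_bitsOf (l : List ℕ) : ∀ acc : List (List Bool),
    (bitsOf l).foldl dstep ([], false, acc)
      = ([], false, (l.map fun a => a.bits.reverse).reverse ++ acc) := by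
  induction l with
  | nil => simp [bitsOf]
  | cons a l ih =>
    intro acc
    have e : bitsOf (a :: l) = (a.bits.flatMap fun b => [true, b]) ++ (false :: bitsOf l) := by
      simp [bitsOf]
    rw [e, List.foldl_append, foldl_word, List.foldl_cons]
    simp [dstep, ih]

theorem dec_bitsOf (l : List ℕ) : dec (bitsOf l) = l := by
  simp [dec, foldl_bitsOf, Function.comp_def, bval_bits]

theorem pt_bval : PT bval :=
  PT.foldr_add (f := fun _ (d : Bool) (s : ℕ) => s + s + if d = true then 1 else 0)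
    (i := fun _ => 0) (by fun_prop) PT.id (by fun_prop) (PB.const 1)
    fun a s d _ => size_double s (by split_ifs <;> omega)

theorem pt_dec : PT dec := by
  have h1 : PT fun x : List Bool => x.foldl dstep ([], false, []) :=
    PT.foldl_add (f := fun _ => dstep) (by unfold dstep; fun_prop) PT.id (by fun_prop)
      (PB.const 8) fun _ s d _ => by
        obtain ⟨c, b, acc⟩ := s
        unfold dstep
        split_ifs <;> simp <;> omega
  have h2 := pt_bval
  unfold dec
  fun_prop

/-- The parser for formulas. -/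
def parse (l : List ℕ) : CNF3 :=
  (List.range (l.length / 6)).map fun i =>
    ((l.getD (6 * i) 0, decide (l.getD (6 * i + 1) 0 = 1)),
      (l.getD (6 * i + 2) 0, decide (l.getD (6 * i + 3) 0 = 1)),
      (l.getD (6 * i + 4) 0, decide (l.getD (6 * i + 5) 0 = 1)))

theorem pt_parse : PT parse := by
  have h1 : PT fun l : List ℕ => List.range (l.length / 6) :=
    PT.range (by fun_prop) ((PT.pb_length PT.id).of_le fun _ => Nat.div_le_self _ _)
  unfold parse
  fun_prop

theorem parse_nats (φ : CNF3) : parse (natsCNF φ) = φ := by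
  induction φ with
  | nil => simp [parse, natsCNF]
  | cons c φ ih =>
    have e : natsCNF (c :: φ) = c.1.1 :: c.1.2.toNat :: c.2.1.1 :: c.2.1.2.toNat :: c.2.2.1
      :: c.2.2.2.toNat :: natsCNF φ := by simp [natsCNF]
    unfold parse at ih ⊢
    rw [e]
    simp only [List.length_cons]
    rw [show ((natsCNF φ).length + 1 + 1 + 1 + 1 + 1 + 1) / 6 = (natsCNF φ).length / 6 + 1 by omega,
      List.range_succ_eq_map, List.map_cons, List.map_map]
    refine congrArg₂ List.cons ?_ ?_
    · simp
    · refine Eq.trans (List.map_congr_left fun i _ => ?_) ih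
      have e0 : 6 * (i + 1) = 6 * i + 1 + 1 + 1 + 1 + 1 + 1 := by omega
      simp only [Function.comp_apply, Nat.succ_eq_add_one, e0, List.getD_cons_succ]

theorem pt_bitsOf : PT bitsOf := by
  unfold bitsOf
  fun_prop

theorem pt_natsCNF : PT natsCNF := by
  unfold natsCNF
  fun_prop

/-- An unsatisfiable formula. -/
def bad : CNF3 := [((0, true), (0, true), (0, true)), ((0, false), (0, false), (0, false))]

theorem not_sat_bad : ¬ Sat bad := by
  rintro ⟨σ, h⟩
  have h1 := h _ List.mem_cons_self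
  have h2 := h _ (List.mem_cons_of_mem _ List.mem_cons_self)
  simp only [clauseTrue, Bool.or_self, beq_iff_eq] at h1 h2
  rw [h1] at h2
  exact Bool.noConfusion h2

/-- The formula read from a bit string. -/
def rd (x : List Bool) : CNF3 :=
  if bitsOf (natsCNF (parse (dec x))) = x then parse (dec x) else bad

theorem pt_rd : PT rd := by
  have h1 := pt_parse.comp pt_dec
  exact PT.ite (PT.eq (pt_bitsOf.comp (pt_natsCNF.comp h1)) PT.id) h1 (PT.const _)

theorem sat_rd (x : List Bool) : Sat (rd x) ↔ ∃ φ, bitsOf (natsCNF φ) = x ∧ Sat φ := by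
  unfold rd
  constructor
  · intro h
    split_ifs at h with h1
    · exact ⟨_, h1, h⟩
    · exact (not_sat_bad h).elim
  · rintro ⟨φ, rfl, h⟩
    rw [dec_bitsOf, parse_nats, if_pos rfl]
    exact h

theorem le_ugVal {k : ℕ} (G : UG k) (hG : G ≠ []) (c : ℝ) (a : ℕ → Fin k)
    (h : c * G.length ≤ (ugCount G a : ℝ)) : c ≤ ugVal G := by
  have h0 : (0 : ℝ) < G.length := by exact_mod_cast List.length_pos_iff.2 hG
  refine le_ciSup_of_le ⟨1, ?_⟩ a ((le_div_iff₀ h0).2 h)
  rintro _ ⟨b, rfl⟩
  exact (div_le_one h0).2 (by exact_mod_cast List.countP_le_length)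

theorem ugVal_le {k : ℕ} (hk : 2 ≤ k) (G : UG k) (hG : G ≠ []) (c : ℝ)
    (h : ∀ a, (ugCount G a : ℝ) ≤ c * G.length) : ugVal G ≤ c := by
  have h0 : (0 : ℝ) < G.length := by exact_mod_cast List.length_pos_iff.2 hG
  have : Nonempty (ℕ → Fin k) := ⟨fun _ => ⟨0, by omega⟩⟩
  exact ciSup_le fun a => (div_le_iff₀ h0).2 (h a)

end Fnl

open Fnl in
theorem final_of (h : UGThm) (ε δ : ℝ) (hε : 0 < ε) (hδ : 0 < δ) :
    ∃ k : ℕ, 2 ≤ k ∧ ∃ f : List Bool → UG k,
      (∃ M : Turing.TM2ComputableInPolyTime id (fun G => bitsOf (natsUG G)) f,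
        ∀ j, Finite (M.tm.Γ j)) ∧
      ∀ x : List Bool, f x ≠ [] ∧
        ((∃ φ, bitsOf (natsCNF φ) = x ∧ Sat φ) → 1 - ε ≤ ugVal (f x)) ∧
        (¬ (∃ φ, bitsOf (natsCNF φ) = x ∧ Sat φ) → ugVal (f x) ≤ δ) := by
  obtain ⟨k, hk, f, hf, hφ⟩ := h ε δ hε hδ
  refine ⟨k, hk, fun x => f (rd x),
    (pt_bitsOf.comp (hf.comp pt_rd)).rawMachine _ _ _ fun _ => rfl, fun x => ?_⟩
  obtain ⟨h0, h1, h2⟩ := hφ (rd x)
  rw [← sat_rd]
  refine ⟨h0, fun hs => ?_, fun hs => ugVal_le hk _ h0 _ (h2 hs)⟩
  obtain ⟨a, ha⟩ := h1 hs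
  exact le_ugVal _ h0 _ a ha

end Vale.Agent.P325
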