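import Vale.Agent.P325.GadC

/-! Part D2: the gadget theorem from the genericity theorem. -/

namespace Vale.Agent.P325.Gd

open Finset
open scoped Classical BigOperators

theorem exists_proj {l r : ℕ} {W : Type} [AddCommGroup W] [Module (ZMod 2) W]
    (α : Bv l →ₗ[ZMod 2] W) (h : Nat.card (LinearMap.ker α) * 2 ^ r ≤ 2 ^ l) :
    ∃ T : W →ₗ[ZMod 2] Bv r, Function.Surjective (T ∘ₗ α) := by
  have h1 := LinearMap.finrank_range_add_finrank_ker α
  rw [Module.finrank_fintype_fun_eq_card, Fintype.card_fin] at h1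
  rw [Module.natCard_eq_pow_finrank (K := ZMod 2), Nat.card_zmod, ← pow_add,
    Nat.pow_le_pow_iff_right one_lt_two] at h
  have h2 : r ≤ Module.finrank (ZMod 2) (LinearMap.range α) := by omega
  let e := (Module.finBasis (ZMod 2) (LinearMap.range α)).equivFun
  obtain ⟨T, hT⟩ := LinearMap.exists_extend
    (LinearMap.funLeft (ZMod 2) (ZMod 2) (Fin.castLE h2) ∘ₗ e.toLinearMap)
  refine ⟨T, fun y => ?_⟩
  obtain ⟨z, rfl⟩ := LinearMap.funLeft_surjective_of_injective (ZMod 2) (ZMod 2) (Fin.castLE h2)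
    (Fin.castLE_injective h2) y
  obtain ⟨⟨_, x, rfl⟩, rfl⟩ := e.surjective z
  exact ⟨x, LinearMap.congr_fun hT ⟨α x, x, rfl⟩⟩

theorem transport {K : Type} [AddCommGroup K] [Module (ZMod 2) K] [Fintype K] (G : Gad K)
    {p δ : ℝ} {r : ℕ} (h1 : G.err ≤ p)
    (h2 : ∀ (W : Type) [AddCommGroup W] [Module (ZMod 2) W]
      (α : K →ₗ[ZMod 2] W) (β : G.B →ₗ[ZMod 2] W) (T : W →ₗ[ZMod 2] Bv r),
      Function.Surjective (T ∘ₗ α) → G.pk α β ≤ δ) {l : ℕ} (hl : Module.finrank (ZMod 2) K = l) :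
    ∃ (m : ℕ) (g : Bv m → Bv l) (a : G.Ω → Bv l × Bv m),
      ((univ.filter fun x : Bv m × G.Ω => (a x.2).1 + g (x.1 + (a x.2).2) ≠ g x.1).card : ℝ) ≤
        p * Fintype.card (Bv m × G.Ω) ∧ NoiseSound a r δ := by
  subst hl
  let eK := (Module.finBasis (ZMod 2) K).equivFun
  let eB := (Module.finBasis (ZMod 2) G.B).equivFun
  refine ⟨_, fun b => eK (G.g (eB.symm b)), fun ω => (eK (G.aK ω), eB (G.aB ω)), ?_, ?_⟩
  · refine card_le_of_ex _ (le_trans (le_of_eq ?_) h1)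
    rw [ex_prod]
    refine Fintype.expect_equiv eB.symm.toEquiv _ _ fun b =>
      expect_congr rfl fun ω _ => congrArg ind (propext ?_)
    simp only [map_add, LinearEquiv.symm_apply_apply, LinearEquiv.coe_toEquiv]
    rw [← map_add, Ne, Ne, eK.injective.eq_iff]
  · intro J _ S hS
    obtain ⟨T, hT⟩ := exists_proj (r := r) (S ∘ₗ LinearMap.inl (ZMod 2) _ _) (by
      refine le_trans (le_of_eq (congrArg (· * 2 ^ r) ?_)) hS
      rw [← Fintype.card_subtype, Nat.card_eq_fintype_card]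
      exact Fintype.card_congr (Equiv.refl _))
    have h3 := h2 (J → ZMod 2) ((S ∘ₗ LinearMap.inl (ZMod 2) _ _) ∘ₗ eK.toLinearMap)
      ((S ∘ₗ LinearMap.inr (ZMod 2) _ _) ∘ₗ eB.toLinearMap) T (by
        rw [← LinearMap.comp_assoc]
        exact hT.comp eK.surjective)
    refine card_le_of_ex _ (le_trans (le_of_eq ?_) h3)
    refine expect_congr rfl fun ω _ => congrArg ind (propext ?_)
    change _ ↔ S (eK (G.aK ω), 0) + S (0, eB (G.aB ω)) = 0
    rw [← map_add, Prod.mk_add_mk, add_zero, zero_add]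

theorem pow_le_exp {x : ℝ} (hx : 0 ≤ 1 + x) (n : ℕ) : (1 + x) ^ n ≤ Real.exp (n * x) := by
  rw [Real.exp_nat_mul]
  exact pow_le_pow_left₀ hx (by linarith [Real.add_one_le_exp x]) n

end Vale.Agent.P325.Gd

namespace Vale.Agent.P325

open Finset Gd
open scoped Classical BigOperators

theorem gadget_of (hG : GenThm) : GadgetThm := by
  intro p δ hp hδ
  obtain ⟨T, hT⟩ := exists_nat_ge (1 / p)
  obtain ⟨r, hr⟩ := exists_nat_ge (2 * Real.exp (3 * T) / δ)
  choose C hC using hG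
  refine ⟨r, fun l0 => ?_⟩
  set C0 : ℝ := ∑ ρ ∈ range (r + 1), (C ρ : ℝ) with hC0
  have hC1 : 0 ≤ C0 := sum_nonneg fun _ _ => Nat.cast_nonneg _
  obtain ⟨N, hN⟩ := exists_nat_ge (2 * ((T + 1) * (1 + (C0 + 1) * 2 ^ r)) / δ)
  let F := GaloisField 2 (l0 + N + 1)
  let _ : Fintype F := Fintype.ofFinite F
  have hcard : Fintype.card F = 2 ^ (l0 + N + 1) := by
    rw [← Nat.card_eq_fintype_card]
    exact GaloisField.card 2 _ (by omega)
  have hq : (1 : ℝ) ≤ Fintype.card F := by exact_mod_cast Fintype.card_pos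
  have hqN : (N : ℝ) ≤ Fintype.card F := by
    have h1 : l0 + N + 1 < 2 ^ (l0 + N + 1) := Nat.lt_two_pow_self
    exact_mod_cast (by omega : N ≤ Fintype.card F)
  obtain ⟨G, h1, h2⟩ := exists_level (F := F) r hC1 (fun ρ hρ => by
    have h3 : (((univ.filter fun α : Fin ρ → Fin 3 → F => ¬ Generic α).card : ℕ) : ℝ) *
        Fintype.card F ≤ C ρ * Fintype.card (Fin ρ → Fin 3 → F) := by exact_mod_cast hC ρ F
    have h4 : (C ρ : ℝ) ≤ C0 := single_le_sum (f := fun ρ => (C ρ : ℝ))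
      (fun _ _ => Nat.cast_nonneg _) (mem_range.2 (by omega))
    rw [ex_ind, div_le_div_iff₀ (by exact_mod_cast Fintype.card_pos) (by positivity)]
    exact h3.trans (mul_le_mul_of_nonneg_right h4 (Nat.cast_nonneg _)))
    (T * Fintype.card F ^ 2)
  obtain ⟨G', h3, h4⟩ := G.exists_top (h2 r le_rfl)
  have hfr : Module.finrank (ZMod 2) (Fin 3 → F) = 3 * (l0 + N + 1) := by
    rw [Module.finrank_pi_fintype, sum_const, card_univ, Fintype.card_fin, smul_eq_mul,
      GaloisField.finrank 2 (by omega)]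
  generalize hqq : (Fintype.card F : ℝ) = q at *
  have hq0 : 0 < q := by linarith
  have e1 : G'.err ≤ p := by
    refine h3.trans (h1.trans ?_)
    have h5 := pow_le_exp (x := -(1 / q ^ 2)) (by
      rw [← sub_eq_add_neg, sub_nonneg, div_le_one (by positivity)]
      exact one_le_pow₀ hq) (T * Fintype.card F ^ 2)
    rw [← sub_eq_add_neg] at h5
    refine h5.trans ?_
    have h6 : ((T * Fintype.card F ^ 2 : ℕ) : ℝ) * -(1 / q ^ 2) = -T := by
      push_cast
      rw [hqq]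
      field_simp
    rw [h6, Real.exp_neg, inv_le_comm₀ (Real.exp_pos _) hp, ← one_div]
    linarith [Real.add_one_le_exp (T : ℝ)]
  have e2 : (1 + 3 / q ^ 2) ^ (T * Fintype.card F ^ 2) / (r + 1) +
      (((T * Fintype.card F ^ 2 : ℕ) : ℝ) + 1) * (1 + (C0 + 1) * 2 ^ r) / q ^ 3 ≤ δ := by
    have h5 := pow_le_exp (x := 3 / q ^ 2) (by positivity) (T * Fintype.card F ^ 2)
    have h6 : ((T * Fintype.card F ^ 2 : ℕ) : ℝ) * (3 / q ^ 2) = 3 * T := by
      push_cast
      rw [hqq]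
      field_simp
    rw [h6] at h5
    have h7 : (1 + 3 / q ^ 2) ^ (T * Fintype.card F ^ 2) / (r + 1) ≤ δ / 2 := by
      rw [div_le_iff₀ hδ] at hr
      rw [div_le_iff₀ (by positivity)]
      nlinarith
    have h8 : (((T * Fintype.card F ^ 2 : ℕ) : ℝ) + 1) * (1 + (C0 + 1) * 2 ^ r) / q ^ 3 ≤
        δ / 2 := by
      rw [div_le_iff₀ hδ] at hN
      rw [div_le_iff₀ (by positivity)]
      push_cast
      rw [hqq]
      have h9 : (1 : ℝ) ≤ q ^ 2 := one_le_pow₀ hq
      have h10 : (T : ℝ) * q ^ 2 + 1 ≤ (T + 1) * q ^ 2 := by linarith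
      have h11 := mul_le_mul_of_nonneg_right h10 (by positivity : 0 ≤ 1 + (C0 + 1) * 2 ^ r)
      have h12 : (N : ℝ) * δ ≤ q * δ := mul_le_mul_of_nonneg_right hqN hδ.le
      have h13 := mul_le_mul_of_nonneg_right (hN.trans h12) (by positivity : 0 ≤ q ^ 2)
      nlinarith
    linarith
  obtain ⟨m, g, a, h5, h6⟩ := transport G' e1
    (fun W _ _ α β S hS => (h4 W α β S hS).trans e2) hfr
  exact ⟨_, m, G'.Ω, inferInstance, inferInstance, g, a, by omega, h5, h6⟩

end Vale.Agent.P325
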