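import Vale.Agent.P325.Inv1

/-! The inverse lemma. -/

namespace Vale.Agent.P325.Inv

open Finset
open scoped Classical BigOperators

variable {l m k : ℕ}

/-- Tables are indexed by these arrays of vectors. -/
abbrev Gr (l m k : ℕ) : Type := Fin k × Fin 3 → Bv l × Bv m

/-- Bit strings indexed by the positions. -/
abbrev Xs (k : ℕ) : Type := Fin k × Fin 3 → ZMod 2

/-- The array `x ⊗ v`. -/
def tn (x : Xs k) (v : Bv l × Bv m) : Gr l m k := fun j => x j • v

/-- The array which is constant on each block. -/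
def nn (m : ℕ) (n : Fin k → Bv l) : Gr l m k := fun j => (n j.1, 0)

/-- The shift of the label. -/
def sig (b : Fin k → ZMod 2) (n : Fin k → Bv l) : Bv l := ∑ i, b i • n i

lemma tn_add (x y : Xs k) (v : Bv l × Bv m) : tn (x + y) v = tn x v + tn y v := by
  funext j; simp [tn, add_smul]

lemma tn_add' (x : Xs k) (κ μ : Bv l) :
    tn x ((κ + μ, 0) : Bv l × Bv m) = tn x (κ, 0) + tn x (μ, 0) := by
  funext j; simp [tn]

lemma nn_add (n n' : Fin k → Bv l) : nn m (n + n') = nn m n + nn m n' := by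
  funext j; simp [nn]

lemma sig_add (b : Fin k → ZMod 2) (n n' : Fin k → Bv l) :
    sig b (n + n') = sig b n + sig b n' := by
  simp [sig, sum_add_distrib]

lemma exp_prod {A B : Type} [Fintype A] [Fintype B] (f : A × B → ℝ) :
    𝔼 p, f p = 𝔼 a, 𝔼 b, f (a, b) := by
  rw [← univ_product_univ, expect_product]

/-- Average along the direction `v`. -/
noncomputable def av (v : Bv l × Bv m) (h : Gr l m k → ℝ) (M : Gr l m k) : ℝ :=
  𝔼 x : Xs k, h (M + tn x v)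

lemma av_shift (v : Bv l × Bv m) (h : Gr l m k → ℝ) (M : Gr l m k) (x : Xs k) :
    av v h (M + tn x v) = av v h M := by
  unfold av
  rw [← exp_add (fun y => h (M + tn y v)) x]
  simp only [tn_add, add_assoc, add_comm (tn x v)]

lemma av2_shift (v w : Bv l × Bv m) (h : Gr l m k → ℝ) (M : Gr l m k) (x y : Xs k) :
    av v (av w h) (M + (tn x v + tn y w)) = av v (av w h) M := by
  rw [← av_shift v (av w h) M x]
  unfold av
  refine expect_congr rfl fun s _ => ?_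
  have := av_shift w h (M + tn x v + tn s v) y
  unfold av at this
  rw [← this]
  congr 2 with t
  congr 1
  abel

lemma exp_shift2 (H : Gr l m k → ℝ) (g : Xs k → Xs k → Gr l m k) :
    𝔼 M, 𝔼 x, 𝔼 y, H (M + g x y) = 𝔼 M, H M := by
  have := exp_shift (fun M (_ : Xs k × Xs k) => H M) (fun p => g p.1 p.2)
  simpa only [exp_prod, Fintype.expect_const] using this

lemma sq_av (v w : Bv l × Bv m) (h : Gr l m k → ℝ) :
    𝔼 M, h M * av v (av w h) M = 𝔼 M, av v (av w h) M ^ 2 := by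
  rw [← exp_shift2 (fun M => h M * av v (av w h) M) (fun x y => tn x v + tn y w)]
  refine expect_congr rfl fun M _ => ?_
  simp only [av2_shift, ← expect_mul, sq]
  congr 1
  simp only [av, add_assoc]

lemma tri (κ μ : Bv l) (h1 h2 h3 : Gr l m k → ℝ) :
    𝔼 M, 𝔼 x : Xs k, 𝔼 y : Xs k, av (κ, 0) h1 (M + tn y (μ, 0)) * av (μ, 0) h2 (M + tn x (κ, 0)) *
        av (κ + μ, 0) h3 (M + tn (x + y) (μ, 0)) =
      𝔼 M, av (κ, 0) h1 M * av (μ, 0) h2 M * av (κ + μ, 0) h3 M := by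
  rw [← exp_shift2 (fun M => av (κ, 0) h1 M * av (μ, 0) h2 M * av (κ + μ, 0) h3 M)
    (fun x y => tn x (κ, 0) + tn y (μ, 0))]
  refine expect_congr rfl fun M _ => expect_congr rfl fun x _ => expect_congr rfl fun y _ => ?_
  rw [← av_shift (κ, 0) h1 (M + tn y (μ, 0)) x, ← av_shift (μ, 0) h2 (M + tn x (κ, 0)) y,
    ← av_shift (κ + μ, 0) h3 (M + tn (x + y) (μ, 0)) x]
  have e1 : M + tn y (μ, 0) + tn x (κ, 0) = M + (tn x (κ, 0) + tn y (μ, 0)) := by abel
  have e3 : M + tn (x + y) (μ, 0) + tn x (κ + μ, 0) = M + (tn x (κ, 0) + tn y (μ, 0)) := by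
    rw [tn_add, tn_add']
    have := two_mod (tn x ((μ, 0) : Bv l × Bv m))
    calc _ = M + (tn x (κ, 0) + tn y (μ, 0)) + (tn x (μ, 0) + tn x (μ, 0)) := by abel
      _ = _ := by rw [this, add_zero]
  rw [e1, e3, add_assoc M]

lemma abs_av (v : Bv l × Bv m) (h : Gr l m k → ℝ) (hh : ∀ M, |h M| ≤ 1) (M : Gr l m k) :
    |av v h M| ≤ 1 :=
  (abs_expect_le _ _).trans (expect_le univ_nonempty fun _ _ => hh _)

variable (b : Fin k → ZMod 2) (F : Gr l m k → Bv l)

/-- The distribution of the folded label. -/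
noncomputable def pp (u : Bv l) (M : Gr l m k) : ℝ :=
  𝔼 n : Fin k → Bv l, if F (M + nn m n) + sig b n = u then 1 else 0

lemma pp_nonneg (u : Bv l) (M : Gr l m k) : 0 ≤ pp b F u M :=
  expect_nonneg fun _ _ => by positivity

lemma pp_le (u : Bv l) (M : Gr l m k) : pp b F u M ≤ 1 :=
  expect_le univ_nonempty fun _ _ => by split_ifs <;> norm_num

lemma sum_pp_mul (q : Bv l → ℝ) (M : Gr l m k) :
    ∑ u, pp b F u M * q u = 𝔼 n : Fin k → Bv l, q (F (M + nn m n) + sig b n) := by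
  simp only [pp, expect_mul, ← expect_sum_comm, ite_mul, one_mul, zero_mul, sum_ite_eq, mem_univ,
    if_true]

lemma sum_pp (M : Gr l m k) : ∑ u, pp b F u M = 1 := by
  simpa using sum_pp_mul b F (fun _ => 1) M

lemma pp_shift (u : Bv l) (M : Gr l m k) (n : Fin k → Bv l) :
    pp b F (u + sig b n) M = pp b F u (M + nn m n) := by
  unfold pp
  rw [← exp_add (fun n' => if F (M + nn m n') + sig b n' = u + sig b n then (1 : ℝ) else 0) n]
  refine expect_congr rfl fun n' _ => ?_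
  refine if_congr ?_ rfl rfl
  rw [nn_add, sig_add, ← add_assoc (F _), add_left_inj, add_comm (nn m n'), add_assoc]

lemma coll_eq (g : Gr l m k) :
    ∑ u, 𝔼 M, pp b F u M * pp b F u (M + g) =
      𝔼 M, 𝔼 n : Fin k → Bv l, if F (M + g + nn m n) = F M + sig b n then (1 : ℝ) else 0 := by
  rw [← expect_sum_comm]
  simp only [sum_pp_mul, pp_shift, add_right_comm _ g]
  rw [exp_shift (fun M (_ : Fin k → Bv l) => pp b F (F M) (M + g)) (nn m)]
  simp only [Fintype.expect_const, pp, add_right_comm _ g]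
  refine expect_congr rfl fun M _ => expect_congr rfl fun n _ => ?_
  refine if_congr ⟨fun h => ?_, fun h => ?_⟩ rfl rfl
  · rw [← h, add_assoc (F _), two_mod, add_zero]
  · rw [h, add_assoc (F _), two_mod, add_zero]

lemma acc_eq {Ω : Type} [Fintype Ω] (a : Ω → Bv l × Bv m) :
    acc a b F = ∑ u, 𝔼 M, 𝔼 i : Ω × Xs k, pp b F u M * pp b F u (M + tn i.2 (a i.1)) := by
  have e : ∀ u, 𝔼 M, 𝔼 i : Ω × Xs k, pp b F u M * pp b F u (M + tn i.2 (a i.1)) =
      𝔼 i : Ω × Xs k, 𝔼 M, pp b F u M * pp b F u (M + tn i.2 (a i.1)) := fun u => expect_comm _ _ _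
  simp only [e]
  rw [← expect_sum_comm]
  simp only [coll_eq]
  rw [expect_comm]
  simp only [exp_prod]
  rfl

lemma exp_dot (t : Xs k) : 𝔼 y : Xs k, sg (y ⬝ᵥ t) = if t = 0 then 1 else 0 := by
  split_ifs with h
  · simp [h, sg_zero]
  · exact (isChar_dot _).orth t h

lemma noise_char {Ω : Type} [Fintype Ω] [Nonempty Ω] (a : Ω → Bv l × Bv m) (r : ℕ) (δ : ℝ)
    (hs : NoiseSound a r δ) (hδ : 0 ≤ δ) (S : Gr l m k →ₗ[ZMod 2] ZMod 2) :
    𝔼 i : Ω × Xs k, sg (S (tn i.2 (a i.1))) ≤ δ + 4 ^ r *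
      𝔼 j : (Bv l × Bv l) × Xs k × Xs k,
        sg (S (tn j.2.1 (j.1.1, 0) + tn j.2.2 (j.1.2, 0))) := by
  let T : (Bv l × Bv m) →ₗ[ZMod 2] Xs k :=
    LinearMap.pi fun j => S ∘ₗ LinearMap.single (ZMod 2) (fun _ => Bv l × Bv m) j
  have hT : ∀ y v, S (tn y v) = y ⬝ᵥ T v := by
    intro y v
    rw [← univ_sum_single (tn y v), map_sum]
    refine sum_congr rfl fun j _ => ?_
    simp only [tn, Pi.single_smul', map_smul, smul_eq_mul, T, LinearMap.pi_apply,
      LinearMap.comp_apply, LinearMap.coe_single]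
  simp only [exp_prod, map_add, sg_add, hT, ← mul_expect, ← expect_mul, exp_dot]
  rw [← Fintype.expect_mul_expect (fun κ : Bv l => if T (κ, 0) = 0 then (1 : ℝ) else 0)
    (fun κ : Bv l => if T (κ, 0) = 0 then (1 : ℝ) else 0)]
  have e1 : 𝔼 ω, (if T (a ω) = 0 then (1 : ℝ) else 0) =
      ((univ.filter fun ω => T (a ω) = 0).card : ℝ) / Fintype.card Ω := by
    rw [Fintype.expect_eq_sum_div_card, sum_boole]
  have e2 : 𝔼 κ : Bv l, (if T (κ, 0) = 0 then (1 : ℝ) else 0) =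
      ((univ.filter fun κ : Bv l => T (κ, 0) = 0).card : ℝ) / 2 ^ l := by
    rw [Fintype.expect_eq_sum_div_card, sum_boole]; simp
  have hΩ : (0 : ℝ) < Fintype.card Ω := by exact_mod_cast Fintype.card_pos
  by_cases h : (univ.filter fun κ : Bv l => T (κ, 0) = 0).card * 2 ^ r ≤ 2 ^ l
  · have h1 := hs _ T h
    rw [e1, e2]
    have : ((univ.filter fun ω => T (a ω) = 0).card : ℝ) / Fintype.card Ω ≤ δ :=
      (div_le_iff₀ hΩ).2 h1
    refine this.trans (le_add_of_nonneg_right ?_)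
    positivity
  · have h1 : 𝔼 ω, (if T (a ω) = 0 then (1 : ℝ) else 0) ≤ 1 :=
      expect_le univ_nonempty fun _ _ => by split_ifs <;> norm_num
    rw [e2]
    have h2 : (2 : ℝ) ^ l ≤ (univ.filter fun κ : Bv l => T (κ, 0) = 0).card * 2 ^ r := by
      exact_mod_cast (not_le.1 h).le
    generalize ((univ.filter fun κ : Bv l => T (κ, 0) = 0).card : ℝ) = c at *
    have h3 : 1 ≤ c / 2 ^ l * 2 ^ r := by
      rw [div_mul_eq_mul_div, le_div_iff₀ (by positivity)]; linarith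
    have h4 : (4 : ℝ) ^ r = 2 ^ r * 2 ^ r := by rw [← mul_pow]; norm_num
    rw [h4]
    nlinarith

/-- The plane collision probability. -/
noncomputable def pc : ℝ :=
  𝔼 κ : Bv l, 𝔼 μ : Bv l, 𝔼 M, ∑ u, av (κ, 0) (av (μ, 0) (pp b F u)) M ^ 2

lemma acc_le {Ω : Type} [Fintype Ω] [Nonempty Ω] (a : Ω → Bv l × Bv m) (r : ℕ) (δ : ℝ)
    (hs : NoiseSound a r δ) (hδ : 0 ≤ δ) : acc a b F ≤ δ + 4 ^ r * pc b F := by
  have : Finite (Gr l m k →ₗ[ZMod 2] ZMod 2) := DFunLike.finite _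
  let := Fintype.ofFinite (Gr l m k →ₗ[ZMod 2] ZMod 2)
  rw [acc_eq]
  refine (sum_le_sum fun u _ => (isChar_dual (Gr l m k)).psd _ _ δ (4 ^ r)
    (noise_char a r δ hs hδ) (pp b F u)).trans ?_
  rw [sum_add_distrib, ← mul_sum, ← mul_sum]
  refine add_le_add ?_ (le_of_eq ?_)
  · refine mul_le_of_le_one_right hδ ?_
    rw [← expect_sum_comm]
    refine expect_le univ_nonempty fun M _ => ?_
    rw [← sum_pp b F M]
    refine sum_le_sum fun u _ => ?_
    have := pp_nonneg b F u M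
    have := pp_le b F u M
    nlinarith
  · congr 1
    simp only [pc, expect_sum_comm, ← sq_av]
    refine sum_congr rfl fun u _ => ?_
    simp only [exp_prod]
    rw [expect_comm]
    refine expect_congr rfl fun κ _ => ?_
    rw [expect_comm]
    simp only [av, mul_expect, add_assoc]

/-- Fourier transform of the label distribution. -/
noncomputable def ff (φ : Bv l) (M : Gr l m k) : ℝ := ∑ u, pp b F u M * sg (φ ⬝ᵥ u)

lemma ff_eq (φ : Bv l) (M : Gr l m k) :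
    ff b F φ M = 𝔼 n : Fin k → Bv l, sg (φ ⬝ᵥ (F (M + nn m n) + sig b n)) :=
  sum_pp_mul b F (fun u => sg (φ ⬝ᵥ u)) M

lemma abs_ff (φ : Bv l) (M : Gr l m k) : |ff b F φ M| ≤ 1 := by
  rw [ff_eq]
  exact (abs_expect_le _ _).trans (expect_le univ_nonempty fun _ _ => (abs_sg _).le)

lemma ff_shift (φ : Bv l) (M : Gr l m k) (n : Fin k → Bv l) :
    ff b F φ (M + nn m n) = ff b F φ M * sg (φ ⬝ᵥ sig b n) := by
  rw [ff_eq, ff_eq, expect_mul,
    ← exp_add (fun n' => sg (φ ⬝ᵥ (F (M + nn m n') + sig b n')) * sg (φ ⬝ᵥ sig b n)) n]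
  refine expect_congr rfl fun n' _ => ?_
  rw [← sg_add, ← dotProduct_add, nn_add, sig_add, add_assoc (F _), add_assoc (sig b n'), two_mod,
    add_zero, add_assoc, add_comm (nn m n)]

lemma av_ff (v : Bv l × Bv m) (φ : Bv l) (M : Gr l m k) :
    ∑ u, av v (pp b F u) M * sg (φ ⬝ᵥ u) = av v (ff b F φ) M := by
  simp only [av, ff, expect_mul, expect_sum_comm]

/-- The triangle density. -/
noncomputable def tt : ℝ :=
  𝔼 κ : Bv l, 𝔼 μ : Bv l, 𝔼 M, 𝔼 φ, 𝔼 ψ,
    av (κ, 0) (ff b F φ) M * av (μ, 0) (ff b F ψ) M * av (κ + μ, 0) (ff b F (φ + ψ)) M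

lemma cube_le_tt {s : ℝ} (hs : 0 ≤ s) (h : s ≤ pc b F) : s ^ 3 ≤ tt b F := by
  have h1 : 3 * s ^ 2 * pc b F - 2 * s ^ 3 ≤
      𝔼 κ : Bv l, 𝔼 μ : Bv l, 𝔼 M, ∑ u, av (κ, 0) (av (μ, 0) (pp b F u)) M ^ 4 := by
    have : 3 * s ^ 2 * pc b F - 2 * s ^ 3 = 𝔼 κ : Bv l, 𝔼 μ : Bv l, 𝔼 M,
        (3 * s ^ 2 * ∑ u, av (κ, 0) (av (μ, 0) (pp b F u)) M ^ 2 - 2 * s ^ 3) := by
      simp only [pc, expect_sub_distrib, ← mul_expect, Fintype.expect_const]
    rw [this]
    refine expect_le_expect fun κ _ => expect_le_expect fun μ _ => expect_le_expect fun M _ => ?_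
    refine tangent _ (fun u => ?_) ?_ hs
    · exact expect_nonneg fun _ _ => expect_nonneg fun _ _ => pp_nonneg b F _ _
    · simp only [av, ← expect_sum_comm, sum_pp, Fintype.expect_const]
  have h2 : 𝔼 κ : Bv l, 𝔼 μ : Bv l, 𝔼 M, ∑ u, av (κ, 0) (av (μ, 0) (pp b F u)) M ^ 4 ≤
      tt b F := by
    refine expect_le_expect fun κ _ => expect_le_expect fun μ _ => ?_
    simp only [← av_ff, ← coll3, expect_sum_comm]
    refine sum_le_sum fun u _ => ?_
    rw [← tri]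
    refine expect_le_expect fun M _ => ?_
    refine (box two_mod (fun x y : Xs k => pp b F u (M + tn x (κ, 0) + tn y (μ, 0)))
      (fun _ _ => pp_nonneg b F _ _) (fun _ _ => pp_le b F _ _)).trans (le_of_eq ?_)
    refine expect_congr rfl fun x _ => expect_congr rfl fun y _ => ?_
    unfold av
    congr 2
    · simp only [add_right_comm M]
    · funext t
      rw [tn_add t, tn_add']
      congr 1
      abel
  nlinarith [mul_le_mul_of_nonneg_left h (sq_nonneg s)]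

/-- Solutions of the equations. -/
def Valid (z : Xs k) : Prop := ∀ i, z (i, 0) + z (i, 1) + z (i, 2) = b i

lemma exists_sel : ∃ z : Bv l → Bv l → Gr l m k → Xs k, (∀ φ κ M, Valid b (z φ κ M)) ∧
    ∀ φ κ M w, Valid b w → |lineCoef F φ κ M w| ≤ |lineCoef F φ κ M (z φ κ M)| := by
  have : ∀ φ κ M, ∃ z, Valid b z ∧ ∀ w, Valid b w → |lineCoef F φ κ M w| ≤ |lineCoef F φ κ M z| := by
    intro φ κ M
    obtain ⟨z, h1, h2⟩ := exists_max_image (univ.filter (Valid b))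
      (fun w => |lineCoef F φ κ M w|) ⟨fun j => if j.2 = 0 then b j.1 else 0, by simp [Valid]⟩
    exact ⟨z, (mem_filter.1 h1).2, fun w hw => h2 w (mem_filter.2 ⟨mem_univ _, hw⟩)⟩
  choose z h1 h2 using this
  exact ⟨z, h1, h2⟩

lemma lc_invalid (φ κ : Bv l) (h : φ ⬝ᵥ κ = 1) (M : Gr l m k) (w : Xs k) (hw : ¬ Valid b w) :
    𝔼 x : Xs k, ff b F φ (M + tn x (κ, 0)) * sg (w ⬝ᵥ x) = 0 := by
  obtain ⟨i, hi⟩ := not_forall.1 hw
  have h0 := exp_add (fun x : Xs k => ff b F φ (M + tn x (κ, 0)) * sg (w ⬝ᵥ x))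
    (fun j => if j.1 = i then 1 else 0)
  have e1 : tn (fun j : Fin k × Fin 3 => if j.1 = i then (1 : ZMod 2) else 0)
      ((κ, 0) : Bv l × Bv m) = nn m (Pi.single i κ) := by
    funext j
    by_cases hj : j.1 = i <;> simp [tn, nn, hj, Prod.ext_iff]
  have e2 : φ ⬝ᵥ sig b (Pi.single i κ) = b i := by
    rw [sig, sum_eq_single i (fun j _ hj => by simp [hj]) (by simp)]
    simp [h]
  have e3 : w ⬝ᵥ (fun j : Fin k × Fin 3 => if j.1 = i then (1 : ZMod 2) else 0) =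
      w (i, 0) + w (i, 1) + w (i, 2) := by
    rw [dotProduct, Fintype.sum_prod_type, sum_eq_single i (fun j _ hj => by simp [hj]) (by simp)]
    simp [Fin.sum_univ_three]
  have e4 : sg (b i) * sg (w (i, 0) + w (i, 1) + w (i, 2)) = -1 := by
    generalize w (i, 0) + w (i, 1) + w (i, 2) = t at hi
    rcases z2 t with rfl | rfl <;> rcases z2 (b i) with h | h <;> simp_all [sg]
  have e5 : ∀ x : Xs k, ff b F φ (M + tn (x + fun j => if j.1 = i then 1 else 0) (κ, 0)) *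
      sg (w ⬝ᵥ (x + fun j => if j.1 = i then 1 else 0)) =
      -(ff b F φ (M + tn x (κ, 0)) * sg (w ⬝ᵥ x)) := fun x => by
    rw [tn_add, e1, ← add_assoc, ff_shift, e2, dotProduct_add, e3, sg_add, mul_mul_mul_comm, e4]
    ring
  simp only [e5, expect_neg_distrib] at h0
  linarith

lemma lc_eq (φ κ : Bv l) (M : Gr l m k) (w : Xs k) :
    𝔼 x : Xs k, ff b F φ (M + tn x (κ, 0)) * sg (w ⬝ᵥ x) =
      𝔼 n : Fin k → Bv l, sg (φ ⬝ᵥ sig b n) * lineCoef F φ κ (M + nn m n) w := by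
  simp only [ff_eq, expect_mul, lineCoef, mul_expect]
  rw [expect_comm]
  refine expect_congr rfl fun n _ => expect_congr rfl fun x _ => ?_
  rw [add_right_comm M, dotProduct_add, sg_add, sg_add, mul_comm (sg (φ ⬝ᵥ F _)), mul_assoc]
  rfl

lemma other_le (B : Gr l m k → ℝ) (κ μ φ ψ θ : Bv l) (h : ψ ⬝ᵥ κ = 1) (h0 : ∀ M, 0 ≤ B M)
    (hB : ∀ M w, Valid b w → |lineCoef F ψ κ M w| ≤ B M) :
    𝔼 M, av (κ, 0) (ff b F φ) M * av (μ, 0) (ff b F ψ) M * av (κ + μ, 0) (ff b F θ) M ≤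
      𝔼 M, B M := by
  have e : 𝔼 M, B M = 𝔼 M, 𝔼 y : Xs k, 𝔼 n : Fin k → Bv l, B (M + tn y (μ, 0) + nn m n) := by
    have := exp_shift (fun M (_ : Xs k × (Fin k → Bv l)) => B M)
      (fun p => tn p.1 (μ, 0) + nn m p.2)
    simpa only [exp_prod, Fintype.expect_const, add_assoc] using this.symm
  rw [← tri, e]
  refine expect_le_expect fun M _ => ?_
  refine (isChar_dot (Fin k × Fin 3)).bound3
    (fun y => av (κ, 0) (ff b F φ) (M + tn y (μ, 0)))
    (fun x => av (μ, 0) (ff b F ψ) (M + tn x (κ, 0)))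
    (fun w => av (κ + μ, 0) (ff b F θ) (M + tn w (μ, 0))) _
    (fun _ => abs_av _ _ (abs_ff b F _) _) (fun _ => abs_av _ _ (abs_ff b F _) _) fun w => ?_
  simp only [av, expect_mul]
  rw [expect_comm]
  refine (abs_expect_le _ _).trans (expect_le_expect fun y _ => ?_)
  simp only [add_right_comm M _ (tn y _)]
  by_cases hw : Valid b w
  · rw [lc_eq]
    refine (abs_expect_le _ _).trans (expect_le_expect fun n _ => ?_)
    rw [abs_mul, abs_sg, one_mul]
    exact hB _ _ hw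
  · rw [lc_invalid b F ψ κ h _ w hw, abs_zero]
    exact expect_nonneg fun _ _ => h0 _

lemma tt_le (B : Bv l → Bv l → Gr l m k → ℝ) (h0 : ∀ φ κ M, 0 ≤ B φ κ M)
    (hB : ∀ φ κ M w, Valid b w → |lineCoef F φ κ M w| ≤ B φ κ M) :
    tt b F ≤ 1 / Real.sqrt (2 ^ l) +
      2 * 𝔼 φ : Bv l, 𝔼 κ : Bv l, 𝔼 M, if φ ⬝ᵥ κ = 1 then B φ κ M else 0 := by
  set t : Bv l → Bv l → Gr l m k → Bv l → Bv l → ℝ := fun κ μ M φ ψ =>
    av (κ, 0) (ff b F φ) M * av (μ, 0) (ff b F ψ) M * av (κ + μ, 0) (ff b F (φ + ψ)) M with ht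
  have e : tt b F = (𝔼 κ, 𝔼 μ, 𝔼 M, 𝔼 φ, 𝔼 ψ, t κ μ M φ ψ * sg (ψ ⬝ᵥ κ)) +
      2 * 𝔼 κ, 𝔼 μ, 𝔼 M, 𝔼 φ, 𝔼 ψ, t κ μ M φ ψ * if ψ ⬝ᵥ κ = 1 then 1 else 0 := by
    simp only [mul_expect, ← expect_add_distrib]
    refine expect_congr rfl fun κ _ => expect_congr rfl fun μ _ => expect_congr rfl fun M _ =>
      expect_congr rfl fun φ _ => expect_congr rfl fun ψ _ => ?_
    change t κ μ M φ ψ = _
    linear_combination t κ μ M φ ψ * one_eq_sg (ψ ⬝ᵥ κ)
  rw [e]
  refine add_le_add ?_ (mul_le_mul_of_nonneg_left ?_ (by norm_num))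
  · have : ∀ κ, 𝔼 μ, 𝔼 M, 𝔼 φ, 𝔼 ψ, t κ μ M φ ψ * sg (ψ ⬝ᵥ κ) =
        𝔼 M, 𝔼 μ, 𝔼 φ, 𝔼 ψ, t κ μ M φ ψ * sg (ψ ⬝ᵥ κ) := fun κ => expect_comm _ _ _
    simp only [this]
    rw [expect_comm]
    refine expect_le univ_nonempty fun M _ => ?_
    have h := twisted (fun φ κ : Bv l => av (κ, 0) (ff b F φ) M)
      (fun _ _ => abs_av _ _ (abs_ff b F _) _)
    simpa using h
  · rw [expect_comm univ univ fun φ κ => 𝔼 M, if φ ⬝ᵥ κ = 1 then B φ κ M else 0]
    refine expect_le_expect fun κ _ => expect_le univ_nonempty fun μ _ => ?_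
    rw [expect_comm]
    refine expect_le univ_nonempty fun φ _ => ?_
    rw [expect_comm]
    refine expect_le_expect fun ψ _ => ?_
    by_cases h : ψ ⬝ᵥ κ = 1
    · simp only [h, if_true, mul_one]
      exact other_le b F _ κ μ φ ψ _ h (h0 ψ κ) (hB ψ κ)
    · simp [h]

end Vale.Agent.P325.Inv

namespace Vale.Agent.P325

theorem invThm : InvThm := by
  intro l m Ω _ _ a r δ hs hδ k b F
  obtain ⟨z, h1, h2⟩ := Inv.exists_sel b F
  refine ⟨z, h1, ?_⟩
  have h3 := Inv.tt_le b F (fun φ κ M => |lineCoef F φ κ M (z φ κ M)|)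
    (fun _ _ _ => abs_nonneg _) h2
  have h4 := Inv.acc_le b F a r δ hs hδ
  have h5 : 0 ≤ Inv.pc b F := Finset.expect_nonneg fun _ _ => Finset.expect_nonneg fun _ _ =>
    Finset.expect_nonneg fun _ _ => Finset.sum_nonneg fun _ _ => sq_nonneg _
  have h6 : max 0 (acc a b F - δ) / 4 ^ r ≤ Inv.pc b F := by
    rw [div_le_iff₀ (by positivity)]
    exact max_le (by positivity) (by linarith)
  have h7 := Inv.cube_le_tt b F (by positivity) h6
  linarith

end Vale.Agent.P325
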