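import Vale.Agent.P325.LinGame

/-! The reduction of Hastad from gap formulas to linear equations. -/

namespace Vale.Agent.P325.Lin

open Vale.Agent.Lib.PolyTime Finset
open scoped BigOperators Classical

variable {t n : ℕ}

/-- Templates of equations. -/
abbrev Tm (t n : ℕ) : Type :=
  (Fin t → Mode) × ((Fin t → Bool) → ZMod 2) × ((Fin t → Fin 3 → Bool) → Fin n) ×
    ((Fin t → Fin 3 → Bool) → ZMod 2)

/-- A number for an element of a finite type. -/
noncomputable def code {β : Type} [Fintype β] (x : β) : ℕ := Fintype.equivFin β x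

theorem code_inj {β : Type} [Fintype β] {x y : β} (h : code x = code y) : x = y :=
  (Fintype.equivFin β).injective (Fin.ext h)

/-- Names of the entries of the small tables. -/
noncomputable def nameA (U : Fin t → Option ℕ) (f : (Fin t → Bool) → ZMod 2) : ℕ :=
  enc (false, enc (List.ofFn U, code f))

/-- Names of the entries of the large tables. -/
noncomputable def nameB (W : Fin t → Cl) (g : (Fin t → Fin 3 → Bool) → ZMod 2) : ℕ :=
  enc (true, enc (List.ofFn W, code g))

/-- Folding. -/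
def fold (f : (Fin t → Bool) → ZMod 2) : (Fin t → Bool) → ZMod 2 :=
  fun a => f a + f fun _ => false

/-- Conditioning on valid answers. -/
noncomputable def cond (s : Fin t × Fin 3 → Bool) (g : (Fin t → Fin 3 → Bool) → ZMod 2) :
    (Fin t → Fin 3 → Bool) → ZMod 2 := fun b => if ok s b then g b else 0

/-- The signs of a tuple of clauses. -/
def sgs (W : Fin t → Cl) : Fin t × Fin 3 → Bool := fun x => csgn (W x.1) x.2

/-- The projection of the repeated game. -/
def prj (m : Fin t → Mode) (b : Fin t → Fin 3 → Bool) : Fin t → Bool := fun i => pr1 (m i) (b i)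

/-- One equation. -/
noncomputable def eqn (W : Fin t → Cl) (τ : Tm t n) : ℕ × ℕ × ℕ × Bool :=
  (nameA (fun i => aq (W i) (τ.1 i)) (fold τ.2.1), nameB W (cond (sgs W) τ.2.2.2),
    nameB W (cond (sgs W) (τ.2.2.2 + ((fun b => τ.2.1 (prj τ.1 b)) + noise τ.2.2.1))),
    decide ((τ.2.1 fun _ => false) = 1))

/-- The system of equations. -/
noncomputable def red (t n : ℕ) (ψ : CNF3) : Lin3 :=
  (tuples t ψ).flatMap fun W => (univ : Finset (Tm t n)).toList.map
    (eqn fun i : Fin t => W.getD i default)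

theorem pt_cvar {α : Type} [Enc α] {c : α → Cl} (hc : PT c) (p : Fin 3) :
    PT fun a => cvar (c a) p := by
  unfold cvar
  split_ifs <;> fun_prop

theorem pt_csgn {α : Type} [Enc α] {c : α → Cl} (hc : PT c) (p : Fin 3) :
    PT fun a => csgn (c a) p := by
  unfold csgn
  split_ifs <;> fun_prop

theorem pt_aq {α : Type} [Enc α] {c : α → Cl} (hc : PT c) (m : Mode) :
    PT fun a => aq (c a) m := by
  have := pt_cvar hc m.1
  unfold aq
  split_ifs <;> fun_prop

theorem pt_eqn {α : Type} [Enc α] {W : α → Fin t → Cl} (hW : ∀ i, PT fun a => W a i)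
    (τ : Tm t n) : PT fun a => eqn (W a) τ := by
  have h1 : PT fun a => List.ofFn (W a) := pt_ofFn W hW
  have h2 : PT fun a => List.ofFn fun i => aq (W a i) (τ.1 i) :=
    pt_ofFn (fun a i => aq (W a i) (τ.1 i)) fun i => pt_aq (hW i) _
  have h3 : ∀ g, PT fun a => nameB (W a) (cond (sgs (W a)) g) := fun g => by
    have h4 : PT fun a => code (cond (sgs (W a)) g) :=
      pt_finite_fun (fun a => sgs (W a)) (fun x => pt_csgn (hW x.1) x.2)
        (fun s _ => code (cond s g)) fun _ => PT.const _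
    exact ((PT.const true).mk (h1.mk h4).encN).encN
  exact (((PT.const false).mk (h2.mk (PT.const _)).encN).encN).mk
    ((h3 _).mk ((h3 _).mk (PT.const _)))

theorem pt_red (t n : ℕ) : PT (red t n) := by
  unfold red
  refine PT.flatMap (f := fun (_ : CNF3) (W : List Cl) => (univ : Finset (Tm t n)).toList.map
    (eqn fun i : Fin t => W.getD i default)) ?_ (pt_tuples t PT.id)
  refine pt_map_const _ (fun (p : CNF3 × List Cl) τ => eqn (fun i : Fin t => p.2.getD i default) τ)
    fun τ _ => pt_eqn (fun i => ?_) τ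
  fun_prop

theorem sum_red (ψ : CNF3) (F : ℕ × ℕ × ℕ × Bool → ℝ) :
    ((red t n ψ).map F).sum =
      ∑ u : Fin t → Fin ψ.length, ∑ τ : Tm t n, F (eqn (fun i => ψ[u i]) τ) := by
  rw [red, sum_flatMap_eq, sum_tuples]
  refine sum_congr rfl fun u _ => ?_
  rw [List.map_map, sum_toList_univ]
  refine sum_congr rfl fun τ _ => ?_
  have e : (fun i : Fin t => (List.ofFn fun i => ψ[u i]).getD i default) = fun i => ψ[u i] := by
    funext i
    simp
  rw [Function.comp_apply, e]

theorem length_red (ψ : CNF3) : ((red t n ψ).length : ℝ) =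
    Fintype.card (Fin t → Fin ψ.length) * Fintype.card (Tm t n) := by
  have h := sum_red (t := t) (n := n) ψ fun _ => 1
  simpa only [List.map_const', List.sum_replicate, nsmul_eq_mul, mul_one, sum_const,
    card_univ] using h

/-- The sign of a bit. -/
noncomputable def sb (b : Bool) : ℝ := if b = true then -1 else 1

theorem sb_sq (b : Bool) : sb b ^ 2 = 1 := by cases b <;> simp [sb]

theorem sb_decide (x : ZMod 2) : sb (decide (x = 1)) = sg x := by
  rcases z2_cases x with rfl | rfl <;> simp [sb, sg]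

theorem ind_eq (x y z r : Bool) : (if (xor (xor x y) z == r) = true then (1 : ℝ) else 0) =
    (1 + sb x * sb r * (sb y * sb z)) / 2 := by
  cases x <;> cases y <;> cases z <;> cases r <;> simp [sb]

/-- The small tables. -/
noncomputable def tA (σ : ℕ → Bool) (U : Fin t → Option ℕ) (f : (Fin t → Bool) → ZMod 2) : ℝ :=
  sb (σ (nameA U (fold f))) * sg (f fun _ => false)

/-- The large tables. -/
noncomputable def tB (σ : ℕ → Bool) (W : Fin t → Cl) (g : (Fin t → Fin 3 → Bool) → ZMod 2) : ℝ :=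
  sb (σ (nameB W (cond (sgs W) g)))

theorem expect_prod {α β : Type} [Fintype α] [Fintype β] (f : α × β → ℝ) :
    𝔼 x, f x = 𝔼 a, 𝔼 b, f (a, b) := by
  rw [← univ_product_univ, expect_product]

theorem count_eq (hn : 0 < n) (ψ : CNF3) (hψ : ψ ≠ []) (σ : ℕ → Bool) :
    (linCount (red t n ψ) σ : ℝ) = (red t n ψ).length *
      ((1 + 𝔼 e : (Fin t → Fin ψ.length) × (Fin t → Mode), bias n (prj e.2)
        (tA σ fun i => aq ψ[e.1 i] (e.2 i)) (tB σ fun i => ψ[e.1 i])) / 2) := by
  have : Nonempty (Fin ψ.length) := ⟨⟨0, List.length_pos_iff.2 hψ⟩⟩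
  have : Nonempty (Fin n) := ⟨⟨0, hn⟩⟩
  rw [linCount, countP_eq_sum, sum_red, length_red]
  simp only [ind_eq, ← Fintype.card_mul_expect, ← mul_expect]
  rw [mul_assoc]
  refine congrArg _ (congrArg _ ?_)
  simp only [← expect_div, expect_add_distrib, Fintype.expect_const, expect_prod, bias, eqn,
    sb_decide, tA, tB]

theorem tA_sq (σ : ℕ → Bool) (U : Fin t → Option ℕ) (f : (Fin t → Bool) → ZMod 2) :
    tA σ U f ^ 2 = 1 := by rw [tA, mul_pow, sb_sq, sg_sq, mul_one]

theorem tA_fold (σ : ℕ → Bool) (U : Fin t → Option ℕ) (f : (Fin t → Bool) → ZMod 2) :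
    tA σ U (f + 1) = -tA σ U f := by
  have e : fold (f + 1) = fold f := by
    funext a
    simp only [fold, Pi.add_apply, Pi.one_apply]
    generalize f a = x
    generalize (f fun _ => false) = y
    revert x y
    decide
  rw [tA, tA, e, Pi.add_apply, sg_add, Pi.one_apply, sg_one]
  ring

theorem tB_cond (σ : ℕ → Bool) (W : Fin t → Cl) (g : (Fin t → Fin 3 → Bool) → ZMod 2)
    (b : Fin t → Fin 3 → Bool) (hb : ¬ ok (sgs W) b) :
    tB σ W (g + Pi.single b 1) = tB σ W g := by
  have e : cond (sgs W) (g + Pi.single b 1) = cond (sgs W) g := by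
    funext c
    by_cases h : c = b
    · simp [cond, h, hb]
    · simp [cond, h]
  rw [tB, tB, e]

theorem red_sound (hP : ParRep) (ψ : CNF3) (hψ : ψ ≠ []) {α : ℝ} (h0 : 0 ≤ α) (h1 : α ≤ 1)
    (hα : ∀ σ, (cnfCount ψ σ : ℝ) ≤ (1 - α) * ψ.length) (hn : 2 ≤ n)
    (ht : (1 - (α / 6) ^ 2 / 16) ^ t ≤ (1 / (2 * n : ℝ)) ^ 2) (σ : ℕ → Bool) :
    (linCount (red t n ψ) σ : ℝ) ≤ 3 / 4 * (red t n ψ).length := by
  have : Nonempty (Fin ψ.length) := ⟨⟨0, List.length_pos_iff.2 hψ⟩⟩
  have hn0 : (0 : ℝ) < n := by exact_mod_cast (by omega : 0 < n)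
  have h := sound_core (E := (Fin t → Fin ψ.length) × (Fin t → Mode))
    (fun e i => ψ[e.1 i]) (fun e i => aq ψ[e.1 i] (e.2 i)) (fun e => prj e.2)
    (fun W => ok (sgs W)) hn (tA σ) (tB σ) (tA_sq σ) (tA_fold σ) (fun _ _ => sb_sq _)
    (tB_cond σ) (1 / (2 * n : ℝ)) fun F G => by
      have h2 := (rep_val hP ψ hψ h0 h1 hα t F G).trans ht
      refine le_trans (le_of_eq ?_) (abs_le_of_sq_le_sq' h2 (by positivity)).2
      exact expect_congr rfl fun e _ => ite_iff Iff.rfl rfl rfl
  rw [count_eq (by omega) ψ hψ, mul_comm]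
  refine mul_le_mul_of_nonneg_right ?_ (by positivity)
  have e : (n : ℝ) / 2 * (1 / (2 * n)) = (1 / 2) ^ 2 := by field_simp
  rw [e] at h
  have h3 := (abs_le_of_sq_le_sq' h (by positivity)).2
  linarith

theorem exists_assign (a : (Fin t → Option ℕ) → Fin t → Bool)
    (b : (Fin t → Cl) → Fin t → Fin 3 → Bool) : ∃ σ : ℕ → Bool,
    (∀ U f, σ (nameA U f) = decide (f (a U) = 1)) ∧ ∀ W g, σ (nameB W g) = decide (g (b W) = 1) := by
  let nm : (Fin t → Option ℕ) × ((Fin t → Bool) → ZMod 2) ⊕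
      (Fin t → Cl) × ((Fin t → Fin 3 → Bool) → ZMod 2) → ℕ :=
    Sum.elim (fun x => nameA x.1 x.2) fun x => nameB x.1 x.2
  have hi : Function.Injective nm := by
    rintro (⟨U, f⟩ | ⟨W, g⟩) (⟨U', f'⟩ | ⟨W', g'⟩) h
    · have h1 := Enc.inj (Prod.ext_iff.1 (Enc.inj (α := Bool × ℕ) h)).2
      exact congrArg _ (Prod.ext (List.ofFn_injective (Prod.ext_iff.1 h1).1)
        (code_inj (Prod.ext_iff.1 h1).2))
    · exact absurd (Prod.ext_iff.1 (Enc.inj (α := Bool × ℕ) h)).1 (by simp)
    · exact absurd (Prod.ext_iff.1 (Enc.inj (α := Bool × ℕ) h)).1 (by simp)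
    · have h1 := Enc.inj (Prod.ext_iff.1 (Enc.inj (α := Bool × ℕ) h)).2
      exact congrArg _ (Prod.ext (List.ofFn_injective (Prod.ext_iff.1 h1).1)
        (code_inj (Prod.ext_iff.1 h1).2))
  let vl : (Fin t → Option ℕ) × ((Fin t → Bool) → ZMod 2) ⊕
      (Fin t → Cl) × ((Fin t → Fin 3 → Bool) → ZMod 2) → Bool :=
    Sum.elim (fun x => decide (x.2 (a x.1) = 1)) fun x => decide (x.2 (b x.1) = 1)
  exact ⟨Function.extend nm vl fun _ => false, fun U f => hi.extend_apply vl _ (Sum.inl (U, f)),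
    fun W g => hi.extend_apply vl _ (Sum.inr (W, g))⟩

theorem expect_noise_at {κ : Type} [Fintype κ] [DecidableEq κ] (hn : 0 < n) (b : κ) :
    𝔼 ω : κ → Fin n, sg (noise ω b) = 1 - 2 / (n : ℝ) := by
  have h := expect_noise hn (Pi.single b 1 : κ → ZMod 2)
  have e1 : wt (Pi.single b 1 : κ → ZMod 2) = 1 := by
    rw [wt, card_eq_one]
    refine ⟨b, ?_⟩
    ext c
    by_cases hc : c = b <;> simp [hc]
  have e2 : ∀ g : κ → ZMod 2, chi (Pi.single b 1) g = sg (g b) := fun g => by
    rw [chi, prod_eq_single b (fun c _ hc => by simp [hc, sg_zero]) (by simp)]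
    simp
  simpa only [e1, e2, pow_one] using h

theorem red_complete (hn : 0 < n) (ψ : CNF3) (hψ : ψ ≠ []) (h : Sat ψ) :
    ∃ σ, (linCount (red t n ψ) σ : ℝ) = (1 - 1 / (n : ℝ)) * (red t n ψ).length := by
  have : Nonempty (Fin ψ.length) := ⟨⟨0, List.length_pos_iff.2 hψ⟩⟩
  obtain ⟨σ0, h0⟩ := h
  obtain ⟨σ, hA, hB⟩ := exists_assign (t := t) (fun U i => (U i).elim false σ0)
    fun W i p => σ0 (cvar (W i) p)
  refine ⟨σ, ?_⟩
  have key : ∀ (W : Fin t → Cl) (m : Fin t → Mode), (∀ i, W i ∈ ψ) →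
      bias n (prj m) (tA σ fun i => aq (W i) (m i)) (tB σ W) = 1 - 2 / (n : ℝ) := by
    intro W m hW
    have hok : ok (sgs W) fun i p => σ0 (cvar (W i) p) := fun i =>
      (clauseTrue_iff σ0 (W i)).1 (h0 _ (hW i))
    have hp : (fun i => (aq (W i) (m i)).elim false σ0) = prj m fun i p => σ0 (cvar (W i) p) := by
      funext i
      unfold aq prj pr1
      split_ifs <;> rfl
    have e : ∀ (f : (Fin t → Bool) → ZMod 2) (ω : (Fin t → Fin 3 → Bool) → Fin n)
        (g : (Fin t → Fin 3 → Bool) → ZMod 2), tA σ (fun i => aq (W i) (m i)) f *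
        (tB σ W g * tB σ W (g + ((fun b => f (prj m b)) + noise ω))) =
        sg (noise ω fun i p => σ0 (cvar (W i) p)) := by
      intro f ω g
      simp only [tA, tB, hA, hB, sb_decide, hp, fold, cond, if_pos hok, Pi.add_apply, sg_add]
      have a1 := sg_sq (f fun _ => false)
      have a2 := sg_sq (f (prj m fun i p => σ0 (cvar (W i) p)))
      have a3 := sg_sq (g fun i p => σ0 (cvar (W i) p))
      generalize sg (f fun _ => false) = x at *
      generalize sg (f (prj m fun i p => σ0 (cvar (W i) p))) = y at *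
      generalize sg (g fun i p => σ0 (cvar (W i) p)) = z at *
      generalize sg (noise ω fun i p => σ0 (cvar (W i) p)) = w
      calc _ = x ^ 2 * y ^ 2 * z ^ 2 * w := by ring
        _ = w := by rw [a1, a2, a3]; ring
    simp only [bias, e, Fintype.expect_const, expect_noise_at hn]
  have e : 𝔼 e : (Fin t → Fin ψ.length) × (Fin t → Mode), bias n (prj e.2)
      (tA σ fun i => aq ψ[e.1 i] (e.2 i)) (tB σ fun i => ψ[e.1 i]) = 1 - 2 / (n : ℝ) :=
    (expect_congr rfl fun e _ => key (fun i => ψ[e.1 i]) e.2 fun i => List.getElem_mem _).trans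
      (Fintype.expect_const _)
  rw [count_eq hn ψ hψ, e]
  ring

end Vale.Agent.P325.Lin

namespace Vale.Agent.P325

open Vale.Agent.Lib.PolyTime

/-- Part C, the theorem of Hastad. -/
theorem lin_of (hpcp : PCPThm) (hP : ParRep) : LinThm := by
  intro ε hε
  obtain ⟨α, hα, f, hf, h⟩ := hpcp
  obtain ⟨n, hn⟩ := exists_nat_one_div_lt hε
  have hm0 : 0 < min α 1 := lt_min hα one_pos
  have hm1 : min α 1 ≤ 1 := min_le_right _ _
  obtain ⟨t, ht⟩ := exists_pow_lt_of_lt_one (x := (1 / (2 * (n + 2 : ℕ) : ℝ)) ^ 2)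
    (y := 1 - (min α 1 / 6) ^ 2 / 16) (by positivity) (by
      have : 0 < (min α 1 / 6) ^ 2 / 16 := by positivity
      linarith)
  refine ⟨fun φ => Lin.red t (n + 2) (f φ), (Lin.pt_red t (n + 2)).comp hf, fun φ => ?_⟩
  obtain ⟨h1, h2, h3⟩ := h φ
  refine ⟨?_, fun hs => ?_, fun hs σ => ?_⟩
  · have : Nonempty (Fin (f φ).length) := ⟨⟨0, List.length_pos_iff.2 h1⟩⟩
    have h4 : (0 : ℝ) < (Lin.red t (n + 2) (f φ)).length := by
      rw [Lin.length_red]; positivity
    exact List.length_pos_iff.1 (by exact_mod_cast h4)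
  · obtain ⟨σ, hσ⟩ := Lin.red_complete (t := t) (n := n + 2) (by omega) _ h1 (h2 hs)
    refine ⟨σ, ?_⟩
    rw [hσ]
    refine mul_le_mul_of_nonneg_right ?_ (by positivity)
    have : 1 / ((n + 2 : ℕ) : ℝ) ≤ 1 / ((n : ℝ) + 1) :=
      one_div_le_one_div_of_le (by positivity) (by push_cast; linarith)
    linarith
  · refine Lin.red_sound hP _ h1 hm0.le hm1 (fun τ => (h3 hs τ).trans ?_) (by omega) ht.le σ
    exact mul_le_mul_of_nonneg_right (by linarith [min_le_left α 1]) (by positivity)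

end Vale.Agent.P325
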