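import Vale.Agent.P325.RedCore

/-! The final reduction from linear equations to Unique Games. -/

namespace Vale.Agent.P325

open Vale.Agent.Lib.PolyTime Finset
open scoped Classical BigOperators

namespace Red

/-- One equation. -/
abbrev Eqn : Type := ℕ × ℕ × ℕ × Bool

/-- The variables of an equation. -/
def vr (c : Eqn) (p : Fin 3) : ℕ := if p = 0 then c.1 else if p = 1 then c.2.1 else c.2.2.1

/-- A bit as a field element. -/
def b2z (b : Bool) : ZMod 2 := if b = true then 1 else 0

/-- The variables of a system. -/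
def vars (L : Lin3) : List ℕ := (L.flatMap fun c => [c.1, c.2.1, c.2.2.1]).dedup

variable {l m : ℕ} {Ω : Type}

/-- The function on variables given by a table on positions. -/
def push {k : ℕ} (U : List Eqn) (M : Fin k × Fin 3 → Bv l × Bv m) (x : ℕ) : Bv l × Bv m :=
  ∑ j : Fin k × Fin 3, if vr (U.getD j.1 default) j.2 = x then M j else 0

/-- The number coding a list of vectors. -/
noncomputable def encV (w : List (Bv l × Bv m)) : ℕ :=
  @enc _ (@encList _ (finEnc (Bv l × Bv m))) w

theorem encV_inj : Function.Injective (encV (l := l) (m := m)) :=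
  @Enc.inj _ (@encList _ (finEnc (Bv l × Bv m)))

/-- The name of the vertex given by a function on variables. -/
noncomputable def name (L : Lin3) (v : ℕ → Bv l × Bv m) : ℕ := encV ((vars L).map v)

/-- Numbering of the alphabet. -/
noncomputable def num (l : ℕ) : Bv l ≃ Fin (2 ^ l) := Fintype.equivFinOfCardEq (by simp)

/-- Translation of the alphabet. -/
noncomputable def shift (c : Bv l) : Equiv.Perm (Fin (2 ^ l)) :=
  ((num l).symm.trans (Equiv.addRight c)).trans (num l)

/-- Templates of constraints. -/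
abbrev Tm (l m : ℕ) (Ω : Type) (k : ℕ) : Type :=
  (Fin k × Fin 3 → Bv l × Bv m) × Ω × (Fin k × Fin 3 → ZMod 2) × (Fin k → Bv l)

/-- One constraint. -/
noncomputable def con (a : Ω → Bv l × Bv m) {k : ℕ} (L : Lin3) (U : List Eqn) (t : Tm l m Ω k) :
    ℕ × ℕ × Equiv.Perm (Fin (2 ^ l)) :=
  (name L (push U t.1), name L (push U fun j => t.1 j + t.2.2.1 j • a t.2.1 + (t.2.2.2 j.1, 0)),
    shift (∑ i : Fin k, b2z (U.getD i default).2.2.2 • t.2.2.2 i))

variable [Fintype Ω]

/-- The reduction. -/
noncomputable def red (a : Ω → Bv l × Bv m) (k : ℕ) (L : Lin3) : UG (2 ^ l) :=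
  (tuples k L).flatMap fun U => (univ : Finset (Tm l m Ω k)).toList.map (con a L U)

theorem pt_vr {α : Type} [Enc α] {c : α → Eqn} (hc : PT c) (p : Fin 3) :
    PT fun x => vr (c x) p := by
  unfold vr
  split_ifs <;> fun_prop

theorem pt_name {k : ℕ} (M : Fin k × Fin 3 → Bv l × Bv m) :
    PT fun q : Lin3 × List Eqn => name q.1 (push q.2 M) := by
  let _ := finEnc (Bv l × Bv m)
  have h1 : PT fun q : Lin3 × List Eqn => vars q.1 := by
    unfold vars
    fun_prop
  have h2 : PT fun r : (Lin3 × List Eqn) × ℕ => push r.1.2 M r.2 := by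
    have h3 := pt_finite_fun
      (fun (r : (Lin3 × List Eqn) × ℕ) (j : Fin k × Fin 3) =>
        decide (vr (r.1.2.getD j.1 default) j.2 = r.2))
      (fun j => PT.decide (PT.eq (pt_vr (by fun_prop) j.2) (by fun_prop)))
      (fun b _ => ∑ j : Fin k × Fin 3, if b j = true then M j else 0) fun _ => PT.const _
    exact h3.congr fun r => by simp [push]
  exact (PT.map (f := fun (q : Lin3 × List Eqn) x => push q.2 M x) h2 h1).encN

theorem pt_red (a : Ω → Bv l × Bv m) (k : ℕ) : PT fun L => natsUG (red a k L) := by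
  have h1 : PT fun q : Lin3 × List Eqn => (univ : Finset (Tm l m Ω k)).toList.flatMap fun t =>
      (con a q.1 q.2 t).1 :: (con a q.1 q.2 t).2.1
        :: List.ofFn fun i => ((con a q.1 q.2 t).2.2 i : ℕ) := by
    refine pt_flatMap_const _ _ fun t _ => PT.cons (pt_name _) (PT.cons (pt_name _) ?_)
    exact pt_finite_fun
      (fun (q : Lin3 × List Eqn) (i : Fin k) => (q.2.getD i default).2.2.2)
      (fun i => by fun_prop)
      (fun b _ => List.ofFn fun i => (shift (∑ i : Fin k, b2z (b i) • t.2.2.2 i) i : ℕ))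
      fun _ => PT.const _
  have h2 := PT.flatMap (f := fun (L : Lin3) (U : List Eqn) =>
    (univ : Finset (Tm l m Ω k)).toList.flatMap fun t => (con a L U t).1 :: (con a L U t).2.1
      :: List.ofFn fun i => ((con a L U t).2.2 i : ℕ)) h1 (pt_tuples k PT.id)
  refine h2.congr fun L => ?_
  simp only [natsUG, red, List.flatMap_assoc, List.flatMap_map]

theorem length_red (a : Ω → Bv l × Bv m) (k : ℕ) (L : Lin3) :
    (red a k L).length = L.length ^ k * Fintype.card (Tm l m Ω k) := by
  simp only [red, List.length_flatMap, List.length_map, Finset.length_toList, List.map_const',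
    List.sum_replicate, length_tuples, smul_eq_mul, Finset.card_univ]

theorem getD_ofFn {k : ℕ} (u : Fin k → Eqn) (i : Fin k) : (List.ofFn u).getD i default = u i := by
  simp

theorem count_red (a : Ω → Bv l × Bv m) (k : ℕ) (L : Lin3) (A : ℕ → Fin (2 ^ l)) :
    (ugCount (red a k L) A : ℝ) = (red a k L).length * 𝔼 U : Fin k → Fin L.length,
      acc a (fun i => b2z L[U i].2.2.2) fun M => (num l).symm (A (name L fun x =>
        ∑ j : Fin k × Fin 3, if vr L[U j.1] j.2 = x then M j else 0)) := by
  rw [length_red, ugCount, countP_eq_sum, red, sum_flatMap_eq, sum_tuples, Nat.cast_mul,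
    mul_comm ((L.length ^ k : ℕ) : ℝ), mul_assoc]
  have e : ((L.length ^ k : ℕ) : ℝ) = Fintype.card (Fin k → Fin L.length) := by simp
  rw [e, Fintype.card_mul_expect, Finset.mul_sum]
  refine Finset.sum_congr rfl fun U _ => ?_
  rw [List.map_map, sum_toList_univ, ← Fintype.card_mul_expect]
  congr 1
  unfold acc
  rw [expect_prod]
  refine Finset.expect_congr rfl fun M _ => ?_
  rw [expect_prod]
  refine Finset.expect_congr rfl fun ω _ => ?_
  rw [expect_prod]
  refine Finset.expect_congr rfl fun y _ => Finset.expect_congr rfl fun n _ => ?_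
  have e1 : ∀ M' : Fin k × Fin 3 → Bv l × Bv m, push (List.ofFn fun i => L[U i]) M'
      = fun x => ∑ j : Fin k × Fin 3, if vr L[U j.1] j.2 = x then M' j else 0 := by
    intro M'
    funext x
    simp only [push, getD_ofFn]
  simp only [Function.comp_apply, con, e1, getD_ofFn, decide_eq_true_eq, shift, Equiv.trans_apply,
    Equiv.coe_addRight, Equiv.symm_apply_eq]

theorem vr_mem {L : Lin3} {c : Eqn} (hc : c ∈ L) (p : Fin 3) : vr c p ∈ vars L := by
  unfold vars vr
  rw [List.mem_dedup, List.mem_flatMap]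
  refine ⟨c, hc, ?_⟩
  split_ifs <;> simp

theorem b2z_eq (x y z b : Bool) :
    (xor (xor x y) z == b) = true ↔ b2z x + b2z y + b2z z = b2z b := by
  revert x y z b
  decide

theorem exists_label (g : Bv m → Bv l) (L : Lin3) (s : ℕ → ZMod 2) :
    ∃ A : ℕ → Fin (2 ^ l), ∀ (J : Type) [Fintype J] (w : J → ℕ) (M : J → Bv l × Bv m),
      (∀ j, w j ∈ vars L) → (num l).symm (A (name L fun x => ∑ j, if w j = x then M j else 0))
        = code g (∑ j, s (w j) • M j) := by
  refine ⟨fun n => num l (code g (List.zipWith (fun x v => s x • v) (vars L)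
    (Function.invFun encV n)).sum), fun J _ w M hw => ?_⟩
  rw [Equiv.symm_apply_apply, name, Function.leftInverse_invFun encV_inj, List.zipWith_map_right,
    List.zipWith_self, ← List.sum_toFinset _ (show (vars L).Nodup from List.nodup_dedup _)]
  congr 1
  simp only [Finset.smul_sum]
  rw [Finset.sum_comm]
  refine Finset.sum_congr rfl fun j _ => ?_
  rw [Finset.sum_eq_single (w j) (fun x _ hx => by rw [if_neg (Ne.symm hx), smul_zero])
    (fun h => (h (List.mem_toFinset.2 (hw j))).elim), if_pos rfl]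

end Red

open Red in
theorem ug_of (hL : LinThm) (hG : GadgetThm) (hS : SoundThm) : UGThm := by
  intro ε δ hε hδ
  obtain ⟨r, hr⟩ := hG (ε / 2) (δ / 2) (by positivity) (by positivity)
  obtain ⟨l0, hl0⟩ := hS δ hδ r
  obtain ⟨l, m, Ω, _, _, g, a, hl, hp, hN⟩ := hr (max l0 1)
  obtain ⟨k, hk⟩ := hl0 l m ((le_max_left _ _).trans hl)
  obtain ⟨f, hf, hφ⟩ := hL (ε / (2 * (k + 1))) (by positivity)
  have hl1 : 1 ≤ l := (le_max_right _ _).trans hl
  refine ⟨2 ^ l, by simpa using Nat.pow_le_pow_right two_pos hl1, fun φ => red a k (f φ),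
    (pt_red a k).comp hf, fun φ => ?_⟩
  obtain ⟨h0, h1, h2⟩ := hφ φ
  have hN0 : 0 < (f φ).length := List.length_pos_iff.2 h0
  refine ⟨?_, fun hs => ?_, fun hs A => ?_⟩
  · rw [← List.length_pos_iff, length_red]
    exact Nat.mul_pos (Nat.pow_pos hN0) Fintype.card_pos
  · obtain ⟨σ, hσ⟩ := h1 hs
    obtain ⟨A, hA⟩ := exists_label g (f φ) fun x => b2z (σ x)
    refine ⟨A, ?_⟩
    rw [count_red, mul_comm]
    refine mul_le_mul_of_nonneg_left ?_ (Nat.cast_nonneg _)
    rw [linCount, countP_eq_card] at hσ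
    refine le_trans ?_ (tuple_bound hN0 (fun e => b2z (σ (vr (f φ)[e] 0))
      + b2z (σ (vr (f φ)[e] 1)) + b2z (σ (vr (f φ)[e] 2)) = b2z (f φ)[e].2.2.2) _ (ε / 2) _
      (by positivity) (fun U => acc_nonneg _ _ _) (fun U hU => ?_) (hσ.trans (le_of_eq ?_)))
    · have h3 : (k : ℝ) * (ε / (2 * (k + 1))) ≤ ε / 2 := by
        rw [← mul_div_assoc, div_le_div_iff₀ (by positivity) (by positivity)]
        nlinarith
      linarith
    · have h4 := acc_complete g a (ε / 2) (by positivity) hp (fun i => b2z (f φ)[U i].2.2.2)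
        (fun j => b2z (σ (vr (f φ)[U j.1] j.2))) hU
      refine h4.trans (le_of_eq ?_)
      congr 1
      funext M
      exact (hA _ (fun j : Fin k × Fin 3 => vr (f φ)[U j.1] j.2) M
        fun j => vr_mem (List.getElem_mem _) _).symm
    · congr 2
      ext e
      simp only [Finset.mem_filter, Finset.mem_univ, true_and]
      exact b2z_eq _ _ _ _
  · rw [count_red, mul_comm]
    refine mul_le_mul_of_nonneg_right ?_ (Nat.cast_nonneg _)
    refine hk Ω a hN (f φ).length (fun e p => vr (f φ)[e] p) (fun e => b2z (f φ)[e].2.2.2) hN0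
      (fun σ => ?_) fun v => (num l).symm (A (name (f φ) v))
    refine le_trans (le_of_eq ?_) (h2 hs fun x => decide (σ x = 1))
    rw [linCount, countP_eq_card]
    congr 2
    ext e
    have h5 : ∀ x, b2z (decide (σ x = 1)) = σ x := fun x => by
      rcases zmod_cases (σ x) with h | h <;> simp [b2z, h]
    simp only [Finset.mem_filter, Finset.mem_univ, true_and]
    rw [b2z_eq, h5, h5, h5]
    rfl

end Vale.Agent.P325
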