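import Vale.Agent.P325.Defs

/-! Part B: parallel repetition of projection games, after Dinur and Steurer. -/

namespace Vale.Agent.P325

open Finset
open scoped Classical BigOperators

namespace Rep

section CE
variable {E X : Type} [Fintype E]

/-- Conditional expectation of `φ` given `key = x`. -/
noncomputable def ce (μ : E → ℝ) (key : E → X) (φ : E → ℝ) (x : X) : ℝ :=
  (∑ e, if key e = x then μ e * φ e else 0) / ∑ e, if key e = x then μ e else 0

theorem sum_ce {μ : E → ℝ} (hμ : ∀ e, 0 ≤ μ e) (key : E → X) (φ : E → ℝ) (ψ : X → ℝ) :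
    ∑ e, μ e * (ce μ key φ (key e) * ψ (key e)) = ∑ e, μ e * (φ e * ψ (key e)) := by
  obtain ⟨w, hw⟩ : ∃ w : X → ℝ, ∀ x, w x = ∑ e, if key e = x then μ e else 0 := ⟨_, fun _ => rfl⟩
  have h1 : ∀ e, μ e * (ce μ key φ (key e) * ψ (key e)) =
      ∑ e', (if key e = key e' then μ e else 0) * (μ e' * φ e' * ψ (key e') / w (key e')) := by
    intro e
    rw [ce, ← hw, sum_div, sum_mul, mul_sum]
    refine sum_congr rfl fun e' _ => ?_
    by_cases h : key e' = key e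
    · rw [if_pos h, if_pos h.symm, h]
      ring
    · rw [if_neg h, if_neg (Ne.symm h)]
      ring
  rw [sum_congr rfl fun e _ => h1 e, sum_comm]
  refine sum_congr rfl fun e' _ => ?_
  rw [← sum_mul, ← hw]
  by_cases h0 : w (key e') = 0
  · have h2 : μ e' ≤ w (key e') := by
      rw [hw]
      have := single_le_sum (f := fun e => if key e = key e' then μ e else 0)
        (fun e _ => by split_ifs; exacts [hμ e, le_rfl]) (mem_univ e')
      simpa using this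
    have h3 : μ e' = 0 := le_antisymm (h0 ▸ h2) (hμ e')
    rw [h0, h3]
    ring
  · field_simp

theorem sum_ce2 {B : Type} [Fintype B] {μ : E → ℝ} (hμ : ∀ e, 0 ≤ μ e) (key : E → X)
    (φ : B → E → ℝ) (ψ : X → B → ℝ) :
    ∑ e, μ e * ∑ b, ce μ key (φ b) (key e) * ψ (key e) b =
      ∑ e, μ e * ∑ b, φ b e * ψ (key e) b := by
  simp only [mul_sum]
  rw [sum_comm, sum_comm (f := fun e b => μ e * (φ b e * ψ (key e) b))]
  exact sum_congr rfl fun b _ => sum_ce hμ key (φ b) fun x => ψ x b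

theorem ce_nonneg {μ : E → ℝ} (hμ : ∀ e, 0 ≤ μ e) (key : E → X) {φ : E → ℝ} (hφ : ∀ e, 0 ≤ φ e)
    (x : X) : 0 ≤ ce μ key φ x := by
  refine div_nonneg (sum_nonneg fun e _ => ?_) (sum_nonneg fun e _ => ?_)
  · split_ifs
    exacts [mul_nonneg (hμ e) (hφ e), le_rfl]
  · split_ifs
    exacts [hμ e, le_rfl]

theorem ce_sum {B : Type} [Fintype B] (μ : E → ℝ) (key : E → X) (φ : B → E → ℝ) (x : X) :
    ∑ b, ce μ key (φ b) x = ce μ key (fun e => ∑ b, φ b e) x := by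
  unfold ce
  rw [← sum_div, sum_comm]
  refine congrArg (· / _) (sum_congr rfl fun e _ => ?_)
  split_ifs
  · rw [mul_sum]
  · simp

theorem ce_le_one {μ : E → ℝ} (hμ : ∀ e, 0 ≤ μ e) (key : E → X) {φ : E → ℝ} (hφ : ∀ e, φ e ≤ 1)
    (x : X) : ce μ key φ x ≤ 1 := by
  refine div_le_one_of_le₀ (sum_le_sum fun e _ => ?_) (sum_nonneg fun e _ => ?_)
  · split_ifs
    exacts [mul_le_of_le_one_right (hμ e) (hφ e), le_rfl]
  · split_ifs
    exacts [hμ e, le_rfl]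

theorem derand {B : Type} [Fintype B] [Nonempty B] {μ : E → ℝ} (hμ : ∀ e, 0 ≤ μ e) (key : E → X)
    (W : B → E → ℝ) (hW : ∀ b e, 0 ≤ W b e) (p : X → B → ℝ) (hp : ∀ x b, 0 ≤ p x b)
    (hp1 : ∀ x, ∑ b, p x b ≤ 1) :
    ∃ f : X → B, ∑ e, μ e * ∑ b, W b e * p (key e) b ≤ ∑ e, μ e * W (f (key e)) e := by
  choose f _ hf using fun x : X => exists_max_image univ (fun b => ce μ key (W b) x) univ_nonempty
  refine ⟨f, ?_⟩
  have h1 := sum_ce2 hμ key W fun x b => if b = f x then 1 else 0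
  simp only [mul_ite, mul_one, mul_zero, sum_ite_eq', mem_univ, if_true] at h1
  rw [← h1, ← sum_ce2 hμ key W p]
  refine sum_le_sum fun e _ => mul_le_mul_of_nonneg_left ?_ (hμ e)
  calc ∑ b, ce μ key (W b) (key e) * p (key e) b
      ≤ ∑ b, ce μ key (W (f (key e))) (key e) * p (key e) b :=
        sum_le_sum fun b _ => mul_le_mul_of_nonneg_right (hf _ b (mem_univ b)) (hp _ b)
    _ ≤ _ := by
        rw [← mul_sum]
        exact mul_le_of_le_one_right (ce_nonneg hμ key (hW _) _) (hp1 _)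

end CE

theorem sq_le {A : Type} [Fintype A] {q : A → ℝ} (h0 : ∀ a, 0 ≤ q a) (h1 : ∑ a, q a ≤ 1)
    (k : A → ℝ) : (∑ a, q a * k a) ^ 2 ≤ ∑ a, k a ^ 2 := by
  refine (sum_mul_sq_le_sq_mul_sq univ q k).trans
    (mul_le_of_le_one_left (sum_nonneg fun a _ => sq_nonneg _) (le_trans ?_ h1))
  refine sum_le_sum fun a _ => ?_
  have h2 : q a ≤ 1 := (single_le_sum (fun a _ => h0 a) (mem_univ a)).trans h1
  nlinarith [h0 a]

theorem alg {m N Y ε : ℝ} (hε0 : 0 ≤ ε) (hε1 : ε ≤ 1) (hmN : m ^ 2 ≤ N)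
    (h1 : Y ≤ m ^ 2 / 2 + N / 2)
    (h2 : 0 < ε → Y ≤ m ^ 2 * (1 - ε) / (1 - ε / 2) + (N - m ^ 2) / (ε / 2)) :
    Y ≤ (1 - ε ^ 2 / 16) * N := by
  by_cases h : ε ^ 2 / 8 * N ≤ N - m ^ 2
  · linarith
  · have hN : 0 ≤ N := (sq_nonneg m).trans hmN
    have hε : 0 < ε := by
      rcases hε0.eq_or_lt with h0 | h0
      · subst h0
        exact absurd (by linarith) h
      · exact h0
    have h3 : m ^ 2 * (1 - ε) / (1 - ε / 2) ≤ N * (1 - ε / 2) := by
      rw [div_le_iff₀ (by linarith)]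
      have h4 : m ^ 2 * (1 - ε) ≤ N * (1 - ε) := mul_le_mul_of_nonneg_right hmN (by linarith)
      nlinarith [mul_nonneg hN (sq_nonneg ε)]
    have h5 : (N - m ^ 2) / (ε / 2) ≤ ε / 4 * N := by
      rw [div_le_iff₀ (by linarith)]
      nlinarith
    have h6 : ε ^ 2 * N ≤ ε * N := mul_le_mul_of_nonneg_right (by nlinarith) hN
    have h7 : 0 ≤ ε * N := mul_nonneg hε0 hN
    nlinarith [h2 hε]

theorem two_mul_le {x y b : ℝ} (hb : 0 < b) : 2 * (x * y) ≤ x ^ 2 / b + b * y ^ 2 := by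
  have h : x ^ 2 / b + b * y ^ 2 - 2 * (x * y) = (x - b * y) ^ 2 / b := by
    field_simp
    ring
  have : 0 ≤ (x - b * y) ^ 2 / b := by positivity
  linarith

theorem one_step {E V U A B : Type} [Fintype E] [Fintype A] [Fintype B] [Nonempty A] [Nonempty B]
    (bob : E → V) (ali : E → U) (I : E → B → A → ℝ) (hI0 : ∀ e b a, 0 ≤ I e b a)
    (hI1 : ∀ e b, ∑ a, I e b a ≤ 1) {μ : E → ℝ} (hμ : ∀ e, 0 ≤ μ e) (hμ1 : ∑ e, μ e = 1) (u0 : U)
    (hnull : ∀ φ : V → ℝ, ∑ e, (if ali e = u0 then μ e * φ (bob e) else 0) =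
      1 / 2 * ∑ e, μ e * φ (bob e)) {ε : ℝ} (hε0 : 0 ≤ ε) (hε1 : ε ≤ 1)
    (hval : ∀ (f : V → B) (g : U → A), ∑ e, μ e * I e (f (bob e)) (g (ali e)) ≤ 1 - ε)
    (h : V → B → ℝ) (hh : ∀ v b, 0 ≤ h v b) (k : U → A → ℝ) :
    ∑ e, μ e * (2 * ∑ b, h (bob e) b * ∑ a, I e b a * k (ali e) a - ∑ a, k (ali e) a ^ 2) ≤
      (1 - ε ^ 2 / 16) * ∑ e, μ e * (∑ b, h (bob e) b) ^ 2 := by
  obtain ⟨g, hg⟩ : ∃ g : V → ℝ, ∀ v, g v = ∑ b, h v b := ⟨_, fun _ => rfl⟩
  have hg0 : ∀ v, 0 ≤ g v := fun v => hg v ▸ sum_nonneg fun b _ => hh v b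
  obtain ⟨p, hp⟩ : ∃ p : V → B → ℝ, ∀ v b, p v b = h v b / g v := ⟨_, fun _ _ => rfl⟩
  have hp0 : ∀ v b, 0 ≤ p v b := fun v b => hp v b ▸ div_nonneg (hh v b) (hg0 v)
  have hp1 : ∀ v, ∑ b, p v b ≤ 1 := fun v => by
    simp only [hp]
    rw [← sum_div, ← hg]
    exact div_self_le_one _
  have hgp : ∀ v b, h v b = g v * p v b := fun v b => by
    rw [hp]
    by_cases h0 : g v = 0
    · have h1 : h v b ≤ g v := hg v ▸ single_le_sum (fun b _ => hh v b) (mem_univ b)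
      rw [h0, zero_mul]
      exact le_antisymm (h0 ▸ h1) (hh v b)
    · field_simp
  obtain ⟨J, hJ⟩ : ∃ J : A → E → ℝ, ∀ a e, J a e = ∑ b, I e b a * p (bob e) b := ⟨_, fun _ _ => rfl⟩
  have hJ0 : ∀ a e, 0 ≤ J a e := fun a e =>
    hJ a e ▸ sum_nonneg fun b _ => mul_nonneg (hI0 e b a) (hp0 _ b)
  have hJ1 : ∀ e, ∑ a, J a e ≤ 1 := fun e => by
    simp only [hJ]
    rw [sum_comm]
    refine le_trans (sum_le_sum fun b _ => ?_) (hp1 (bob e))
    rw [← sum_mul]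
    exact mul_le_of_le_one_left (hp0 _ b) (hI1 e b)
  obtain ⟨r, hr⟩ : ∃ r : E → ℝ, ∀ e, r e = ∑ a, J a e * k (ali e) a := ⟨_, fun _ => rfl⟩
  obtain ⟨K, hK⟩ : ∃ K : U → ℝ, ∀ u, K u = ∑ a, k u a ^ 2 := ⟨_, fun _ => rfl⟩
  have hK0 : ∀ u, 0 ≤ K u := fun u => hK u ▸ sum_nonneg fun a _ => sq_nonneg _
  have hrK : ∀ e, r e ^ 2 ≤ K (ali e) := fun e => by
    rw [hr, hK]
    exact sq_le (fun a => hJ0 a e) (hJ1 e) _
  have hL : ∀ e, ∑ b, h (bob e) b * ∑ a, I e b a * k (ali e) a = g (bob e) * r e := fun e => by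
    simp only [hr, hJ, hgp, mul_sum, sum_mul]
    rw [sum_comm]
    exact sum_congr rfl fun a _ => sum_congr rfl fun b _ => by ring
  simp only [hL, ← hg, ← hK]
  obtain ⟨m, hm⟩ : ∃ m : ℝ, m = ∑ e, μ e * g (bob e) := ⟨_, rfl⟩
  obtain ⟨N, hN⟩ : ∃ N : ℝ, N = ∑ e, μ e * g (bob e) ^ 2 := ⟨_, rfl⟩
  have hvar : ∑ e, μ e * (g (bob e) - m) ^ 2 = N - m ^ 2 := by
    have h1 : ∀ e, μ e * (g (bob e) - m) ^ 2 =
        μ e * g (bob e) ^ 2 - 2 * m * (μ e * g (bob e)) + m ^ 2 * μ e := fun e => by ring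
    simp only [h1, sum_add_distrib, sum_sub_distrib, ← mul_sum, ← hm, ← hN, hμ1]
    ring
  have hmN : m ^ 2 ≤ N := by
    have : 0 ≤ ∑ e, μ e * (g (bob e) - m) ^ 2 :=
      sum_nonneg fun e _ => mul_nonneg (hμ e) (sq_nonneg _)
    linarith
  rw [← hN]
  refine alg hε0 hε1 hmN ?_ fun hε => ?_
  · obtain ⟨s, hs0, hs⟩ : ∃ s : ℝ, 0 ≤ s ∧ s ^ 2 = K u0 :=
      ⟨√(K u0), Real.sqrt_nonneg _, Real.sq_sqrt (hK0 u0)⟩
    have h1 : ∀ e, μ e * (2 * (g (bob e) * r e) - K (ali e)) ≤ μ e * g (bob e) ^ 2 +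
        if ali e = u0 then μ e * (2 * g (bob e) * s - s ^ 2 - g (bob e) ^ 2) else 0 := by
      intro e
      have h2 := hrK e
      split_ifs with h3
      · rw [h3, ← hs] at h2
        have h4 : r e ≤ s := (abs_le_of_sq_le_sq' h2 hs0).2
        rw [h3, ← hs, ← mul_add]
        refine mul_le_mul_of_nonneg_left ?_ (hμ e)
        nlinarith [mul_le_mul_of_nonneg_left h4 (hg0 (bob e))]
      · rw [add_zero]
        refine mul_le_mul_of_nonneg_left ?_ (hμ e)
        nlinarith [sq_nonneg (g (bob e) - r e)]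
    refine (sum_le_sum fun e _ => h1 e).trans ?_
    rw [sum_add_distrib, ← hN, hnull fun v => 2 * g v * s - s ^ 2 - g v ^ 2]
    have h5 : ∀ e, μ e * (2 * g (bob e) * s - s ^ 2 - g (bob e) ^ 2) =
        2 * s * (μ e * g (bob e)) - s ^ 2 * μ e - μ e * g (bob e) ^ 2 := fun e => by ring
    simp only [h5, sum_sub_distrib, ← mul_sum, ← hm, ← hN, hμ1]
    nlinarith [sq_nonneg (m - s)]
  · obtain ⟨q, hq⟩ : ∃ q : U → A → ℝ, ∀ u a, q u a = ce μ ali (J a) u := ⟨_, fun _ _ => rfl⟩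
    have hq0 : ∀ u a, 0 ≤ q u a := fun u a => hq u a ▸ ce_nonneg hμ ali (hJ0 a) u
    have hq1 : ∀ u, ∑ a, q u a ≤ 1 := fun u => by
      simp only [hq]
      rw [ce_sum]
      exact ce_le_one hμ ali hJ1 u
    have hqq : ∑ e, μ e * ∑ a, q (ali e) a ^ 2 ≤ 1 - ε := by
      have h1 := sum_ce2 hμ ali J q
      simp only [← hq, ← sq] at h1
      obtain ⟨g', hg'⟩ := derand hμ ali J hJ0 q hq0 hq1
      obtain ⟨f', hf'⟩ := derand hμ bob (fun b e => I e b (g' (ali e))) (fun b e => hI0 e b _) p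
        hp0 hp1
      simp only [← hJ] at hf'
      rw [h1]
      exact hg'.trans (hf'.trans (hval f' g'))
    have hqr : ∑ e, μ e * r e = ∑ e, μ e * ∑ a, q (ali e) a * k (ali e) a := by
      simp only [hr, hq]
      exact (sum_ce2 hμ ali J k).symm
    have ha : 0 < 1 - ε / 2 := by linarith
    have hb : 0 < ε / 2 := by linarith
    have h1 : 2 * m * ∑ e, μ e * r e ≤
        m ^ 2 * (1 - ε) / (1 - ε / 2) + (1 - ε / 2) * ∑ e, μ e * K (ali e) := by
      have h2 : ∀ e, 2 * m * (μ e * ∑ a, q (ali e) a * k (ali e) a) ≤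
          m ^ 2 / (1 - ε / 2) * (μ e * ∑ a, q (ali e) a ^ 2) +
            (1 - ε / 2) * (μ e * K (ali e)) := by
        intro e
        rw [hK]
        simp only [mul_sum, ← sum_add_distrib]
        refine sum_le_sum fun a _ => ?_
        have h3 := mul_le_mul_of_nonneg_left
          (two_mul_le (x := m * q (ali e) a) (y := k (ali e) a) ha) (hμ e)
        refine le_trans (le_of_eq ?_) (h3.trans (le_of_eq ?_))
        · ring
        · ring
      rw [hqr, mul_sum]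
      refine (sum_le_sum fun e _ => h2 e).trans ?_
      rw [sum_add_distrib, ← mul_sum, ← mul_sum, mul_div_right_comm]
      have h4 : 0 ≤ m ^ 2 / (1 - ε / 2) := by positivity
      have := mul_le_mul_of_nonneg_left hqq h4
      linarith
    have h5 : ∀ e, μ e * (2 * (g (bob e) * r e) - K (ali e)) ≤ 2 * m * (μ e * r e) +
        μ e * (g (bob e) - m) ^ 2 / (ε / 2) - (1 - ε / 2) * (μ e * K (ali e)) := by
      intro e
      have h6 := two_mul_le (x := g (bob e) - m) (y := r e) hb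
      have h7 := mul_le_mul_of_nonneg_left (hrK e) hb.le
      have h8 := mul_le_mul_of_nonneg_left (h6.trans (add_le_add le_rfl h7)) (hμ e)
      rw [mul_div_assoc]
      nlinarith
    refine (sum_le_sum fun e _ => h5 e).trans ?_
    rw [sum_sub_distrib, sum_add_distrib, ← mul_sum, ← mul_sum, ← sum_div, hvar]
    linarith

/-- The collision value of the game is at most `c`, in variational form. -/
def Bd {E V U A B : Type} [Fintype E] [Fintype A] (bob : E → V) (ali : E → U)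
    (I : E → B → A → ℝ) (μ : E → ℝ) (c : ℝ) : Prop :=
  ∀ (f : V → B) (k : U → A → ℝ),
    ∑ e, μ e * (2 * ∑ a, I e (f (bob e)) a * k (ali e) a - ∑ a, k (ali e) a ^ 2) ≤ c

theorem step {E V U A B E' V' U' A' B' : Type} [Fintype E] [Fintype A] [Fintype B] [Fintype E']
    [Fintype A'] (bob : E → V) (ali : E → U) (I : E → B → A → ℝ) (hI0 : ∀ e b a, 0 ≤ I e b a)
    (hI1 : ∀ e b, ∑ a, I e b a ≤ 1) {μ μ0 : E → ℝ} (hμ0 : ∀ e, 0 ≤ μ0 e) (h01 : ∑ e, μ0 e = 1)
    (hμ1 : ∑ e, μ e = 1) {γ ρ : ℝ} (hγ : 0 ≤ γ) (hle : ∀ e, γ * μ0 e ≤ μ e) (hρ : 0 ≤ ρ)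
    (hP : ∀ (h : V → B → ℝ), (∀ v b, 0 ≤ h v b) → ∀ k : U → A → ℝ,
      ∑ e, μ0 e * (2 * ∑ b, h (bob e) b * ∑ a, I e b a * k (ali e) a - ∑ a, k (ali e) a ^ 2) ≤
        ρ * ∑ e, μ0 e * (∑ b, h (bob e) b) ^ 2)
    (bob' : E' → V') (ali' : E' → U') (I' : E' → B' → A' → ℝ) (hI' : ∀ e b a, 0 ≤ I' e b a)
    {μ' : E' → ℝ} (hμ' : ∀ e, 0 ≤ μ' e) {c : ℝ} (hc : Bd bob' ali' I' μ' c)
    (f1 : V → V' → B) (f2 : V → V' → B') (k : U → U' → A → A' → ℝ) :
    ∑ e, μ e * ∑ e', μ' e' * (2 * ∑ a', I' e' (f2 (bob e) (bob' e')) a' *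
      ∑ a, I e (f1 (bob e) (bob' e')) a * k (ali e) (ali' e') a a' -
        ∑ a', ∑ a, k (ali e) (ali' e') a a' ^ 2) ≤ (1 - γ * (1 - ρ)) * c := by
  obtain ⟨Y, hY⟩ : ∃ Y : E → ℝ, ∀ e, Y e = ∑ e', μ' e' * (2 * ∑ a', I' e' (f2 (bob e) (bob' e')) a' *
      ∑ a, I e (f1 (bob e) (bob' e')) a * k (ali e) (ali' e') a a' -
        ∑ a', ∑ a, k (ali e) (ali' e') a a' ^ 2) := ⟨_, fun _ => rfl⟩
  simp only [← hY]
  have h1 : ∀ e, Y e ≤ c := by
    intro e
    refine le_trans ?_ (hc (f2 (bob e)) fun u' a' => √(∑ a, k (ali e) u' a a' ^ 2))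
    rw [hY]
    refine sum_le_sum fun e' _ => mul_le_mul_of_nonneg_left (sub_le_sub ?_ (le_of_eq ?_)) (hμ' e')
    · refine mul_le_mul_of_nonneg_left (sum_le_sum fun a' _ =>
        mul_le_mul_of_nonneg_left (Real.le_sqrt_of_sq_le ?_) (hI' _ _ _)) zero_le_two
      exact sq_le (hI0 e _) (hI1 e _) _
    · exact sum_congr rfl fun a' _ => Real.sq_sqrt (sum_nonneg fun a _ => sq_nonneg _)
  have h2 : ∑ e, μ0 e * Y e ≤ ρ * c := by
    obtain ⟨H, hH⟩ : ∃ H : A' → U' → V → B → ℝ, ∀ a' u' v b, H a' u' v b = ce μ' ali'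
      (fun e' => (if f1 v (bob' e') = b then 1 else 0) * I' e' (f2 v (bob' e')) a') u' :=
      ⟨_, fun _ _ _ _ => rfl⟩
    have hH0 : ∀ a' u' v b, 0 ≤ H a' u' v b := fun a' u' v b => by
      rw [hH]
      refine ce_nonneg hμ' _ (fun e' => mul_nonneg ?_ (hI' _ _ _)) _
      split_ifs
      exacts [zero_le_one, le_rfl]
    have hG : ∀ a' u' v, ∑ b, H a' u' v b =
        ce μ' ali' (fun e' => I' e' (f2 v (bob' e')) a') u' := fun a' u' v => by
      simp only [hH]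
      rw [ce_sum]
      simp only [ite_mul, one_mul, zero_mul, sum_ite_eq, mem_univ, if_true]
    have h3 : ∀ e, Y e = ∑ e', μ' e' * ∑ a', (2 * ∑ b, H a' (ali' e') (bob e) b *
        ∑ a, I e b a * k (ali e) (ali' e') a a' - ∑ a, k (ali e) (ali' e') a a' ^ 2) := by
      intro e
      have h4 := sum_ce2 hμ' ali' (fun (x : A' × B) e' =>
        (if f1 (bob e) (bob' e') = x.2 then 1 else 0) * I' e' (f2 (bob e) (bob' e')) x.1)
        fun u' x => ∑ a, I e x.2 a * k (ali e) u' a x.1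
      simp only [← hH] at h4
      simp only [Fintype.sum_prod_type, ite_mul, one_mul, zero_mul, sum_ite_eq, mem_univ,
        if_true] at h4
      rw [hY]
      simp only [sum_sub_distrib, mul_sub, ← mul_sum, mul_left_comm _ (2 : ℝ)]
      rw [h4]
    have h5 : ∀ v, ∑ e', μ' e' * ∑ a', (∑ b, H a' (ali' e') v b) ^ 2 ≤ c := by
      intro v
      have h6 := hc (f2 v) fun u' a' => ∑ b, H a' u' v b
      have h7 := sum_ce2 hμ' ali' (fun a' e' => I' e' (f2 v (bob' e')) a')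
        fun u' a' => ∑ b, H a' u' v b
      simp only [← hG, ← sq] at h7
      simp only [sum_sub_distrib, mul_sub, ← mul_sum, mul_left_comm _ (2 : ℝ)] at h6
      rw [← h7] at h6
      linarith
    have h8 : ∀ (Z : E → E' → A' → ℝ), ∑ e, μ0 e * ∑ e', μ' e' * ∑ a', Z e e' a' =
        ∑ e', μ' e' * ∑ a', ∑ e, μ0 e * Z e e' a' := by
      intro Z
      simp only [mul_sum]
      rw [sum_comm]
      refine sum_congr rfl fun e' _ => ?_
      rw [sum_comm]
      exact sum_congr rfl fun a' _ => sum_congr rfl fun e _ => by ring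
    calc ∑ e, μ0 e * Y e = _ := by
          simp only [h3]
          exact h8 _
      _ ≤ ∑ e', μ' e' * ∑ a', ρ * ∑ e, μ0 e * (∑ b, H a' (ali' e') (bob e) b) ^ 2 :=
          sum_le_sum fun e' _ => mul_le_mul_of_nonneg_left (sum_le_sum fun a' _ =>
            hP (H a' (ali' e')) (hH0 a' _) fun u a => k u (ali' e') a a') (hμ' e')
      _ = ρ * ∑ e, μ0 e * ∑ e', μ' e' * ∑ a', (∑ b, H a' (ali' e') (bob e) b) ^ 2 := by
          rw [h8, mul_sum]
          refine sum_congr rfl fun e' _ => ?_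
          rw [← mul_sum]
          ring
      _ ≤ ρ * ∑ e, μ0 e * c := mul_le_mul_of_nonneg_left
          (sum_le_sum fun e _ => mul_le_mul_of_nonneg_left (h5 _) (hμ0 e)) hρ
      _ = ρ * c := by rw [← sum_mul, h01, one_mul]
  have h9 : ∑ e, (μ e - γ * μ0 e) * Y e ≤ ∑ e, (μ e - γ * μ0 e) * c :=
    sum_le_sum fun e _ => mul_le_mul_of_nonneg_left (h1 e) (sub_nonneg.2 (hle e))
  rw [← sum_mul, sum_sub_distrib, ← mul_sum, hμ1, h01] at h9
  simp only [sub_mul, mul_assoc, sum_sub_distrib, ← mul_sum] at h9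
  have := mul_le_mul_of_nonneg_left h2 hγ
  linarith

theorem sum_cons {X : Type} [Fintype X] {t : ℕ} (F : (Fin (t + 1) → X) → ℝ) :
    ∑ x, F x = ∑ a, ∑ x : Fin t → X, F (Fin.cons a x) := by
  rw [← (Fin.consEquiv fun _ => X).sum_comp, Fintype.sum_prod_type]
  rfl

theorem bd_pow {E V U A B : Type} [Fintype E] [Fintype A] [Fintype B]
    (bob : E → V) (ali : E → U) (I : E → B → A → ℝ) (hI0 : ∀ e b a, 0 ≤ I e b a)
    (hI1 : ∀ e b, ∑ a, I e b a ≤ 1) {μ μ0 : E → ℝ} (hμ0 : ∀ e, 0 ≤ μ0 e) (h01 : ∑ e, μ0 e = 1)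
    (hμ1 : ∑ e, μ e = 1) {γ ρ : ℝ} (hγ : 0 ≤ γ) (hle : ∀ e, γ * μ0 e ≤ μ e) (hρ : 0 ≤ ρ)
    (hP : ∀ (h : V → B → ℝ), (∀ v b, 0 ≤ h v b) → ∀ k : U → A → ℝ,
      ∑ e, μ0 e * (2 * ∑ b, h (bob e) b * ∑ a, I e b a * k (ali e) a - ∑ a, k (ali e) a ^ 2) ≤
        ρ * ∑ e, μ0 e * (∑ b, h (bob e) b) ^ 2) (t : ℕ) :
    Bd (fun (e : Fin t → E) j => bob (e j)) (fun e j => ali (e j))
      (fun e (b : Fin t → B) (a : Fin t → A) => ∏ j, I (e j) (b j) (a j)) (fun e => ∏ j, μ (e j))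
      ((1 - γ * (1 - ρ)) ^ t) := by
  induction t with
  | zero =>
    intro f k
    simp only [univ_unique, sum_singleton, univ_eq_empty, prod_empty, pow_zero, one_mul]
    nlinarith [sq_nonneg (k (fun j => ali ((default : Fin 0 → E) j)) default - 1)]
  | succ t ih =>
    intro f k
    have hμ : ∀ e, 0 ≤ μ e := fun e => (mul_nonneg hγ (hμ0 e)).trans (hle e)
    have h := step bob ali I hI0 hI1 hμ0 h01 hμ1 hγ hle hρ hP _ _ _
      (fun e b a => prod_nonneg fun j _ => hI0 _ _ _) (fun e => prod_nonneg fun j _ => hμ _) ih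
      (fun v v' => f (Fin.cons v v') 0) (fun v v' j => f (Fin.cons v v') j.succ)
      fun u u' a a' => k (Fin.cons u u') (Fin.cons a a')
    rw [pow_succ', sum_cons]
    refine le_trans (le_of_eq (sum_congr rfl fun e _ => ?_)) h
    rw [mul_sum]
    refine sum_congr rfl fun e' _ => ?_
    have hb : (fun j => bob ((Fin.cons e e' : Fin (t + 1) → E) j)) =
        Fin.cons (bob e) fun j => bob (e' j) := Fin.comp_cons bob e e'
    have ha : (fun j => ali ((Fin.cons e e' : Fin (t + 1) → E) j)) =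
        Fin.cons (ali e) fun j => ali (e' j) := Fin.comp_cons ali e e'
    simp only [hb, ha]
    rw [sum_cons, sum_cons, sum_comm, sum_comm (f := fun (a : A) (a' : Fin t → A) =>
      k (Fin.cons (ali e) fun j => ali (e' j)) (Fin.cons a a') ^ 2)]
    simp only [Fin.prod_univ_succ, Fin.cons_zero, Fin.cons_succ, mul_assoc]
    refine congrArg (fun x => μ e * (_ * (2 * x - _))) (sum_congr rfl fun a' _ => ?_)
    rw [mul_sum]
    exact sum_congr rfl fun a _ => mul_left_comm _ _ _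

end Rep

theorem parRep : ParRep := by
  intro E V U A B _ _ _ _ _ bob ali proj μ μ0 γ ε u0 hμ0 h01 hμ1 hγ hle hnull hε0 hε1 hval t f g
  obtain ⟨I, hI⟩ : ∃ I : E → B → A → ℝ, ∀ e b a, I e b a = if proj e b = some a then 1 else 0 :=
    ⟨_, fun _ _ _ => rfl⟩
  have hI0 : ∀ e b a, 0 ≤ I e b a := fun e b a => by
    rw [hI]
    split_ifs
    exacts [zero_le_one, le_rfl]
  have hI1 : ∀ e b, ∑ a, I e b a ≤ 1 := fun e b => by
    simp only [hI]
    cases proj e b with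
    | none => simp
    | some a0 => simp
  have hnull' : ∀ φ : V → ℝ, ∑ e, (if ali e = u0 then μ0 e * φ (bob e) else 0) =
      1 / 2 * ∑ e, μ0 e * φ (bob e) := by
    intro φ
    have h1 : ∀ e, (if ali e = u0 then μ0 e * φ (bob e) else 0) = ∑ v ∈ univ.image bob,
        (if bob e = v ∧ ali e = u0 then μ0 e else 0) * φ v := by
      intro e
      rw [sum_eq_single (bob e) (fun v _ hv => by rw [if_neg fun h => hv h.1.symm, zero_mul])
        fun h => absurd (mem_image_of_mem bob (mem_univ e)) h]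
      by_cases h : ali e = u0 <;> simp [h]
    have h2 : ∀ e, μ0 e * φ (bob e) = ∑ v ∈ univ.image bob,
        (if bob e = v then μ0 e else 0) * φ v := by
      intro e
      rw [sum_eq_single (bob e) (fun v _ hv => by rw [if_neg fun h => hv h.symm, zero_mul])
        fun h => absurd (mem_image_of_mem bob (mem_univ e)) h, if_pos rfl]
    rw [sum_congr rfl fun e _ => h1 e, sum_congr rfl fun e _ => h2 e, sum_comm,
      sum_comm (t := univ.image bob), mul_sum]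
    refine sum_congr rfl fun v _ => ?_
    rw [← sum_mul, ← sum_mul, hnull, mul_assoc]
  have hval' : ∀ (f : V → B) (g : U → A), ∑ e, μ0 e * I e (f (bob e)) (g (ali e)) ≤ 1 - ε := by
    intro f g
    simpa only [hI, mul_ite, mul_one, mul_zero] using hval f g
  have hρ : 0 ≤ 1 - ε ^ 2 / 16 := by nlinarith
  have hb := Rep.bd_pow bob ali I hI0 hI1 hμ0 h01 hμ1 hγ hle hρ
    (Rep.one_step bob ali I hI0 hI1 hμ0 h01 u0 hnull' hε0 hε1 hval') t
  obtain ⟨x, hx⟩ : ∃ x : ℝ, x = ∑ e : Fin t → E,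
      (if ∀ i, proj (e i) (f (fun j => bob (e j)) i) = some (g (fun j => ali (e j)) i)
        then ∏ i, μ (e i) else 0) := ⟨_, rfl⟩
  have h1 := hb f fun u a => if a = g u then x else 0
  have h2 : ∀ e : Fin t → E, (∏ j, μ (e j)) * (2 * ∑ a : Fin t → A,
      (∏ j, I (e j) (f (fun j => bob (e j)) j) (a j)) *
        (if a = g (fun j => ali (e j)) then x else 0) -
      ∑ a : Fin t → A, (if a = g (fun j => ali (e j)) then x else 0) ^ 2) =
      2 * x * (if ∀ i, proj (e i) (f (fun j => bob (e j)) i) = some (g (fun j => ali (e j)) i)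
        then ∏ i, μ (e i) else 0) - x ^ 2 * ∏ j, μ (e j) := by
    intro e
    simp only [mul_ite, mul_zero, ite_pow, sum_ite_eq', mem_univ, if_true, hI, prod_ite_zero,
      prod_const_one, zero_pow two_ne_zero, forall_true_left]
    split_ifs <;> ring
  have h3 : ∑ e : Fin t → E, ∏ j, μ (e j) = 1 := by
    rw [← Fintype.piFinset_univ, ← prod_univ_sum (fun _ : Fin t => (univ : Finset E)) fun _ e => μ e]
    simp [hμ1]
  rw [sum_congr rfl fun e _ => h2 e, sum_sub_distrib, ← mul_sum, ← mul_sum, ← hx, h3] at h1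
  rw [← hx]
  have h4 : 1 - γ * (1 - (1 - ε ^ 2 / 16)) = 1 - γ * ε ^ 2 / 16 := by ring
  rw [h4] at h1
  linarith

end Vale.Agent.P325
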