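import Vale.Agent.P325.SndC

/-! Part E2: soundness of the reduction from the inverse lemma and parallel repetition. -/

namespace Vale.Agent.P325

open Finset
open scoped Classical BigOperators

namespace Snd

variable {l m N k : ℕ}

lemma ite_iff {p q : Prop} {_ : Decidable p} {_ : Decidable q} (h : p ↔ q) (x y : ℝ) :
    (if p then x else y) = if q then x else y := by
  by_cases hq : q
  · rw [if_pos hq, if_pos (h.mpr hq)]
  · rw [if_neg hq, if_neg fun hp => hq (h.mp hp)]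

lemma core (hP : ParRep) (hN : 0 < N) {φ κ : Bv l} (h : φ ⬝ᵥ κ = 1) (var : Fin N → Fin 3 → ℕ)
    (rhs : Fin N → ZMod 2)
    (hL : ∀ σ : ℕ → ZMod 2, ((univ.filter fun e : Fin N =>
        σ (var e 0) + σ (var e 1) + σ (var e 2) = rhs e).card : ℝ) ≤ (3 / 4) * N)
    (F : (ℕ → Bv l × Bv m) → Bv l) (η β : ℝ) (hη : 0 < η) (hβ0 : 0 < β) (hβ1 : β ≤ 1)
    (h1 : (1 + β ^ 2 * Fintype.card (Fin 3 → Bv l × Bv m)) ^ k - 1 ≤ η ^ 2 / 4)
    (h2 : (1 - β / Fintype.card (Fin 3 → Bv l × Bv m) * (1 / 24) ^ 2 / 16) ^ k < (η ^ 2 / 4) ^ 2)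
    (z : (Fin k → Fin N) → (Fin k × Fin 3 → Bv l × Bv m) → Fin k × Fin 3 → ZMod 2)
    (hz : ∀ U M, Valid (fun i => rhs (U i)) (z U M))
    (hbig : η ≤ 𝔼 U : Fin k → Fin N, 𝔼 M : Fin k × Fin 3 → Bv l × Bv m,
      |lineCoef (FU var F U) φ κ M (z U M)|) : False := by
  have hb : ∀ (U : Fin k → Fin N) (c : Fin k × Fin 3 → Bv l × Bv m), ∃ w,
      Valid (fun i => rhs (U i)) w ∧ ∀ z', Valid (fun i => rhs (U i)) z' →
        |lineCoef (FU var F U) φ κ c z'| ≤ |lineCoef (FU var F U) φ κ c w| := fun U c =>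
    exists_best (fun i => rhs (U i)) fun w => |lineCoef (FU var F U) φ κ c w|
  choose zs hzs hmax using hb
  let Ψ : (Fin k → Fin N × (Fin 3 → Bv l × Bv m)) → ℝ := fun x =>
    Psi φ κ (FU var F fun i => (x i).1) (zs fun i => (x i).1) (fun j => (x j.1).2 j.2)
  have a1 : η ≤ 𝔼 x, Ψ x := by
    have e := expect_split (k := k) (fun (U : Fin k → Fin N) (M : Fin k × Fin 3 → Bv l × Bv m) =>
      Psi φ κ (FU var F U) (zs U) M)
    refine le_trans hbig (le_trans ?_ e.ge)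
    refine expect_le_expect fun U _ => ?_
    rw [uniform_part h]
    refine expect_le_expect fun M _ => ?_
    rw [← abs_lineCoef_prj]
    exact hmax U _ _ (hz U M)
  have a2 := smooth_close hN β k Ψ fun x => (Psi_sq _ _ _ _ _).le
  obtain ⟨s, hs, a3⟩ := edge_part h var F zs β
  let P : (Fin k → Fin N × Mode × (Fin 3 → Bv l × Bv m)) → Fin k → Fin 3 → ZMod 2 := fun ε i =>
    pr (ε i).2.1 fun p => zs (fun i => (ε i).1)
      (fun j => prj φ κ (mask (ε j.1).2.1 (ε j.1).2.2 j.2)) (i, p)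
  let Q : (Fin k → Fin N × Mode × (Fin 3 → Bv l × Bv m)) → Fin k → AQ N (Bv l × Bv m) :=
    fun ε i => ali (prj φ κ) var (ε i)
  let W : (Fin k → Fin N × Mode × (Fin 3 → Bv l × Bv m)) → ℝ := fun ε => ∏ i, mu β (ε i)
  have hW : ∀ ε, 0 ≤ W ε := fun ε => prod_nonneg fun i _ => mu_nonneg β hβ0.le hβ1 _
  have hW1 : ∑ ε, W ε = 1 := by
    have := Finset.prod_univ_sum (fun _ : Fin k => (univ : Finset
      (Fin N × Mode × (Fin 3 → Bv l × Bv m)))) (fun _ ε => mu β ε)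
    simp only [Fintype.piFinset_univ, sum_mu hN β, prod_const_one] at this
    exact this.symm
  have a4 : η / 2 ≤ ∑ ε, W ε * (s ε * ghat φ κ var F (Q ε) (P ε)) := by
    have a5 : ((∑ ε, W ε * (s ε * ghat φ κ var F (Q ε) (P ε))) - 𝔼 x, Ψ x) ^ 2 ≤ (η / 2) ^ 2 := by
      rw [← a3]
      refine le_trans a2 (le_trans h1 (le_of_eq (by ring)))
    have a6 := abs_le_of_sq_le_sq' a5 (by linarith)
    linarith [a6.1]
  have a7 : η ^ 2 / 4 ≤ ∑ ε, W ε * ghat φ κ var F (Q ε) (P ε) ^ 2 := by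
    have b1 : ∀ ε, η * (W ε * (s ε * ghat φ κ var F (Q ε) (P ε))) - η ^ 2 / 4 * W ε ≤
        W ε * ghat φ κ var F (Q ε) (P ε) ^ 2 := by
      intro ε
      have b2 : 0 ≤ W ε * (s ε * ghat φ κ var F (Q ε) (P ε) - η / 2) ^ 2 :=
        mul_nonneg (hW ε) (sq_nonneg _)
      have b3 : (s ε * ghat φ κ var F (Q ε) (P ε)) ^ 2 = ghat φ κ var F (Q ε) (P ε) ^ 2 := by
        rw [mul_pow, hs, one_mul]
      rw [← b3]
      nlinarith
    have b4 := sum_le_sum fun ε (_ : ε ∈ univ) => b1 ε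
    rw [sum_sub_distrib, ← mul_sum, ← mul_sum, hW1] at b4
    nlinarith
  obtain ⟨g, hg⟩ := derand Q P W (fun q w => ghat φ κ var F q w ^ 2) (fun q w => sq_nonneg _)
    (sum_ghat φ κ var F)
  have hc := card_pos' (V := Bv l × Bv m)
  have a8 := hP (Fin N × Mode × (Fin 3 → Bv l × Bv m)) (Fin N × (Fin 3 → Bv l × Bv m))
    (AQ N (Bv l × Bv m)) (Fin 3 → ZMod 2) (Fin 3 → ZMod 2) (bob (prj φ κ)) (ali (prj φ κ) var)
    (proj rhs) (mu β) mu0 (β / Fintype.card (Fin 3 → Bv l × Bv m)) (1 / 24) (Sum.inr none)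
    mu0_nonneg (sum_mu0 hN) (sum_mu hN β) (by positivity) (mu0_le β hβ0.le hβ1)
    (fun v => null_half _ _ v) (by norm_num) (by norm_num)
    (fun f g => val_mu0 hN _ var rhs hL f g) k
    (fun v i p => zs (fun i => (v i).1) (fun j => (v j.1).2 j.2) (i, p)) g
  refine absurd (lt_of_le_of_lt a8 h2) (not_lt.mpr (pow_le_pow_left₀ (by positivity) ?_ 2))
  refine le_trans (le_trans a7 hg) (le_of_eq (sum_congr rfl fun ε _ => ite_iff ?_ _ _))
  rw [funext_iff]
  refine forall_congr' fun i => ?_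
  have hv := hzs (fun i => (ε i).1) (fun j => prj φ κ (mask (ε j.1).2.1 (ε j.1).2.2 j.2)) i
  unfold proj
  rw [if_pos (by exact hv), Option.some_inj]
  exact Iff.rfl

lemma cube_tangent (t δ c : ℝ) (hδ : 0 < δ) (hc : 0 < c) :
    (δ / 2 / c) ^ 3 + 3 * (δ / 2 / c) ^ 2 * ((t - δ) / c) ≤ (max 0 (t - δ / 2) / c) ^ 3 := by
  set s := max 0 (t - δ / 2) / c with hs
  set s0 := δ / 2 / c with hs0
  have h0 : 0 ≤ s := div_nonneg (le_max_left _ _) hc.le
  have h1 : 0 ≤ s0 := by positivity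
  have h2 : (t - δ) / c ≤ s - s0 := by
    rw [hs, hs0, ← sub_div]
    exact div_le_div_of_nonneg_right (by linarith [le_max_right 0 (t - δ / 2)]) hc.le
  have h3 := mul_le_mul_of_nonneg_left h2 (by positivity : 0 ≤ 3 * s0 ^ 2)
  nlinarith [mul_nonneg (sq_nonneg (s - s0)) (by linarith : 0 ≤ s + 2 * s0)]

end Snd

open Snd in
theorem sound_of : InvThm → ParRep → SoundThm := by
  intro hI hP δ hδ r
  set c : ℝ := (δ / 2 / 4 ^ r) ^ 3 with hc
  have hcpos : 0 < c := by positivity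
  obtain ⟨l0, hl0⟩ := pow_unbounded_of_one_lt ((2 / c) ^ 2) (by norm_num : (1 : ℝ) < 2)
  refine ⟨l0, fun l m hl => ?_⟩
  have hsq : 1 / Real.sqrt (2 ^ l) ≤ c / 2 := by
    have h1 : (2 / c) ^ 2 ≤ (2 : ℝ) ^ l :=
      hl0.le.trans (pow_le_pow_right₀ (by norm_num) hl)
    have h2 : 2 / c ≤ Real.sqrt (2 ^ l) := Real.le_sqrt_of_sq_le h1
    calc 1 / Real.sqrt (2 ^ l) ≤ 1 / (2 / c) := one_div_le_one_div_of_le (by positivity) h2
      _ = c / 2 := by field_simp
  have hcard : (1 : ℝ) ≤ Fintype.card (Fin 3 → Bv l × Bv m) := by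
    exact_mod_cast Fintype.card_pos
  obtain ⟨β, k, hβ0, hβ1, h1, h2⟩ := params (min (c / 4) 1) _ (lt_min (by positivity) one_pos)
    (min_le_right _ _) hcard
  refine ⟨k, fun Ω _ _ a ha N var rhs hN hL F => ?_⟩
  have : Nonempty (Fin N) := ⟨⟨0, hN⟩⟩
  by_contra hcon
  have hcon' : δ < 𝔼 U : Fin k → Fin N, acc a (fun i => rhs (U i)) (FU var F U) := not_le.mp hcon
  choose z hz hzb using fun U : Fin k → Fin N =>
    hI l m Ω a r (δ / 2) ha (by positivity) k (fun i => rhs (U i)) (FU var F U)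
  have b1 : c / 4 ≤ 𝔼 U : Fin k → Fin N, 𝔼 φ : Bv l, 𝔼 κ : Bv l,
      𝔼 M : Fin k × Fin 3 → Bv l × Bv m,
        if φ ⬝ᵥ κ = 1 then |lineCoef (FU var F U) φ κ M (z U φ κ M)| else 0 := by
    have b2 := expect_le_expect fun (U : Fin k → Fin N) (_ : U ∈ univ) =>
      le_trans (sub_le_sub (cube_tangent (acc a (fun i => rhs (U i)) (FU var F U)) δ (4 ^ r) hδ
        (by positivity)) hsq) (hzb U)
    rw [← mul_expect, expect_sub_distrib, expect_add_distrib, ← mul_expect] at b2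
    simp only [div_eq_mul_inv (_ - δ), ← expect_mul, expect_sub_distrib,
      Fintype.expect_const] at b2
    have b3 : 0 ≤ 3 * (δ / 2 / 4 ^ r) ^ 2 *
        (((𝔼 U : Fin k → Fin N, acc a (fun i => rhs (U i)) (FU var F U)) - δ) * (4 ^ r)⁻¹) :=
      mul_nonneg (by positivity) (mul_nonneg (by linarith) (by positivity))
    linarith
  rw [expect_comm] at b1
  obtain ⟨φ, -, b4⟩ := exists_le_of_le_expect univ_nonempty b1
  rw [expect_comm] at b4
  obtain ⟨κ, -, b5⟩ := exists_le_of_le_expect univ_nonempty b4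
  by_cases h : φ ⬝ᵥ κ = 1
  · simp only [h, if_true] at b5
    exact core hP hN h var rhs hL F _ β (lt_min (by positivity) one_pos) hβ0 hβ1 h1 h2
      (fun U M => z U φ κ M) (fun U M => hz U φ κ M) (le_trans (min_le_left _ _) b5)
  · simp only [h, if_false, Fintype.expect_const] at b5
    linarith

end Vale.Agent.P325
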