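import Vale.Agent.P325.Gen
import Vale.Agent.P325.Gad
import Vale.Agent.P325.Snd
import Vale.Agent.P325.Inv2
import Vale.Agent.P325.Rep
import Vale.Agent.P325.LinRed
import Vale.Agent.P325.Red
import Vale.Agent.P325.Final

/-! The Unique Games theorem from the PCP theorem. -/

namespace Vale.Agent.P325

theorem ug_of_pcp (h : PCPThm) : UGThm :=
  ug_of (lin_of h parRep) (gadget_of genThm) (sound_of invThm parRep)

end Vale.Agent.P325
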