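import Mathlib

/-! Fourier analysis on the discrete torus and the Schur test for the Margulis graph. -/

namespace Vale.Agent.P325.Marg

open Finset

set_option linter.unusedSectionVars false

section schur

variable {X : Type} [Fintype X]

/-- one term of the Schur test -/
theorem schur_term (M : X ≃ X) (c γ γ' H G : X → ℝ) {Λ : ℝ} (hΛ : 0 < Λ) (hc : ∀ x, 0 ≤ c x)
    (hM : ∀ x, c (M x) = c x) (hγ : ∀ x, 0 < γ x) (hγ' : ∀ x, γ x * γ' (M x) = 1) :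
    2 * ∑ x, H x * (c x * G (M x))
      ≤ (∑ x, H x ^ 2 * (c x * γ x)) / Λ + Λ * ∑ y, G y ^ 2 * (c y * γ' y) := by
  rw [← M.sum_comp (fun y => G y ^ 2 * (c y * γ' y)), mul_sum, mul_sum, sum_div,
    ← sum_add_distrib]
  refine sum_le_sum (fun x _ => ?_)
  have h1 := hγ x
  have h2 : γ' (M x) = 1 / γ x := by rw [eq_div_iff h1.ne', mul_comm]; exact hγ' x
  rw [hM, h2]
  have h3 : H x ^ 2 * (c x * γ x) / Λ + Λ * (G (M x) ^ 2 * (c x * (1 / γ x)))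
      - 2 * (H x * (c x * G (M x))) = c x * (γ x * H x - Λ * G (M x)) ^ 2 / (Λ * γ x) := by
    field_simp
    ring
  have h4 : 0 ≤ c x * (γ x * H x - Λ * G (M x)) ^ 2 / (Λ * γ x) := by
    have := hc x
    positivity
  linarith

end schur

/-- comparison weights -/
noncomputable def cmp (s t : ℕ) : ℝ := if t < s then 9 / 8 else if s < t then 8 / 9 else 1

theorem cmp_pos (s t : ℕ) : 0 < cmp s t := by unfold cmp; split_ifs <;> norm_num

theorem cmp_le (s t : ℕ) : cmp s t ≤ 9 / 8 := by unfold cmp; split_ifs <;> norm_num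

theorem cmp_mul (s t : ℕ) : cmp s t * cmp t s = 1 := by
  unfold cmp; split_ifs <;> first | omega | norm_num

theorem cmp_lt {s t : ℕ} (h : s < t) : cmp s t = 8 / 9 := by
  unfold cmp; rw [if_neg (by omega), if_pos h]

theorem cmp_le' {s t : ℕ} (h : s ≤ t) : cmp s t ≤ 1 := by
  unfold cmp; rw [if_neg (by omega)]; split_ifs <;> norm_num

variable {m : ℕ} [NeZero m]

/-- distance to zero -/
def nm (a : ZMod m) : ℕ := a.valMinAbs.natAbs

theorem nm_cases (z : ℤ) (a : ZMod m) (h : a = z) : 2 * nm a ≤ m ∧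
    (a.valMinAbs = z ∨ z + m ≤ a.valMinAbs ∨ a.valMinAbs ≤ z - m) := by
  have h1 := ZMod.natAbs_valMinAbs_le a
  refine ⟨by unfold nm; omega, ?_⟩
  have h2 : ((z : ℤ) : ZMod m) = (a.valMinAbs : ℤ) := by rw [ZMod.coe_valMinAbs, h]
  obtain ⟨k, hk⟩ := (ZMod.intCast_eq_intCast_iff_dvd_sub _ _ _).1 h2
  have hm : (0 : ℤ) ≤ m := Int.natCast_nonneg m
  rcases lt_trichotomy k 0 with h3 | h3 | h3
  · right; right; nlinarith
  · left; rw [h3] at hk; linarith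
  · right; left; nlinarith

theorem int1 {x y u : ℤ} {m : ℕ} (h : 2 * (x.natAbs + y.natAbs) < m) (hx : x ≠ 0)
    (hxy : y.natAbs ≤ x.natAbs) (hu : u = y + 2 * x ∨ y + 2 * x + m ≤ u ∨ u ≤ y + 2 * x - m) :
    y.natAbs ≤ u.natAbs ∧ (x ≠ -y → y.natAbs < u.natAbs) := by omega

theorem int2 {x y u : ℤ} {m : ℕ} (h : 2 * (x.natAbs + y.natAbs) < m)
    (hs : (0 < x ∧ 0 < y) ∨ (x < 0 ∧ y < 0))
    (hxy : y.natAbs ≤ x.natAbs) (hu : u = x + 2 * y ∨ x + 2 * y + m ≤ u ∨ u ≤ x + 2 * y - m) :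
    x.natAbs < u.natAbs := by omega

theorem diamond' {a b : ZMod m} (h0 : a ≠ 0) (hab : nm b ≤ nm a) (h : 2 * (nm a + nm b) < m) :
    cmp (nm b) (nm (b + 2 * a)) + cmp (nm b) (nm (b - 2 * a))
      + (cmp (nm a) (nm (a + 2 * b)) + cmp (nm a) (nm (a - 2 * b))) ≤ 19 / 5 := by
  have h5 : a.valMinAbs ≠ 0 := fun e => h0 ((ZMod.valMinAbs_eq_zero a).1 e)
  have h1 : nm b ≤ nm (b + 2 * a) ∧ (a.valMinAbs ≠ -b.valMinAbs → nm b < nm (b + 2 * a)) :=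
    int1 h h5 hab (nm_cases (b.valMinAbs + 2 * a.valMinAbs) (b + 2 * a) (by simp)).2
  have h2 : nm b ≤ nm (b - 2 * a) ∧ (-a.valMinAbs ≠ -b.valMinAbs → nm b < nm (b - 2 * a)) :=
    int1 (x := -a.valMinAbs) (by rw [Int.natAbs_neg]; exact h) (neg_ne_zero.2 h5)
      (by rw [Int.natAbs_neg]; exact hab)
      (nm_cases (b.valMinAbs + 2 * -a.valMinAbs) (b - 2 * a) (by simp [sub_eq_add_neg])).2
  have h3 : _ → nm a < nm (a + 2 * b) := fun hs =>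
    int2 h hs hab (nm_cases (a.valMinAbs + 2 * b.valMinAbs) (a + 2 * b) (by simp)).2
  have h4 : _ → nm a < nm (a - 2 * b) := fun hs =>
    int2 (y := -b.valMinAbs) (by rw [Int.natAbs_neg]; exact h) hs
      (by rw [Int.natAbs_neg]; exact hab)
      (nm_cases (a.valMinAbs + 2 * -b.valMinAbs) (a - 2 * b) (by simp [sub_eq_add_neg])).2
  by_cases hb : b = 0
  · subst hb
    have e2 : (0 : ZMod m).valMinAbs = 0 := by simp
    rw [e2] at h1 h2
    rw [cmp_lt (h1.2 (by omega)), cmp_lt (h2.2 (by omega)), mul_zero, add_zero, sub_zero]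
    have := cmp_le' (le_refl (nm a))
    linarith
  have h6 : b.valMinAbs ≠ 0 := fun e => hb ((ZMod.valMinAbs_eq_zero b).1 e)
  have hneg : cmp (nm a) (nm (-a)) ≤ 1 := cmp_le' (ZMod.natAbs_valMinAbs_neg a).ge
  by_cases c1 : a.valMinAbs = b.valMinAbs
  · have e : a - 2 * b = -a := by rw [ZMod.valMinAbs_inj.1 c1]; ring
    rw [cmp_lt (h1.2 (by omega)), cmp_lt (h3 (by omega)), e]
    linarith [cmp_le' h2.1]
  by_cases c2 : a.valMinAbs = -b.valMinAbs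
  · have e : a + 2 * b = -a := by rw [ZMod.eq_neg_of_valMinAbs_eq_neg_valMinAbs c2]; ring
    rw [cmp_lt (h2.2 (by omega)), cmp_lt (h4 (by omega)), e]
    linarith [cmp_le' h1.1]
  rw [cmp_lt (h1.2 c2), cmp_lt (h2.2 (by omega))]
  by_cases c3 : (0 < a.valMinAbs ∧ 0 < b.valMinAbs) ∨ (a.valMinAbs < 0 ∧ b.valMinAbs < 0)
  · rw [cmp_lt (h3 c3)]; linarith [cmp_le (nm a) (nm (a - 2 * b))]
  · rw [cmp_lt (h4 (by omega))]; linarith [cmp_le (nm a) (nm (a + 2 * b))]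

theorem diamond {a b : ZMod m} (h0 : (a, b) ≠ 0) (h : 2 * (nm a + nm b) < m) :
    cmp (nm b) (nm (b + 2 * a)) + cmp (nm b) (nm (b - 2 * a))
      + (cmp (nm a) (nm (a + 2 * b)) + cmp (nm a) (nm (a - 2 * b))) ≤ 19 / 5 := by
  have hz : ∀ x : ZMod m, nm x = 0 → x = 0 := fun x hx =>
    (ZMod.valMinAbs_eq_zero x).1 (Int.natAbs_eq_zero.1 hx)
  have e1 : nm (0 : ZMod m) = 0 := by simp [nm]
  rcases le_total (nm b) (nm a) with h1 | h1
  · refine diamond' (fun e => h0 ?_) h1 h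
    rw [e, e1] at h1
    rw [e, hz b (by omega)]; rfl
  · rw [add_comm]
    refine diamond' (fun e => h0 ?_) h1 (by omega)
    rw [e, e1] at h1
    rw [e, hz a (by omega)]; rfl

/-- bound for the cosine factor -/
noncomputable def cs (a : ZMod m) : ℝ := if m ≤ 4 * nm a then 3 / 2 else 2

theorem cs_nonneg (a : ZMod m) : 0 ≤ cs a := by unfold cs; split_ifs <;> norm_num

theorem cs_le (a : ZMod m) : cs a ≤ 2 := by unfold cs; split_ifs <;> norm_num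

theorem cs_neg (a : ZMod m) : cs (-a) = cs a := by
  unfold cs nm; rw [ZMod.natAbs_valMinAbs_neg]

theorem row_sum {a b : ZMod m} (h0 : (a, b) ≠ 0) :
    cs a * cmp (nm b) (nm (b + 2 * a)) + cs a * cmp (nm b) (nm (b - 2 * a))
      + (cs b * cmp (nm a) (nm (a + 2 * b)) + cs b * cmp (nm a) (nm (a - 2 * b))) ≤ 63 / 8 := by
  have a0 := cs_nonneg a
  have b0 := cs_nonneg b
  by_cases h : 2 * (nm a + nm b) < m
  · have h1 := diamond h0 h
    have a1 := cs_le a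
    have b1 := cs_le b
    have := mul_le_mul_of_nonneg_right a1 (cmp_pos (nm b) (nm (b + 2 * a))).le
    have := mul_le_mul_of_nonneg_right a1 (cmp_pos (nm b) (nm (b - 2 * a))).le
    have := mul_le_mul_of_nonneg_right b1 (cmp_pos (nm a) (nm (a + 2 * b))).le
    have := mul_le_mul_of_nonneg_right b1 (cmp_pos (nm a) (nm (a - 2 * b))).le
    linarith
  · have h1 : cs a + cs b ≤ 7 / 2 := by
      unfold cs; split_ifs <;> first | omega | norm_num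
    have := mul_le_mul_of_nonneg_left (cmp_le (nm b) (nm (b + 2 * a))) a0
    have := mul_le_mul_of_nonneg_left (cmp_le (nm b) (nm (b - 2 * a))) a0
    have := mul_le_mul_of_nonneg_left (cmp_le (nm a) (nm (a + 2 * b))) b0
    have := mul_le_mul_of_nonneg_left (cmp_le (nm a) (nm (a - 2 * b))) b0
    linarith

/-- the standard character -/
noncomputable abbrev ch (a : ZMod m) : ℂ := ZMod.stdAddChar a

theorem norm_ch (a : ZMod m) : ‖ch a‖ = 1 := by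
  rw [ch, ZMod.stdAddChar_apply]; exact Circle.norm_coe _

theorem norm_one_add (a : ZMod m) : ‖1 + ch a‖ ≤ cs a := by
  unfold cs
  split_ifs with h
  · have hm : (0 : ℝ) < m := Nat.cast_pos.2 (Nat.pos_of_ne_zero (NeZero.ne m))
    have h1 : (ch a).re ≤ 0 := by
      have e : ch a = Complex.exp ((2 * Real.pi * a.valMinAbs / m : ℝ) * Complex.I) := by
        rw [ch, ← ZMod.coe_valMinAbs a, ZMod.stdAddChar_coe, ZMod.coe_valMinAbs]
        congr 1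
        push_cast
        ring
      rw [e, Complex.exp_ofReal_mul_I_re, ← Real.cos_abs]
      have e2 : |2 * Real.pi * (a.valMinAbs : ℝ) / m| = 2 * Real.pi * (nm a : ℝ) / m := by
        rw [abs_div, abs_mul, abs_of_pos hm, abs_of_pos Real.two_pi_pos, nm, Nat.cast_natAbs,
          Int.cast_abs]
      have h2 : (m : ℝ) ≤ 4 * nm a := by exact_mod_cast h
      have h3 : 2 * (nm a : ℝ) ≤ m := by
        exact_mod_cast (nm_cases a.valMinAbs a (ZMod.coe_valMinAbs a).symm).1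
      have hp := Real.pi_pos
      rw [e2]
      refine Real.cos_nonpos_of_pi_div_two_le_of_le ?_ ?_
      · rw [le_div_iff₀ hm]; nlinarith
      · rw [div_le_iff₀ hm]; nlinarith
    have h2 := norm_ch a
    rw [Complex.norm_eq_sqrt_sq_add_sq, Real.sqrt_eq_one] at h2
    rw [Complex.norm_eq_sqrt_sq_add_sq, Real.sqrt_le_iff]
    simp only [Complex.add_re, Complex.one_re, Complex.add_im, Complex.one_im, zero_add]
    constructor <;> nlinarith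
  · refine le_trans (norm_add_le _ _) ?_
    rw [norm_one, norm_ch]; norm_num

/-- the Fourier transform -/
noncomputable def FT (f : ZMod m × ZMod m → ℝ) (ξ : ZMod m × ZMod m) : ℂ :=
  ∑ z, (f z : ℂ) * ch (ξ.1 * z.1 + ξ.2 * z.2)

theorem parseval (f : ZMod m × ZMod m → ℝ) :
    ∑ ξ, ‖FT f ξ‖ ^ 2 = (m : ℝ) ^ 2 * ∑ z, f z ^ 2 := by
  have h1 : ∀ w : ZMod m × ZMod m, ∑ ξ : ZMod m × ZMod m, ch (ξ.1 * w.1 + ξ.2 * w.2)
      = if w = 0 then (m : ℂ) ^ 2 else 0 := by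
    intro w
    simp only [ch, AddChar.map_add_eq_mul]
    rw [Fintype.sum_prod_type]
    simp only
    rw [← sum_mul_sum, AddChar.sum_mulShift _ (ZMod.isPrimitive_stdAddChar m),
      AddChar.sum_mulShift _ (ZMod.isPrimitive_stdAddChar m), ZMod.card]
    by_cases a1 : w.1 = 0 <;> by_cases a2 : w.2 = 0 <;> simp [a1, a2, Prod.ext_iff, sq]
  have h2 : ∀ ξ, ((‖FT f ξ‖ ^ 2 : ℝ) : ℂ) = ∑ z, ∑ z', (f z : ℂ) * f z' *
      ch (ξ.1 * (z - z').1 + ξ.2 * (z - z').2) := by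
    intro ξ
    rw [← Complex.normSq_eq_norm_sq, ← Complex.mul_conj, FT, map_sum, sum_mul_sum]
    refine sum_congr rfl (fun z _ => sum_congr rfl (fun z' _ => ?_))
    rw [map_mul, Complex.conj_ofReal, ch, ch, ch, ← AddChar.map_neg_eq_conj, mul_mul_mul_comm,
      ← AddChar.map_add_eq_mul]
    congr 2
    simp only [Prod.fst_sub, Prod.snd_sub]
    ring
  apply Complex.ofReal_injective
  rw [Complex.ofReal_sum]
  simp only [h2]
  rw [sum_comm]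
  push_cast
  rw [mul_sum]
  refine sum_congr rfl (fun z _ => ?_)
  rw [sum_comm]
  simp only [← mul_sum, h1, sub_eq_zero]
  simp only [mul_ite, mul_zero, sum_ite_eq, mem_univ, if_true]
  ring

theorem FT_fst (f : ZMod m × ZMod m → ℝ) (k ε : ZMod m) (ξ : ZMod m × ZMod m) :
    FT (fun z => f (z.1 + k * z.2 + ε, z.2)) ξ
      = ch (-(ξ.1 * ε)) * FT f (ξ.1, ξ.2 - k * ξ.1) := by
  unfold FT
  rw [mul_sum]
  refine Fintype.sum_equiv ⟨fun z => (z.1 + k * z.2 + ε, z.2), fun z => (z.1 - k * z.2 - ε, z.2),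
    fun z => Prod.ext (by simp only; ring) rfl, fun z => Prod.ext (by simp only; ring) rfl⟩ _ _
    (fun z => ?_)
  simp only [Equiv.coe_fn_mk, ch]
  rw [mul_left_comm, ← AddChar.map_add_eq_mul]
  congr 2
  ring

theorem FT_snd (f : ZMod m × ZMod m → ℝ) (k ε : ZMod m) (ξ : ZMod m × ZMod m) :
    FT (fun z => f (z.1, z.2 + k * z.1 + ε)) ξ
      = ch (-(ξ.2 * ε)) * FT f (ξ.1 - k * ξ.2, ξ.2) := by
  unfold FT
  rw [mul_sum]
  refine Fintype.sum_equiv ⟨fun z => (z.1, z.2 + k * z.1 + ε), fun z => (z.1, z.2 - k * z.1 - ε),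
    fun z => Prod.ext rfl (by simp only; ring), fun z => Prod.ext rfl (by simp only; ring)⟩ _ _
    (fun z => ?_)
  simp only [Equiv.coe_fn_mk, ch]
  rw [mul_left_comm, ← AddChar.map_add_eq_mul]
  congr 2
  ring

/-- the sum over the eight neighbours -/
def nb (f : ZMod m × ZMod m → ℝ) (z : ZMod m × ZMod m) : ℝ :=
  (f (z.1 + -2 * z.2 + 0, z.2) + f (z.1 + -2 * z.2 + -1, z.2)
    + (f (z.1 + 2 * z.2 + 0, z.2) + f (z.1 + 2 * z.2 + 1, z.2)))
  + (f (z.1, z.2 + -2 * z.1 + 0) + f (z.1, z.2 + -2 * z.1 + -1)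
    + (f (z.1, z.2 + 2 * z.1 + 0) + f (z.1, z.2 + 2 * z.1 + 1)))

theorem FT_add (f g : ZMod m × ZMod m → ℝ) (ξ : ZMod m × ZMod m) :
    FT (fun z => f z + g z) ξ = FT f ξ + FT g ξ := by
  unfold FT
  rw [← sum_add_distrib]
  exact sum_congr rfl (fun z _ => by push_cast; ring)

theorem FT_nb (f : ZMod m × ZMod m → ℝ) (ξ : ZMod m × ZMod m) :
    ‖FT (nb f) ξ‖ ≤ cs ξ.1 * ‖FT f (ξ.1, ξ.2 + 2 * ξ.1)‖ + cs ξ.1 * ‖FT f (ξ.1, ξ.2 - 2 * ξ.1)‖
      + (cs ξ.2 * ‖FT f (ξ.1 + 2 * ξ.2, ξ.2)‖ + cs ξ.2 * ‖FT f (ξ.1 - 2 * ξ.2, ξ.2)‖) := by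
  have e : FT (nb f) ξ = (1 + ch ξ.1) * FT f (ξ.1, ξ.2 + 2 * ξ.1)
      + (1 + ch (-ξ.1)) * FT f (ξ.1, ξ.2 - 2 * ξ.1)
      + ((1 + ch ξ.2) * FT f (ξ.1 + 2 * ξ.2, ξ.2) + (1 + ch (-ξ.2)) * FT f (ξ.1 - 2 * ξ.2, ξ.2)) := by
    unfold nb
    simp only [FT_add, FT_fst, FT_snd]
    simp only [mul_zero, neg_zero, mul_neg, mul_one, neg_neg, neg_mul, sub_neg_eq_add, ch,
      AddChar.map_zero_eq_one]
    ring
  have h : ∀ (a : ZMod m) (w : ℂ), ‖(1 + ch a) * w‖ ≤ cs a * ‖w‖ := fun a w => by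
    rw [norm_mul]; exact mul_le_mul_of_nonneg_right (norm_one_add a) (norm_nonneg _)
  rw [e]
  refine le_trans (norm_add_le _ _) (add_le_add
    (le_trans (norm_add_le _ _) (add_le_add (h _ _) ?_))
    (le_trans (norm_add_le _ _) (add_le_add (h _ _) ?_)))
  · rw [← cs_neg]; exact h _ _
  · rw [← cs_neg]; exact h _ _

theorem gap (f : ZMod m × ZMod m → ℝ) (hf : ∑ z, f z = 0) :
    ∑ z, nb f z ^ 2 ≤ (63 / 8) ^ 2 * ∑ z, f z ^ 2 := by
  have hm : (0 : ℝ) < (m : ℝ) ^ 2 := by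
    have : (0 : ℝ) < m := Nat.cast_pos.2 (Nat.pos_of_ne_zero (NeZero.ne m))
    positivity
  refine le_of_mul_le_mul_left ?_ hm
  rw [mul_left_comm, ← parseval, ← parseval]
  set H : ZMod m × ZMod m → ℝ := fun ξ => ‖FT (nb f) ξ‖ with hH
  set G : ZMod m × ZMod m → ℝ := fun ξ => ‖FT f ξ‖ with hG
  have G0 : G 0 = 0 := by
    have : FT f 0 = ((∑ z, f z : ℝ) : ℂ) := by simp [FT]
    simp only [hG]
    rw [this, hf]; simp
  have H0 : H 0 = 0 := by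
    refine le_antisymm (le_trans (FT_nb f 0) ?_) (norm_nonneg _)
    have : ‖FT f (0, 0)‖ = 0 := G0
    simp [this]
  let S : ZMod m × ZMod m ≃ ZMod m × ZMod m :=
    ⟨fun ξ => (ξ.1, ξ.2 + 2 * ξ.1), fun ξ => (ξ.1, ξ.2 - 2 * ξ.1), fun ξ => by simp,
      fun ξ => by simp⟩
  let T : ZMod m × ZMod m ≃ ZMod m × ZMod m :=
    ⟨fun ξ => (ξ.1 + 2 * ξ.2, ξ.2), fun ξ => (ξ.1 - 2 * ξ.2, ξ.2), fun ξ => by simp,
      fun ξ => by simp⟩
  have hΛ : (0 : ℝ) < 63 / 8 := by norm_num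
  have t1 := schur_term S (fun ξ => cs ξ.1) (fun ξ => cmp (nm ξ.2) (nm (ξ.2 + 2 * ξ.1)))
    (fun ξ => cmp (nm ξ.2) (nm (ξ.2 - 2 * ξ.1))) H G hΛ (fun _ => cs_nonneg _) (fun _ => rfl)
    (fun _ => cmp_pos _ _) (fun ξ => by simp [S, cmp_mul])
  have t2 := schur_term S.symm (fun ξ => cs ξ.1) (fun ξ => cmp (nm ξ.2) (nm (ξ.2 - 2 * ξ.1)))
    (fun ξ => cmp (nm ξ.2) (nm (ξ.2 + 2 * ξ.1))) H G hΛ (fun _ => cs_nonneg _) (fun _ => rfl)
    (fun _ => cmp_pos _ _) (fun ξ => by simp [S, cmp_mul])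
  have t3 := schur_term T (fun ξ => cs ξ.2) (fun ξ => cmp (nm ξ.1) (nm (ξ.1 + 2 * ξ.2)))
    (fun ξ => cmp (nm ξ.1) (nm (ξ.1 - 2 * ξ.2))) H G hΛ (fun _ => cs_nonneg _) (fun _ => rfl)
    (fun _ => cmp_pos _ _) (fun ξ => by simp [T, cmp_mul])
  have t4 := schur_term T.symm (fun ξ => cs ξ.2) (fun ξ => cmp (nm ξ.1) (nm (ξ.1 - 2 * ξ.2)))
    (fun ξ => cmp (nm ξ.1) (nm (ξ.1 + 2 * ξ.2))) H G hΛ (fun _ => cs_nonneg _) (fun _ => rfl)
    (fun _ => cmp_pos _ _) (fun ξ => by simp [T, cmp_mul])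
  have row : ∀ U : ZMod m × ZMod m → ℝ, U 0 = 0 →
      ∑ ξ, U ξ ^ 2 * (cs ξ.1 * cmp (nm ξ.2) (nm (ξ.2 + 2 * ξ.1)))
        + ∑ ξ, U ξ ^ 2 * (cs ξ.1 * cmp (nm ξ.2) (nm (ξ.2 - 2 * ξ.1)))
        + (∑ ξ, U ξ ^ 2 * (cs ξ.2 * cmp (nm ξ.1) (nm (ξ.1 + 2 * ξ.2)))
          + ∑ ξ, U ξ ^ 2 * (cs ξ.2 * cmp (nm ξ.1) (nm (ξ.1 - 2 * ξ.2))))
      ≤ 63 / 8 * ∑ ξ, U ξ ^ 2 := by
    intro U hU
    simp only [← sum_add_distrib, mul_sum, ← mul_add]
    refine sum_le_sum (fun ξ _ => ?_)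
    by_cases h0 : ξ = 0
    · rw [h0, hU]; simp
    · have h1 := mul_le_mul_of_nonneg_left (row_sum (a := ξ.1) (b := ξ.2) h0) (sq_nonneg (U ξ))
      linarith
  have r1 := row H H0
  have r2 := row G G0
  have h1 : ∑ ξ, H ξ ^ 2 ≤ ∑ ξ, H ξ * (cs ξ.1 * G (S ξ)) + ∑ ξ, H ξ * (cs ξ.1 * G (S.symm ξ))
      + (∑ ξ, H ξ * (cs ξ.2 * G (T ξ)) + ∑ ξ, H ξ * (cs ξ.2 * G (T.symm ξ))) := by
    simp only [← sum_add_distrib, ← mul_add]
    refine sum_le_sum (fun ξ _ => ?_)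
    rw [sq]
    refine mul_le_mul_of_nonneg_left (le_trans (FT_nb f ξ) (le_of_eq ?_)) (norm_nonneg _)
    rw [mul_add, mul_add]
    rfl
  show ∑ ξ, H ξ ^ 2 ≤ (63 / 8) ^ 2 * ∑ ξ, G ξ ^ 2
  linarith

end Vale.Agent.P325.Marg
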