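import Vale.Agent.P325.DefsA
import Vale.Agent.P325.MargF

/-! The Margulis-Gabber-Galil expander. -/

namespace Vale.Agent.P325

open Finset

set_option linter.unusedSectionVars false

namespace Marg

variable {m : ℕ} [NeZero m]

/-- index of a point of the torus -/
def enc (z : ZMod m × ZMod m) : ℕ := z.1.val * m + z.2.val

theorem enc_lt (z : ZMod m × ZMod m) : enc z < m * m := by
  have h1 := ZMod.val_lt z.1
  have h2 := ZMod.val_lt z.2
  unfold enc
  nlinarith

theorem enc_div (z : ZMod m × ZMod m) : enc z / m = z.1.val := by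
  unfold enc
  rw [add_comm, Nat.add_mul_div_right _ _ (Nat.pos_of_ne_zero (NeZero.ne m)),
    Nat.div_eq_of_lt (ZMod.val_lt z.2), zero_add]

theorem enc_mod (z : ZMod m × ZMod m) : enc z % m = z.2.val := by
  unfold enc
  rw [add_comm, Nat.add_mul_mod_self_right, Nat.mod_eq_of_lt (ZMod.val_lt z.2)]

theorem enc_surj {i : ℕ} (hi : i < m * m) : ∃ z : ZMod m × ZMod m, enc z = i := by
  refine ⟨(((i / m : ℕ) : ZMod m), ((i % m : ℕ) : ZMod m)), ?_⟩
  unfold enc
  rw [ZMod.val_natCast, ZMod.val_natCast, Nat.mod_mod,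
    Nat.mod_eq_of_lt (Nat.div_lt_of_lt_mul hi), Nat.div_add_mod']

theorem sum_enc (g : ℕ → ℝ) : ∑ i ∈ range (m * m), g i = ∑ z : ZMod m × ZMod m, g (enc z) := by
  symm
  refine sum_bij (fun z _ => enc z) (fun z _ => mem_range.2 (enc_lt z)) (fun z _ z' _ h => ?_)
    (fun i hi => ?_) (fun _ _ => rfl)
  · refine Prod.ext (ZMod.val_injective m ?_) (ZMod.val_injective m ?_)
    · rw [← enc_div, ← enc_div, h]
    · rw [← enc_mod, ← enc_mod, h]
  · obtain ⟨z, hz⟩ := enc_surj (mem_range.1 hi)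
    exact ⟨z, mem_univ _, hz⟩

/-- the eight maps on the torus -/
def mv (p : Fin 8) (z : ZMod m × ZMod m) : ZMod m × ZMod m :=
  ![(z.1 + 2 * z.2 + 0, z.2), (z.1 + 2 * z.2 + 1, z.2), (z.1, z.2 + 2 * z.1 + 0),
    (z.1, z.2 + 2 * z.1 + 1), (z.1 + -2 * z.2 + 0, z.2), (z.1 + -2 * z.2 + -1, z.2),
    (z.1, z.2 + -2 * z.1 + 0), (z.1, z.2 + -2 * z.1 + -1)] p

theorem mod_eq {n : ℕ} {a : ZMod m} (h : (n : ZMod m) = a) : n % m = a.val := by
  rw [← h, ZMod.val_natCast]

theorem cast_pred : ((m - 1 : ℕ) : ZMod m) = -1 := by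
  rw [Nat.cast_sub (Nat.pos_of_ne_zero (NeZero.ne m)), ZMod.natCast_self, Nat.cast_one, zero_sub]

theorem marg_enc (p : Fin 8) (z : ZMod m × ZMod m) : marg m p (enc z) = enc (mv p z) := by
  unfold marg
  rw [enc_div, enc_mod]
  fin_cases p <;> simp only [mv, enc] <;> simp <;>
    first
    | (left; apply mod_eq; push_cast [cast_pred]; simp; done)
    | (left; apply mod_eq; push_cast [cast_pred]; simp; ring)
    | (apply mod_eq; push_cast [cast_pred]; simp; done)
    | (apply mod_eq; push_cast [cast_pred]; simp; ring)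

theorem mv_mv (p : Fin 8) (z : ZMod m × ZMod m) : mv (p + 4) (mv p z) = z := by
  fin_cases p <;> refine Prod.ext ?_ ?_ <;> simp [mv] <;> ring

end Marg

theorem margThm : MargThm := by
  refine ⟨63 / 64, by norm_num, by norm_num, fun m hm => ?_⟩
  have : NeZero m := ⟨hm.ne'⟩
  refine ⟨fun p i hi => ?_, fun p i hi => ?_, fun f hf => ?_⟩
  · obtain ⟨z, rfl⟩ := Marg.enc_surj hi
    rw [Marg.marg_enc]; exact Marg.enc_lt _
  · obtain ⟨z, rfl⟩ := Marg.enc_surj hi
    rw [Marg.marg_enc, Marg.marg_enc, Marg.mv_mv]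
  · rw [Marg.sum_enc] at hf
    rw [Marg.sum_enc, Marg.sum_enc]
    have h := Marg.gap (fun z => f (Marg.enc z)) hf
    have e : ∀ z : ZMod m × ZMod m, ((∑ p : Fin 8, f (marg m p (Marg.enc z))) / 8) ^ 2
        = Marg.nb (fun z => f (Marg.enc z)) z ^ 2 / 64 := by
      intro z
      have e1 : ∑ p : Fin 8, f (marg m p (Marg.enc z)) = Marg.nb (fun z => f (Marg.enc z)) z := by
        simp only [Marg.marg_enc, Fin.sum_univ_eight, Marg.nb]
        simp only [Marg.mv, Matrix.cons_val]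
        ring
      rw [e1]; ring
    simp only [e]
    rw [← sum_div]
    linarith

end Vale.Agent.P325
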