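import Vale.Agent.P325.PCPAmp

/-! The PCP theorem from expanders, powering and composition. -/

namespace Vale.Agent.P325

open Finset Vale.Agent.Lib.PolyTime
open scoped Classical BigOperators

namespace PCP

theorem iter (f : CNF3 → CNF3) (α : ℝ) (hα : 0 < α) (c : ℕ) (hf : PT f)
    (h : ∀ φ, φ ≠ [] → f φ ≠ [] ∧ (f φ).length ≤ c * φ.length ∧
      sz (f φ) ≤ c * φ.length * (c * φ.length) ∧ (Sat φ → Sat (f φ)) ∧
      ∀ u : ℝ, 0 ≤ u → (∀ σ, (cnfCount φ σ : ℝ) ≤ (1 - u) * φ.length) →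
        ∀ σ, (cnfCount (f φ) σ : ℝ) ≤ (1 - min (2 * u) α) * (f φ).length) : PCPThm := by
  let tv : Cl := ((0, true), (0, false), (0, true))
  have key : ∀ (φ : CNF3) (k : ℕ), φ ≠ [] → f^[k] φ ≠ [] ∧ (f^[k] φ).length ≤ c ^ k * φ.length ∧
      (Sat φ → Sat (f^[k] φ)) ∧ ∀ u : ℝ, 0 ≤ u → (∀ σ, (cnfCount φ σ : ℝ) ≤ (1 - u) * φ.length) →
        ∀ σ, (cnfCount (f^[k] φ) σ : ℝ) ≤ (1 - min (2 ^ k * u) α) * (f^[k] φ).length := by
    intro φ k hφ
    induction k with
    | zero =>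
      refine ⟨hφ, by simp, id, fun u _ hu σ => (hu σ).trans ?_⟩
      simp only [pow_zero, one_mul, Function.iterate_zero, id]
      gcongr
      exact min_le_left _ _
    | succ k ih =>
      obtain ⟨i1, i2, i3, i4⟩ := ih
      obtain ⟨j1, j2, -, j3, j4⟩ := h _ i1
      rw [Function.iterate_succ_apply']
      refine ⟨j1, j2.trans ?_, j3 ∘ i3, fun u hu0 hu σ =>
        (j4 _ (le_min (by positivity) hα.le) (i4 u hu0 hu) σ).trans ?_⟩
      · rw [pow_succ', mul_assoc]
        exact Nat.mul_le_mul_left _ i2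
      · refine mul_le_mul_of_nonneg_right (sub_le_sub_left (le_min ?_ (min_le_right _ _)) _)
          (Nat.cast_nonneg _)
        rw [mul_min_of_nonneg _ _ (zero_le_two (α := ℝ)), ← mul_assoc, ← pow_succ']
        exact min_le_min le_rfl (by linarith)
  refine ⟨min 1 α, lt_min one_pos hα, fun φ => f^[Nat.size (φ.length + 1)] (tv :: φ), ?_,
    fun φ => ?_⟩
  · have hl : PB fun φ : CNF3 => φ.length + 1 := (PT.id (α := CNF3)).pb_length.add (PB.const 1)
    have hL : PB fun φ : CNF3 => c * ((2 * (φ.length + 1)) ^ c * (φ.length + 1)) :=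
      (PB.const c).mul ((((PB.const 2).mul hl).pow c).mul hl)
    refine PT.iterate (f := fun _ s => f s) (hf.comp (PT.snd PT.id)) (by fun_prop)
      (hl.of_le fun φ => sz_nat_le _) (by fun_prop)
      (((by fun_prop : PT fun φ : CNF3 => tv :: φ).szb).add (hL.mul hL)) fun φ k hk => ?_
    cases k with
    | zero => exact Nat.le_add_right _ _
    | succ k =>
      obtain ⟨i1, i2, -⟩ := key (tv :: φ) k (List.cons_ne_nil _ _)
      rw [Function.iterate_succ_apply']
      have e1 : c ^ k ≤ (2 * (φ.length + 1)) ^ c := by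
        have a1 : 2 ^ k ≤ φ.length + 1 := Nat.lt_size.1 hk
        calc c ^ k ≤ (2 ^ c) ^ k := Nat.pow_le_pow_left Nat.lt_two_pow_self.le k
          _ = (2 ^ k) ^ c := by rw [← pow_mul, ← pow_mul, mul_comm]
          _ ≤ _ := Nat.pow_le_pow_left (by omega) c
      have e2 := Nat.mul_le_mul_left c (i2.trans (Nat.mul_le_mul_right _ e1))
      exact ((h _ i1).2.2.1.trans (Nat.mul_le_mul e2 e2)).trans (Nat.le_add_left _ _)
  · obtain ⟨i1, -, i3, i4⟩ := key (tv :: φ) (Nat.size (φ.length + 1)) (List.cons_ne_nil _ _)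
    have hm : (0 : ℝ) < (φ.length + 1 : ℕ) := by positivity
    refine ⟨i1, fun ⟨σ, hσ⟩ => i3 ⟨σ, List.forall_mem_cons.2 ⟨?_, hσ⟩⟩, fun hn σ =>
      (i4 (1 / (φ.length + 1 : ℕ)) (by positivity) (fun τ => ?_) σ).trans ?_⟩
    · cases h0 : σ 0 <;> simp [clauseTrue, tv, h0]
    · have e : cnfCount (tv :: φ) τ < (tv :: φ).length :=
        List.countP_lt_length_iff.2 (by
          by_contra hc
          push Not at hc
          exact hn ⟨τ, fun c hc' => by simpa using hc c (List.mem_cons_of_mem _ hc')⟩)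
      have e' : (cnfCount (tv :: φ) τ : ℝ) + 1 ≤ (φ.length + 1 : ℕ) := by exact_mod_cast e
      rw [List.length_cons, sub_mul, one_div_mul_cancel hm.ne']
      linarith
    · gcongr
      rw [mul_one_div, le_div_iff₀ hm, one_mul]
      exact_mod_cast (Nat.lt_size_self _).le

end PCP

open PCP in
theorem pcp_of : MargThm → PowThm → CompThm → PCPThm := by
  rintro ⟨lam, l0, l1, hM⟩ hP ⟨c3, hc3, hC⟩
  change MargOK lam at hM
  obtain ⟨c2, hc2, hP⟩ := hP Port S3 PCP.inv √((2 + lam ^ 2) / 3) PCP.inv_inv (Real.sqrt_nonneg _)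
    (by rw [Real.sqrt_lt' one_pos]; nlinarith)
  have hc1 : 0 < (1 - lam) / 2304 := by have := sub_pos.2 l1; positivity
  obtain ⟨t, ht⟩ := exists_nat_ge (2 / (c3 * c2 * ((1 - lam) / 2304)))
  have ht0 : 0 < t := Nat.cast_pos.1 (lt_of_lt_of_le (by positivity) ht)
  rw [div_le_iff₀ (by positivity)] at ht
  obtain ⟨S', W, _, _, _, _, path, Rel, hP⟩ := hP t ht0
  obtain ⟨T, I, _, _, _, cl, hC⟩ := hC S'
  obtain ⟨c, hc⟩ := size_amp path Rel cl hM
  refine iter (amp path Rel cl) (c3 * c2) (by positivity) c (pt_amp path Rel cl) fun φ hφ => ?_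
  obtain ⟨p1, p2⟩ := hP (Fin (nv φ)) (stepF hM φ) (fun y => con φ y) (stepF_inv hM φ) (gap hM φ)
  obtain ⟨q1, q2⟩ := hC (Fin (nv φ)) (Fin (nv φ) × W) (fun e => e.1)
    (fun e => walk (stepF hM φ) e.1 (path e.2))
    fun e => Rel e.2 (consAlong (stepF hM φ) (fun y => con φ y) e.1 (path e.2))
  refine ⟨?_, (hc φ hφ).1, (hc φ hφ).2, fun hs => ?_, fun u hu h σ => ?_⟩
  · have : Nonempty (Fin (nv φ)) := ⟨⟨0, (Nat.zero_le _).trans_lt (lt_nv φ)⟩⟩
    rw [← List.length_pos_iff, length_amp]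
    exact Fintype.card_pos
  · obtain ⟨τ, hτ⟩ := p1 (complete hM hs)
    obtain ⟨A, B, hAB⟩ := q1 ⟨τ, fun e => hτ e.1 e.2⟩
    exact sat_amp path Rel cl hM φ A B hAB
  · have a1 := q2 _ (p2 _ (mul_nonneg hc1.le hu) (sound hM l0 l1 hφ hu h))
      (fun x i => σ (nm x ((none : Option W), i))) fun e i => σ (nm e.1 (some e.2, i))
    have a2 : min (2 * u) (c3 * c2) ≤ c3 * (c2 * min (t * ((1 - lam) / 2304 * u)) 1) := by
      rw [← mul_assoc, mul_min_of_nonneg _ _ (by positivity), mul_one]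
      exact min_le_min (by nlinarith) le_rfl
    have a3 := mul_le_mul_of_nonneg_right a2
      (Nat.cast_nonneg (α := ℝ) (Fintype.card ((Fin (nv φ) × W) × T)))
    rw [count_amp path Rel cl hM, length_amp]
    linarith

end Vale.Agent.P325
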