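import Vale.Agent.P325.PowC

/-! Gap amplification by powering. -/

namespace Vale.Agent.P325

open Finset
open scoped Classical BigOperators

namespace Pow

variable {P X S : Type}

/-- The opinion about the end of a short word. -/
noncomputable def op [Nonempty S] {t : ℕ} (α : {l : List P // l.length < t} → S) (l : List P) : S :=
  if h : l.length < t then α ⟨l, h⟩ else Classical.arbitrary S

/-- The word of a random string. -/
def path {t : ℕ} (w : Fin (2 * t) × (Fin (2 * t) → P)) : List P :=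
  (List.ofFn w.2).take (w.1 + 1)

/-- The constraint of the powered graph. -/
noncomputable def rel [Nonempty S] (ι : P → P) {t : ℕ} (w : Fin (2 * t) × (Fin (2 * t) → P))
    (cs : List (S → S → Bool)) (α β : {l : List P // l.length < t} → S) : Bool :=
  decide (∀ s p s', path w = s ++ p :: s' → s.length < t → s'.length < t →
    cs.getD s.length (fun _ _ => true) (op α s) (op β (rev ι s')) = true)

theorem expect_path [Fintype P] [Nonempty P] [Fintype X] (t : ℕ) (G : X → List P → ℝ) :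
    𝔼 e : X × (Fin (2 * t) × (Fin (2 * t) → P)), G e.1 (path e.2) =
      (∑ L ∈ range (2 * t), 𝔼 a, avg (L + 1) (G a)) / (2 * t) := by
  rw [← univ_product_univ, expect_product, ← expect_sum_comm, expect_div]
  refine expect_congr rfl fun a _ => ?_
  rw [← univ_product_univ, expect_product, Fintype.expect_eq_sum_div_card,
    ← Fin.sum_univ_eq_sum_range fun L => avg (L + 1) (G a), Fintype.card_fin]
  push_cast
  congr 1
  exact sum_congr rfl fun L _ => avg_take (Nat.succ_le_of_lt L.2) (G a)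

theorem expect_ind {I : Type} [Fintype I] (p : I → Prop) [DecidablePred p] :
    𝔼 i, (if p i then (1 : ℝ) else 0) = ((univ.filter p).card : ℝ) / Fintype.card I := by
  rw [Fintype.expect_eq_sum_div_card, sum_boole]

theorem gap_mono [Fintype P] [Fintype X] {π : P → X → X} {l l' : ℝ} (h0 : 0 ≤ l) (h : l ≤ l')
    (hg : Gap π l) : Gap π l' := fun f hf =>
  (hg f hf).trans (mul_le_mul_of_nonneg_right (pow_le_pow_left₀ h0 h 2)
    (sum_nonneg fun _ _ => sq_nonneg _))

theorem final_ineq {k κ z m M E p : ℝ} (hk : 0 < k) (hκ : 0 < κ) (hz : 0 ≤ z) (hm : m ≤ z)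
    (hm1 : m ≤ 1) (hp : 0 ≤ p) (hE : z / (2 * k ^ 2) ≤ E)
    (hM : M ≤ 2 * (1 + 2 * κ) * z + 4 * z ^ 2) (h : E ^ 2 ≤ M * p) :
    (4 * k ^ 4 * (6 + 4 * κ))⁻¹ * m ≤ p := by
  rcases hz.eq_or_lt with rfl | hz'
  · exact (mul_nonpos_of_nonneg_of_nonpos (by positivity) hm).trans hp
  have h1 := (pow_le_pow_left₀ (by positivity) hE 2).trans
    (h.trans (mul_le_mul_of_nonneg_right hM hp))
  rw [div_pow, div_le_iff₀ (by positivity)] at h1
  have h2 : z ≤ (2 * (1 + 2 * κ) + 4 * z) * p * (4 * k ^ 4) :=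
    le_of_mul_le_mul_left (by nlinarith) hz'
  rw [inv_mul_le_iff₀ (by positivity)]
  have hq : 0 ≤ p * (4 * k ^ 4) := by positivity
  rcases le_total z 1 with h3 | h3
  · nlinarith
  · have h4 : z ≤ z * ((6 + 4 * κ) * (p * (4 * k ^ 4))) := by
      nlinarith [mul_nonneg (mul_nonneg (sub_nonneg.2 h3) (by positivity : 0 ≤ 2 + 4 * κ)) hq]
    have h5 : 1 ≤ (6 + 4 * κ) * (p * (4 * k ^ 4)) := by
      by_contra hc
      nlinarith
    nlinarith

end Pow

open _root_.Vale.Agent.P325.Pow in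
theorem powThm : PowThm := by
  intro P S _ _ _ _ ι lam hι h0 h1
  have l0 : 0 < (1 + lam) / 2 := by linarith
  have l1 : (1 + lam) / 2 < 1 := by linarith
  have κ0 : 0 < (1 - (1 + lam) / 2)⁻¹ := inv_pos.2 (by linarith)
  have k0 : (0 : ℝ) < Fintype.card S := by exact_mod_cast Fintype.card_pos
  refine ⟨(4 * (Fintype.card S : ℝ) ^ 4 * (6 + 4 * (1 - (1 + lam) / 2)⁻¹))⁻¹, by positivity,
    fun t ht => ?_⟩
  have : Finite {l : List P // l.length < t} := (List.finite_length_lt P t).to_subtype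
  have : Nonempty (Fin (2 * t)) := ⟨⟨0, by omega⟩⟩
  refine ⟨{l : List P // l.length < t} → S, Fin (2 * t) × (Fin (2 * t) → P),
    Fintype.ofFinite _, inferInstance, inferInstance, inferInstance, path, rel ι,
    fun X _ π con h hg => ⟨?_, fun u _ hu τ => ?_⟩⟩
  · rintro ⟨σ, hσ⟩
    refine ⟨fun x s => σ (walk π x s.1), fun x w => decide_eq_true fun s p s' e h2 h3 => ?_⟩
    rw [e, consAlong_getD, op, op, dif_pos h2, dif_pos (by rwa [length_rev]), walk_append,
      walk_cons]
    dsimp only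
    rw [walk_rev h]
    exact hσ _ _
  rcases isEmpty_or_nonempty X with hX | hX
  · simp
  have t0 : (0 : ℝ) < t := by exact_mod_cast ht
  choose σ hσ using exists_pop ι π (fun x => op (τ x)) t
  obtain ⟨f, hf⟩ : ∃ f : X → P → ℝ, f = fun x p =>
    if con x p (σ x) (σ (π p x)) = false then 1 else 0 := ⟨_, rfl⟩
  have f0 : ∀ x p, 0 ≤ f x p := fun x p => by rw [hf]; dsimp only; split_ifs <;> norm_num
  have f1 : ∀ x p, f x p ≤ 1 := fun x p => by rw [hf]; dsimp only; split_ifs <;> norm_num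
  obtain ⟨φ, hφ⟩ : ∃ φ, 𝔼 x, 𝔼 p, f x p = φ := ⟨_, rfl⟩
  have φ0 : 0 ≤ φ := hφ ▸ expect_nonneg fun x _ => expect_nonneg fun p _ => f0 x p
  have huφ : u ≤ φ := by
    rw [← hφ, ← expect_product', univ_product_univ, hf]
    dsimp only
    rw [expect_ind fun e : X × P => con e.1 e.2 (σ e.1) (σ (π e.2 e.1)) = false,
      le_div_iff₀ (by exact_mod_cast Fintype.card_pos)]
    exact hu σ
  have m1 := first_moment hι h f0 (by positivity) hσ
  rw [hφ] at m1
  have m2 : 𝔼 e : X × (Fin (2 * t) × (Fin (2 * t) → P)),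
      num ι π f (fun x => op (τ x)) σ t e.1 (path e.2) ^ 2 ≤
        2 * (1 + 2 * (1 - (1 + lam) / 2)⁻¹) * (t * φ) + 4 * (t * φ) ^ 2 := by
    rw [expect_path t fun a l => num ι π f (fun x => op (τ x)) σ t a l ^ 2,
      div_le_iff₀ (by positivity)]
    refine (sum_le_card_nsmul _ _ (2 * (1 + 2 * (1 - (1 + lam) / 2)⁻¹) * (t * φ) +
      4 * (t * φ) ^ 2) fun L hL => ?_).trans (le_of_eq (by simp; ring))
    refine le_trans (expect_le_expect fun a _ => avg_mono fun l _ =>
      pow_le_pow_left₀ (num_nonneg f0 a l) (num_le f0 a l) 2) ?_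
    refine (second_moment h l0 l1 (gap_mono h0 (by linarith) hg) f0 f1 hφ (L + 1)).trans ?_
    have h2 : ((L + 1 : ℕ) : ℝ) ≤ 2 * t := by exact_mod_cast Nat.succ_le_of_lt (mem_range.1 hL)
    calc _ ≤ 2 * t * (1 + 2 * (1 - (1 + lam) / 2)⁻¹) * φ + (2 * t * φ) ^ 2 := by gcongr
      _ = _ := by ring
  have m3 := expect_mul_sq_le_sq_mul_sq univ
    (fun e : X × (Fin (2 * t) × (Fin (2 * t) → P)) =>
      num ι π f (fun x => op (τ x)) σ t e.1 (path e.2))
    (fun e => if rel ι e.2 (consAlong π con e.1 (path e.2)) (τ e.1)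
      (τ (walk π e.1 (path e.2))) = false then (1 : ℝ) else 0)
  have e1 : ∀ e : X × (Fin (2 * t) × (Fin (2 * t) → P)),
      num ι π f (fun x => op (τ x)) σ t e.1 (path e.2) *
        (if rel ι e.2 (consAlong π con e.1 (path e.2)) (τ e.1)
          (τ (walk π e.1 (path e.2))) = false then (1 : ℝ) else 0) =
        num ι π f (fun x => op (τ x)) σ t e.1 (path e.2) := fun e => by
    by_cases hn : num ι π f (fun x => op (τ x)) σ t e.1 (path e.2) = 0
    · rw [hn, zero_mul]
    obtain ⟨s, p, s', e2, h2, h3, h4, h5, h6⟩ := num_ne hn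
    rw [if_pos, mul_one]
    refine decide_eq_false fun hc => h4 ?_
    have h7 := hc s p s' e2 h2 h3
    rw [h5, h6, e2, consAlong_getD] at h7
    rw [hf]
    simp [h7]
  simp only [e1, ite_pow, one_pow, ne_eq, OfNat.ofNat_ne_zero, not_false_eq_true, zero_pow] at m3
  rw [expect_ind] at m3
  rw [← le_div_iff₀ (by exact_mod_cast Fintype.card_pos)]
  refine final_ineq k0 κ0 (z := t * φ) (by positivity)
    ((min_le_left _ _).trans (mul_le_mul_of_nonneg_left huφ t0.le)) (min_le_right _ _)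
    (by positivity) ?_ m2 m3
  rw [expect_path t (num ι π f (fun x => op (τ x)) σ t), le_div_iff₀ (by positivity)]
  refine le_trans (le_of_eq ?_) m1
  field_simp

end Vale.Agent.P325
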