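import Vale.Agent.P325.DefsA
import Vale.Agent.P325.Fourier

/-! Part A4: alphabet reduction by long codes. -/

namespace Vale.Agent.P325

open Finset Fou
open scoped BigOperators

namespace Comp

theorem spike {Z : Type*} [Fintype Z] (w c : Z → ℝ) (M : ℝ) (hw : ∑ z, w z ^ 2 = 1)
    (hc : ∀ z, c z ≤ M) (z0 : Z) : ∑ z, w z * w z * c z ≤ M - w z0 ^ 2 * (M - c z0) := by
  have h1 : w z0 ^ 2 * (M - c z0) ≤ ∑ z, w z ^ 2 * (M - c z) :=
    Finset.single_le_sum (f := fun z => w z ^ 2 * (M - c z))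
      (fun z _ => mul_nonneg (sq_nonneg _) (sub_nonneg.2 (hc z))) (Finset.mem_univ z0)
  have h2 : ∑ z, w z ^ 2 * (M - c z) = M - ∑ z, w z * w z * c z := by
    simp only [mul_sub, Finset.sum_sub_distrib, ← Finset.sum_mul, hw, one_mul]
    simp only [sq]
  linarith

section Tests

variable {ι : Type} [Fintype ι] [DecidableEq ι]

theorem blr (β : (ι → ZMod 2) → ℝ) (hβ : ∀ x, β x ^ 2 = 1)
    (h : 9 / 10 < 𝔼 x, 𝔼 y, β x * (β y * β (y + x))) : ∃ z, 9 / 10 < coef β z := by
  by_contra hn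
  push Not at hn
  rw [expect_triple] at h
  have h1 := spike (coef β) (coef β) (9 / 10) (parseval_eq_one β hβ) hn 0
  have h2 := mul_nonneg (sq_nonneg (coef β 0)) (sub_nonneg.2 (hn 0))
  simp only [mul_assoc] at h1
  linarith

/-- The indicator of the coordinates where `n` takes the value `k`. -/
def un (k : Fin 3) (n : ι → Fin 3) : ι → ZMod 2 := fun r => if n r = k then 1 else 0

theorem expect_un (k l : Fin 3) (hkl : k ≠ l) (z : ι → ZMod 2) :
    𝔼 n, sg (z ⬝ᵥ (un k n + un l n)) = (-1 / 3) ^ (univ.filter fun r => ¬ z r = 0).card := by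
  simp only [sg_dot, un, Pi.add_apply]
  rw [expect_prod_pi fun r i => sg (z r * ((if i = k then 1 else 0) + if i = l then 1 else 0))]
  have h : ∀ r, 𝔼 i : Fin 3, sg (z r * ((if i = k then 1 else 0) + if i = l then 1 else 0)) =
      if z r = 0 then 1 else -1 / 3 := by
    intro r
    rw [Fintype.expect_eq_sum_div_card, Fin.sum_univ_three]
    rcases zmod2 (z r) with h | h
    · simp [h]
      norm_num
    · fin_cases k <;> fin_cases l <;> simp [h] at hkl ⊢
  simp only [h, Finset.prod_ite, Finset.prod_const, one_pow, one_mul]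

theorem pow_ge (n : ℕ) : -1 / 3 ≤ (-1 / 3 : ℝ) ^ n ∧ (n ≠ 1 → -1 / 9 ≤ (-1 / 3 : ℝ) ^ n) := by
  have h : ∀ m : ℕ, -1 / 9 ≤ (-1 / 3 : ℝ) ^ (m + 2) := fun m => by
    have h1 : |(-1 / 3 : ℝ) ^ m| ≤ 1 := by
      rw [abs_pow]
      exact pow_le_one₀ (abs_nonneg _) (by rw [abs_le]; norm_num)
    rw [pow_add]
    linarith [(abs_le.1 h1).1]
  rcases n with _ | _ | n
  · norm_num
  · norm_num
  · exact ⟨by linarith [h n], fun _ => h n⟩

theorem nae_pair (β : (ι → ZMod 2) → ℝ) (hβ : ∀ x, β x ^ 2 = 1) (z : ι → ZMod 2)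
    (hz : 9 / 10 < coef β z) (hs : ∀ r, z ≠ Pi.single r 1) (k l : Fin 3) (hkl : k ≠ l) :
    -3 / 10 ≤ 𝔼 n, 𝔼 g, β (g + un k n) * β (g + un l n) := by
  simp only [expect_mul_shift]
  rw [Finset.expect_sum_comm]
  simp only [← Finset.mul_expect, expect_un k l hkl]
  have h1 := spike (coef β) (fun z => -(-1 / 3) ^ (univ.filter fun r => ¬ z r = 0).card) (1 / 3)
    (parseval_eq_one β hβ) (fun z => by linarith [(pow_ge (univ.filter fun r => ¬ z r = 0).card).1])
    z
  have h2 : -1 / 9 ≤ (-1 / 3 : ℝ) ^ (univ.filter fun r => ¬ z r = 0).card := by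
    refine (pow_ge _).2 fun h => ?_
    obtain ⟨r, hr⟩ := Finset.card_eq_one.1 h
    refine hs r (funext fun i => ?_)
    have h3 : i ∈ univ.filter (fun r => ¬ z r = 0) ↔ i = r := by rw [hr, Finset.mem_singleton]
    simp only [Finset.mem_filter, Finset.mem_univ, true_and] at h3
    by_cases hi : i = r
    · rw [hi, Pi.single_eq_same, ← hi]
      exact (zmod2 _).resolve_left (h3.2 hi)
    · rw [Pi.single_eq_of_ne hi]
      exact not_not.1 (mt h3.1 hi)
  simp only [mul_neg, Finset.sum_neg_distrib] at h1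
  nlinarith

theorem proj_test {κ : Type} [Fintype κ] [DecidableEq κ] (π : ι → κ) (α : (κ → ZMod 2) → ℝ)
    (β : (ι → ZMod 2) → ℝ) (hα : ∀ x, α x ^ 2 = 1) (hβ : ∀ x, β x ^ 2 = 1) (r : ι)
    (hz : 9 / 10 < coef β (Pi.single r 1))
    (h : 9 / 10 < 𝔼 f, 𝔼 g, α f * (β g * β (g + f ∘ π))) :
    3 / 4 < coef α (Pi.single (π r) 1) := by
  rw [expect_weight_shift α (fun f => f ∘ π)] at h
  have h1 := spike (coef β) (fun z => 𝔼 f, α f * sg (z ⬝ᵥ (f ∘ π))) 1 (parseval_eq_one β hβ)
    (fun z => Finset.expect_le Finset.univ_nonempty fun f _ => by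
      nlinarith [hα f, sg_sq (z ⬝ᵥ (f ∘ π)), sq_nonneg (α f - sg (z ⬝ᵥ (f ∘ π)))])
    (Pi.single r 1)
  have h2 : 𝔼 f, α f * sg (Pi.single r 1 ⬝ᵥ (f ∘ π)) = coef α (Pi.single (π r) 1) := by
    simp only [coef, single_dotProduct, Function.comp]
  simp only [h2] at h1
  by_contra hn
  nlinarith

theorem dict_unique (α : (ι → ZMod 2) → ℝ) (hα : ∀ x, α x ^ 2 = 1) {s s' : ι}
    (h : 3 / 4 < coef α (Pi.single s 1)) (h' : 3 / 4 < coef α (Pi.single s' 1)) : s = s' := by
  by_contra hne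
  have h1 : (Pi.single s 1 : ι → ZMod 2) ≠ Pi.single s' 1 := fun h1 => by
    have := congrFun h1 s
    simp [Pi.single_eq_of_ne hne] at this
  have h2 := Finset.add_le_sum (f := fun z => coef α z ^ 2) (s := univ)
    (fun z _ => sq_nonneg _) (Finset.mem_univ _) (Finset.mem_univ _) h1
  rw [parseval_eq_one α hα] at h2
  nlinarith

end Tests

section Clauses

variable {I : Type}

/-- The sign of a Boolean value. -/
def sb (b : Bool) : ℝ := if b then -1 else 1

theorem sb_sq (b : Bool) : sb b ^ 2 = 1 := by cases b <;> simp [sb]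

/-- The value read at a table and a position. -/
def tv (a b e : I → Bool) (p : Fin 3 × I) : Bool :=
  if p.1 = 0 then a p.2 else if p.1 = 1 then b p.2 else e p.2

/-- The four clauses expressing that three values add up to zero. -/
def xcl (p q r : Fin 3 × I) (j : Fin 4) :
    (Fin 3 × I × Bool) × (Fin 3 × I × Bool) × (Fin 3 × I × Bool) :=
  ((p.1, p.2, ![false, true, true, false] j), (q.1, q.2, ![true, false, true, false] j),
    (r.1, r.2, ![true, true, false, false] j))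

/-- The clauses expressing that three values are not all equal. -/
def ncl (p q r : Fin 3 × I) (j : Fin 4) :
    (Fin 3 × I × Bool) × (Fin 3 × I × Bool) × (Fin 3 × I × Bool) :=
  ((p.1, p.2, ![true, true, false, false] j), (q.1, q.2, ![true, true, false, false] j),
    (r.1, r.2, ![true, true, false, false] j))

theorem litVal_eq (a b e : I → Bool) (p : Fin 3 × I) (s : Bool) :
    litVal a b e (p.1, p.2, s) = (tv a b e p == s) := rfl

theorem xcl_expect (a b e : I → Bool) (p q r : Fin 3 × I) :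
    𝔼 j, (if clVal a b e (xcl p q r j) = false then (1 : ℝ) else 0) =
      (1 - sb (tv a b e p) * (sb (tv a b e q) * sb (tv a b e r))) / 8 := by
  rw [Fintype.expect_eq_sum_div_card, Fin.sum_univ_four]
  cases hp : tv a b e p <;> cases hq : tv a b e q <;> cases hr : tv a b e r <;>
    simp [clVal, xcl, litVal_eq, hp, hq, hr, sb] <;> norm_num

theorem ncl_expect (a b e : I → Bool) (p q r : Fin 3 × I) :
    𝔼 j, (if clVal a b e (ncl p q r j) = false then (1 : ℝ) else 0) =
      (1 + sb (tv a b e p) * sb (tv a b e q) + sb (tv a b e q) * sb (tv a b e r) +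
        sb (tv a b e p) * sb (tv a b e r)) / 8 := by
  rw [Fintype.expect_eq_sum_div_card, Fin.sum_univ_four]
  cases hp : tv a b e p <;> cases hq : tv a b e q <;> cases hr : tv a b e r <;>
    simp [clVal, ncl, litVal_eq, hp, hq, hr, sb] <;> norm_num

/-- A bit as a Boolean value. -/
def bt (x : ZMod 2) : Bool := decide (x = 1)

theorem xcl_true (a b e : I → Bool) (p q r : Fin 3 × I) (x y : ZMod 2) (hp : tv a b e p = bt x)
    (hq : tv a b e q = bt y) (hr : tv a b e r = bt (y + x)) (j : Fin 4) :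
    clVal a b e (xcl p q r j) = true := by
  simp only [clVal, xcl, litVal_eq, hp, hq, hr]
  clear hp hq hr
  revert x y j
  decide

theorem ncl_true (a b e : I → Bool) (p q r : Fin 3 × I) (x : ZMod 2) (i : Fin 3)
    (hp : tv a b e p = bt (x + if i = 0 then 1 else 0))
    (hq : tv a b e q = bt (x + if i = 1 then 1 else 0))
    (hr : tv a b e r = bt (x + if i = 2 then 1 else 0)) (j : Fin 4) :
    clVal a b e (ncl p q r j) = true := by
  simp only [clVal, ncl, litVal_eq, hp, hq, hr]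
  clear hp hq hr
  revert x i j
  decide

end Clauses

variable {S : Type}

/-- Restriction of a position to the accepted pairs. -/
def nm (R : S → S → Bool) (g : S × S → ZMod 2) : S × S → ZMod 2 :=
  fun r => if R r.1 r.2 = true then g r else 0

/-- The random choices of the four tests. -/
abbrev Tst (S : Type) : Type :=
  Fin 4 × ((S → ZMod 2) × (S × S → ZMod 2) × (S × S → Fin 3) × (S × S → ZMod 2)) × Fin 4

/-- The clauses of the four tests. -/
def cl (R : S → S → Bool) (t : Tst S) :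
    (Fin 3 × (S × S → ZMod 2) × Bool) × (Fin 3 × (S × S → ZMod 2) × Bool) ×
      (Fin 3 × (S × S → ZMod 2) × Bool) :=
  if t.1 = 0 then
    xcl (2, nm R t.2.1.2.1) (2, nm R t.2.1.2.2.2) (2, nm R (t.2.1.2.2.2 + t.2.1.2.1)) t.2.2
  else if t.1 = 1 then
    ncl (2, nm R (t.2.1.2.2.2 + un 0 t.2.1.2.2.1)) (2, nm R (t.2.1.2.2.2 + un 1 t.2.1.2.2.1))
      (2, nm R (t.2.1.2.2.2 + un 2 t.2.1.2.2.1)) t.2.2
  else if t.1 = 2 then
    xcl (0, t.2.1.1 ∘ Prod.fst) (2, nm R t.2.1.2.2.2)
      (2, nm R (t.2.1.2.2.2 + t.2.1.1 ∘ Prod.fst)) t.2.2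
  else
    xcl (1, t.2.1.1 ∘ Prod.fst) (2, nm R t.2.1.2.2.2)
      (2, nm R (t.2.1.2.2.2 + t.2.1.1 ∘ Prod.snd)) t.2.2

theorem cl_true (R : S → S → Bool) (s s' : S) (h : R s s' = true) (t : Tst S) :
    clVal (fun i => bt (i (s, s))) (fun i => bt (i (s', s'))) (fun i => bt (i (s, s')))
      (cl R t) = true := by
  unfold cl
  split_ifs
  · exact xcl_true _ _ _ _ _ _ (t.2.1.2.1 (s, s')) (t.2.1.2.2.2 (s, s')) (by simp [tv, nm, h])
      (by simp [tv, nm, h]) (by simp [tv, nm, h]) _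
  · exact ncl_true _ _ _ _ _ _ (t.2.1.2.2.2 (s, s')) (t.2.1.2.2.1 (s, s'))
      (by simp [tv, nm, h, un]) (by simp [tv, nm, h, un]) (by simp [tv, nm, h, un]) _
  · exact xcl_true _ _ _ _ _ _ (t.2.1.1 s) (t.2.1.2.2.2 (s, s')) (by simp [tv])
      (by simp [tv, nm, h]) (by simp [tv, nm, h]) _
  · exact xcl_true _ _ _ _ _ _ (t.2.1.1 s') (t.2.1.2.2.2 (s, s')) (by simp [tv])
      (by simp [tv, nm, h]) (by simp [tv, nm, h]) _

variable [Fintype S] [DecidableEq S]

theorem rej_eq (R : S → S → Bool) (a b e : (S × S → ZMod 2) → Bool) :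
    𝔼 t : Tst S, (if clVal a b e (cl R t) = false then (1 : ℝ) else 0) =
      ((1 - 𝔼 x, 𝔼 y, sb (e (nm R x)) * (sb (e (nm R y)) * sb (e (nm R (y + x))))) +
      (1 + (𝔼 n, 𝔼 g, sb (e (nm R (g + un 0 n))) * sb (e (nm R (g + un 1 n)))) +
        (𝔼 n, 𝔼 g, sb (e (nm R (g + un 1 n))) * sb (e (nm R (g + un 2 n)))) +
        (𝔼 n, 𝔼 g, sb (e (nm R (g + un 0 n))) * sb (e (nm R (g + un 2 n))))) +
      (1 - 𝔼 f : S → ZMod 2, 𝔼 g, sb (a (f ∘ Prod.fst)) *
        (sb (e (nm R g)) * sb (e (nm R (g + f ∘ Prod.fst))))) +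
      (1 - 𝔼 f : S → ZMod 2, 𝔼 g, sb (b (f ∘ Prod.fst)) *
        (sb (e (nm R g)) * sb (e (nm R (g + f ∘ Prod.snd)))))) / 32 := by
  rw [expect_prod_type, Fintype.expect_eq_sum_div_card, Fin.sum_univ_four]
  simp only [expect_prod_type, cl, Fin.isValue, Fin.reduceEq, if_true, if_false, xcl_expect,
    ncl_expect, tv, Fintype.expect_const, ← Finset.expect_div, Finset.expect_sub_distrib,
    Finset.expect_add_distrib, Fintype.card_fin]
  push_cast
  ring

theorem edge (R : S → S → Bool) (a b e : (S × S → ZMod 2) → Bool)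
    (h : 𝔼 t : Tst S, (if clVal a b e (cl R t) = false then (1 : ℝ) else 0) < 1 / 320) :
    ∃ r : S × S, R r.1 r.2 = true ∧
      3 / 4 < coef (fun f => sb (a (f ∘ Prod.fst))) (Pi.single r.1 1) ∧
      3 / 4 < coef (fun f => sb (b (f ∘ Prod.fst))) (Pi.single r.2 1) := by
  have h3 : ∀ x y z : Bool, sb x * (sb y * sb z) ≤ 1 := fun x y z => by
    cases x <;> cases y <;> cases z <;> norm_num [sb]
  have h4 : ∀ x y z : Bool, -1 ≤ sb x * sb y + sb y * sb z + sb x * sb z := fun x y z => by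
    cases x <;> cases y <;> cases z <;> norm_num [sb]
  have hle : ∀ {A B : Type} [Fintype A] [Fintype B] [Nonempty A] [Nonempty B]
      (x y z : A → B → Bool), 𝔼 i, 𝔼 j, sb (x i j) * (sb (y i j) * sb (z i j)) ≤ 1 :=
    fun x y z => Finset.expect_le Finset.univ_nonempty fun i _ =>
      Finset.expect_le Finset.univ_nonempty fun j _ => h3 _ _ _
  have hN : -1 ≤ (𝔼 n, 𝔼 g, sb (e (nm R (g + un 0 n))) * sb (e (nm R (g + un 1 n)))) +
        (𝔼 n, 𝔼 g, sb (e (nm R (g + un 1 n))) * sb (e (nm R (g + un 2 n)))) +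
        (𝔼 n, 𝔼 g, sb (e (nm R (g + un 0 n))) * sb (e (nm R (g + un 2 n)))) := by
    simp only [← Finset.expect_add_distrib]
    exact Finset.le_expect Finset.univ_nonempty fun i _ =>
      Finset.le_expect Finset.univ_nonempty fun j _ => h4 _ _ _
  rw [rej_eq] at h
  have h1 := hle (fun x _ => e (nm R x)) (fun _ y => e (nm R y)) fun x y => e (nm R (y + x))
  have h2 := hle (fun (f : S → ZMod 2) _ => a (f ∘ Prod.fst)) (fun _ g => e (nm R g))
    fun f g => e (nm R (g + f ∘ Prod.fst))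
  have h5 := hle (fun (f : S → ZMod 2) _ => b (f ∘ Prod.fst)) (fun _ g => e (nm R g))
    fun f g => e (nm R (g + f ∘ Prod.snd))
  have hβ : ∀ x, sb (e (nm R x)) ^ 2 = 1 := fun x => sb_sq _
  obtain ⟨z, hz⟩ := blr (fun x => sb (e (nm R x))) hβ (by linarith)
  obtain ⟨r, rfl⟩ : ∃ r, z = Pi.single r 1 := by
    by_contra hn
    push Not at hn
    have n1 := nae_pair _ hβ z hz hn 0 1 (by decide)
    have n2 := nae_pair _ hβ z hz hn 1 2 (by decide)
    have n3 := nae_pair _ hβ z hz hn 0 2 (by decide)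
    linarith
  refine ⟨r, ?_, proj_test Prod.fst _ _ (fun _ => sb_sq _) hβ r hz (by linarith),
    proj_test Prod.snd _ _ (fun _ => sb_sq _) hβ r hz (by linarith)⟩
  by_contra hr
  rw [coef_eq_zero_of_shift _ (Pi.single r 1) _ 0 (fun x => ?_) (by simp)] at hz
  · norm_num at hz
  · have : nm R (x + Pi.single r 1) = nm R x := by
      funext i
      by_cases hi : i = r
      · simp [nm, hi, hr]
      · simp [nm, Pi.single_eq_of_ne hi]
    simp [this]

end Comp

open scoped Classical in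
theorem compThm : CompThm := by
  refine ⟨1 / 320, by norm_num, fun S _ _ => ⟨Comp.Tst S, S × S → ZMod 2, inferInstance,
    inferInstance, inferInstance, Comp.cl, fun X E _ a b R => ⟨?_, ?_⟩⟩⟩
  · rintro ⟨τ, hτ⟩
    exact ⟨fun x i => Comp.bt (i (τ x, τ x)), fun e i => Comp.bt (i (τ (a e), τ (b e))),
      fun e t => Comp.cl_true _ _ _ (hτ e) t⟩
  intro u hu A B
  obtain ⟨τ, hτ⟩ : ∃ τ : X → S, ∀ x s,
      3 / 4 < coef (fun f => Comp.sb (A x (f ∘ Prod.fst))) (Pi.single s 1) → τ x = s := by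
    refine ⟨fun x => Classical.epsilon fun s =>
      3 / 4 < coef (fun f => Comp.sb (A x (f ∘ Prod.fst))) (Pi.single s 1), fun x s hs => ?_⟩
    exact Comp.dict_unique _ (fun _ => Comp.sb_sq _) (Classical.epsilon_spec (p := fun s =>
      3 / 4 < coef (fun f => Comp.sb (A x (f ∘ Prod.fst))) (Pi.single s 1)) ⟨s, hs⟩) hs
  have h1 : ∀ e, (if R e (τ (a e)) (τ (b e)) = false then (1 : ℝ) else 0) *
      (1 / 320 * Fintype.card (Comp.Tst S)) ≤ ∑ t : Comp.Tst S,
        if clVal (A (a e)) (A (b e)) (B e) (Comp.cl (R e) t) = false then (1 : ℝ) else 0 := by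
    intro e
    split_ifs with h
    · rw [← Fintype.card_mul_expect, one_mul, mul_comm]
      refine mul_le_mul_of_nonneg_left (not_lt.1 fun hlt => ?_) (Nat.cast_nonneg _)
      obtain ⟨r, h1, h2, h3⟩ := Comp.edge _ _ _ _ hlt
      rw [hτ _ _ h2, hτ _ _ h3, h1] at h
      exact Bool.noConfusion h
    · rw [zero_mul]
      exact Finset.sum_nonneg fun t _ => by split_ifs <;> norm_num
  have h2 := Finset.sum_le_sum fun e (_ : e ∈ univ) => h1 e
  rw [← Finset.sum_mul, Finset.sum_boole, ← Fintype.sum_prod_type', Finset.sum_boole] at h2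
  refine le_trans ?_ h2
  rw [Fintype.card_prod]
  push_cast
  have h3 := mul_le_mul_of_nonneg_right (hu τ)
    (show (0 : ℝ) ≤ 1 / 320 * Fintype.card (Comp.Tst S) by positivity)
  linarith

end Vale.Agent.P325
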