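import Vale.Agent.P325.StDefs
import Vale.Agent.Lib.PolyTime.More
import Vale.Agent.Lib.PolyTime.Machine

/-! Interfaces between the five parts of the proof of the Unique Games conjecture. -/

namespace Vale.Agent.P325

open Vale.Agent.Lib.PolyTime Finset
open scoped Classical BigOperators

/-- Number of clauses true under `σ`. -/
def cnfCount (φ : CNF3) (σ : ℕ → Bool) : ℕ := φ.countP (clauseTrue σ)

/-- Part A, the PCP theorem in the gap form for 3-CNF formulas. -/
def PCPThm : Prop :=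
  ∃ α : ℝ, 0 < α ∧ ∃ f : CNF3 → CNF3, PT f ∧ ∀ φ : CNF3, f φ ≠ [] ∧ (Sat φ → Sat (f φ)) ∧
    (¬ Sat φ → ∀ σ, (cnfCount (f φ) σ : ℝ) ≤ (1 - α) * (f φ).length)

/-- Part B, parallel repetition for projection games.  `E` edges, `V` questions of the prover
with the large alphabet `B`, `U` questions of the prover with the small alphabet `A`.
The edge measure `μ` dominates `γ` times a measure `μ0` under which the small prover gets the
null question `u0` with probability one half independently of the question of the large prover. -/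
def ParRep : Prop :=
  ∀ (E V U A B : Type) [Fintype E] [Fintype A] [Fintype B] [Nonempty A] [Nonempty B]
    (bob : E → V) (ali : E → U) (proj : E → B → Option A) (μ μ0 : E → ℝ) (γ ε : ℝ) (u0 : U),
    (∀ e, 0 ≤ μ0 e) → ∑ e, μ0 e = 1 → ∑ e, μ e = 1 → 0 ≤ γ → (∀ e, γ * μ0 e ≤ μ e) →
    (∀ v, ∑ e, (if bob e = v ∧ ali e = u0 then μ0 e else 0) =
      (1 / 2) * ∑ e, (if bob e = v then μ0 e else 0)) →
    0 ≤ ε → ε ≤ 1 →
    (∀ (f : V → B) (g : U → A),
      ∑ e, (if proj e (f (bob e)) = some (g (ali e)) then μ0 e else 0) ≤ 1 - ε) →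
    ∀ (t : ℕ) (f : (Fin t → V) → Fin t → B) (g : (Fin t → U) → Fin t → A),
      (∑ e : Fin t → E,
        (if ∀ i, proj (e i) (f (fun j => bob (e j)) i) = some (g (fun j => ali (e j)) i)
          then ∏ i, μ (e i) else 0)) ^ 2 ≤ (1 - γ * ε ^ 2 / 16) ^ t

/-- Systems of linear equations `x + y + z = b` over the field with two elements. -/
abbrev Lin3 : Type := List (ℕ × ℕ × ℕ × Bool)

/-- Number of equations true under `σ`. -/
def linCount (L : Lin3) (σ : ℕ → Bool) : ℕ :=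
  L.countP fun c => xor (xor (σ c.1) (σ c.2.1)) (σ c.2.2.1) == c.2.2.2

/-- Part C, the theorem of Hastad for soundness three quarters. -/
def LinThm : Prop :=
  ∀ ε : ℝ, 0 < ε → ∃ f : CNF3 → Lin3, PT f ∧ ∀ φ : CNF3, f φ ≠ [] ∧
    (Sat φ → ∃ σ, (1 - ε) * (f φ).length ≤ (linCount (f φ) σ : ℝ)) ∧
    (¬ Sat φ → ∀ σ, (linCount (f φ) σ : ℝ) ≤ (3 / 4) * (f φ).length)

/-- Bit vectors. -/
abbrev Bv (n : ℕ) : Type := Fin n → ZMod 2

/-- Soundness of the noise `a`: a linear map of rank at least `r` on the first factor kills the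
noise with probability at most `δ`. -/
def NoiseSound {l m : ℕ} {Ω : Type} [Fintype Ω] (a : Ω → Bv l × Bv m) (r : ℕ) (δ : ℝ) : Prop :=
  ∀ (J : Type) [Fintype J] (S : (Bv l × Bv m) →ₗ[ZMod 2] (J → ZMod 2)),
    (univ.filter fun k : Bv l => S (k, 0) = 0).card * 2 ^ r ≤ 2 ^ l →
    ((univ.filter fun ω : Ω => S (a ω) = 0).card : ℝ) ≤ δ * Fintype.card Ω

/-- Part D, the noise gadget.  The space is `Bv l × Bv m`, the code is `(k, b) ↦ k + g b`, the
noise is `a ω` for a uniform `ω`. -/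
def GadgetThm : Prop :=
  ∀ p δ : ℝ, 0 < p → 0 < δ → ∃ r : ℕ, ∀ l0 : ℕ,
    ∃ (l m : ℕ) (Ω : Type) (_ : Fintype Ω) (_ : Nonempty Ω) (g : Bv m → Bv l)
      (a : Ω → Bv l × Bv m), l0 ≤ l ∧
      ((univ.filter fun x : Bv m × Ω => (a x.2).1 + g (x.1 + (a x.2).2) ≠ g x.1).card : ℝ) ≤
        p * Fintype.card (Bv m × Ω) ∧ NoiseSound a r δ

/-- The sign character. -/
noncomputable def sg (x : ZMod 2) : ℝ := if x = 0 then 1 else -1

/-- Acceptance probability of the test on the table `F`.  Positions are `Fin k × Fin 3`, the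
`i`-th equation says that the three bits at the positions `(i, ·)` add up to `b i`. -/
noncomputable def acc {l m : ℕ} {Ω : Type} [Fintype Ω] (a : Ω → Bv l × Bv m) {k : ℕ}
    (b : Fin k → ZMod 2) (F : (Fin k × Fin 3 → Bv l × Bv m) → Bv l) : ℝ :=
  𝔼 M : Fin k × Fin 3 → Bv l × Bv m, 𝔼 ω : Ω, 𝔼 y : Fin k × Fin 3 → ZMod 2,
    𝔼 n : Fin k → Bv l,
      if F (fun j => M j + y j • a ω + (n j.1, 0)) = F M + ∑ i, b i • n i then (1 : ℝ) else 0

/-- Fourier coefficient at `z` of the table `sg (φ ⬝ᵥ F ·)` on the line through `M` in the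
direction `κ`. -/
noncomputable def lineCoef {l m k : ℕ} (F : (Fin k × Fin 3 → Bv l × Bv m) → Bv l) (φ κ : Bv l)
    (M : Fin k × Fin 3 → Bv l × Bv m) (z : Fin k × Fin 3 → ZMod 2) : ℝ :=
  𝔼 x : Fin k × Fin 3 → ZMod 2, sg (φ ⬝ᵥ F (fun j => M j + x j • (κ, 0)) + ∑ j, z j * x j)

/-- Part E1, the inverse lemma: if the test passes with probability above `δ`, then the
restrictions of the table to lines in directions `κ` with `φ ⬝ᵥ κ = 1` have large Fourier
coefficients at solutions `z` of the equations. -/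
def InvThm : Prop :=
  ∀ (l m : ℕ) (Ω : Type) [Fintype Ω] [Nonempty Ω] (a : Ω → Bv l × Bv m) (r : ℕ) (δ : ℝ),
    NoiseSound a r δ → 0 ≤ δ →
    ∀ (k : ℕ) (b : Fin k → ZMod 2) (F : (Fin k × Fin 3 → Bv l × Bv m) → Bv l),
      ∃ z : Bv l → Bv l → (Fin k × Fin 3 → Bv l × Bv m) → (Fin k × Fin 3 → ZMod 2),
        (∀ φ κ M i, z φ κ M (i, 0) + z φ κ M (i, 1) + z φ κ M (i, 2) = b i) ∧
        (max 0 (acc a b F - δ) / 4 ^ r) ^ 3 - 1 / Real.sqrt (2 ^ l) ≤
          2 * 𝔼 φ : Bv l, 𝔼 κ : Bv l, 𝔼 M : Fin k × Fin 3 → Bv l × Bv m,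
            if φ ⬝ᵥ κ = 1 then |lineCoef F φ κ M (z φ κ M)| else 0

/-- Part E2, soundness of the reduction in the form of a statement on tables.  `L` is a system of
equations indexed by `Fin N` with variables `var e p` and right hand sides `rhs e`, at most three
quarters satisfiable.  `F` labels the finitely supported vector valued functions on variables. -/
def SoundThm : Prop :=
  ∀ (δ : ℝ), 0 < δ → ∀ r : ℕ, ∃ l0 : ℕ, ∀ l m : ℕ, l0 ≤ l → ∃ k : ℕ,
    ∀ (Ω : Type) [Fintype Ω] [Nonempty Ω] (a : Ω → Bv l × Bv m), NoiseSound a r (δ / 2) →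
    ∀ (N : ℕ) (var : Fin N → Fin 3 → ℕ) (rhs : Fin N → ZMod 2), 0 < N →
      (∀ σ : ℕ → ZMod 2, ((univ.filter fun e : Fin N =>
        σ (var e 0) + σ (var e 1) + σ (var e 2) = rhs e).card : ℝ) ≤ (3 / 4) * N) →
      ∀ F : (ℕ → Bv l × Bv m) → Bv l,
        (𝔼 U : Fin k → Fin N, acc a (fun i => rhs (U i))
          (fun M => F (fun x => ∑ j : Fin k × Fin 3, if var (U j.1) j.2 = x then M j else 0))) ≤ δ

/-- The Unique Games conjecture with polynomial time in the sense of the library. -/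
def UGThm : Prop :=
  ∀ ε δ : ℝ, 0 < ε → 0 < δ → ∃ k : ℕ, 2 ≤ k ∧ ∃ f : CNF3 → UG k,
    PT (fun φ => natsUG (f φ)) ∧ ∀ φ : CNF3, f φ ≠ [] ∧
      (Sat φ → ∃ a, (1 - ε) * (f φ).length ≤ (ugCount (f φ) a : ℝ)) ∧
      (¬ Sat φ → ∀ a, (ugCount (f φ) a : ℝ) ≤ δ * (f φ).length)

end Vale.Agent.P325
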