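import Vale.Agent.P325.Defs

/-! Interfaces inside the proof of the PCP theorem and of the gadget theorem. -/

namespace Vale.Agent.P325

open Finset
open scoped Classical BigOperators

/-- The eight Margulis maps on the indices `i = x * m + y` of the torus of side `m`. -/
def marg (m : ℕ) (p : Fin 8) (i : ℕ) : ℕ :=
  if p = 0 then (i / m + 2 * (i % m)) % m * m + i % m
  else if p = 1 then (i / m + (2 * (i % m) + 1)) % m * m + i % m
  else if p = 2 then i / m * m + (i % m + 2 * (i / m)) % m
  else if p = 3 then i / m * m + (i % m + (2 * (i / m) + 1)) % m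
  else if p = 4 then (i / m + (m - 1) * (2 * (i % m))) % m * m + i % m
  else if p = 5 then (i / m + (m - 1) * (2 * (i % m) + 1)) % m * m + i % m
  else if p = 6 then i / m * m + (i % m + (m - 1) * (2 * (i / m))) % m
  else i / m * m + (i % m + (m - 1) * (2 * (i / m) + 1)) % m

/-- Part A1, the Margulis-Gabber-Galil expander. -/
def MargThm : Prop :=
  ∃ lam : ℝ, 0 ≤ lam ∧ lam < 1 ∧ ∀ m : ℕ, 0 < m →
    (∀ p i, i < m * m → marg m p i < m * m) ∧
    (∀ p i, i < m * m → marg m (p + 4) (marg m p i) = i) ∧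
    ∀ f : ℕ → ℝ, ∑ i ∈ range (m * m), f i = 0 →
      ∑ i ∈ range (m * m), ((∑ p : Fin 8, f (marg m p i)) / 8) ^ 2 ≤
        lam ^ 2 * ∑ i ∈ range (m * m), f i ^ 2

/-- End point of the walk from `x` along the ports `s`. -/
def walk {P X : Type} (π : P → X → X) (x : X) (s : List P) : X := s.foldl (fun y p => π p y) x

/-- The constraints met along the walk from `x` along the ports `s`. -/
def consAlong {P X C : Type} (π : P → X → X) (con : X → P → C) : X → List P → List C
  | _, [] => []
  | x, p :: s => con x p :: consAlong π con (π p x) s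

/-- Spectral gap of a graph given by port maps. -/
def Gap {P X : Type} [Fintype P] [Fintype X] (π : P → X → X) (lam : ℝ) : Prop :=
  ∀ f : X → ℝ, ∑ x, f x = 0 → ∑ x, (𝔼 p, f (π p x)) ^ 2 ≤ lam ^ 2 * ∑ x, f x ^ 2

/-- Part A3, gap amplification by powering. -/
def PowThm : Prop :=
  ∀ (P S : Type) [Fintype P] [Nonempty P] [Fintype S] [Nonempty S] (ι : P → P) (lam : ℝ),
    (∀ p, ι (ι p) = p) → 0 ≤ lam → lam < 1 → ∃ c : ℝ, 0 < c ∧ ∀ t : ℕ, 0 < t →
    ∃ (S' W : Type) (_ : Fintype S') (_ : Nonempty S') (_ : Fintype W) (_ : Nonempty W)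
      (path : W → List P) (Rel : W → List (S → S → Bool) → S' → S' → Bool),
      ∀ (X : Type) [Fintype X] (π : P → X → X) (con : X → P → S → S → Bool),
        (∀ p x, π (ι p) (π p x) = x) → Gap π lam →
        ((∃ σ : X → S, ∀ x p, con x p (σ x) (σ (π p x)) = true) →
          ∃ τ : X → S', ∀ x w,
            Rel w (consAlong π con x (path w)) (τ x) (τ (walk π x (path w))) = true) ∧
        ∀ u : ℝ, 0 ≤ u →
          (∀ σ : X → S, u * Fintype.card (X × P) ≤
            ((univ.filter fun e : X × P => con e.1 e.2 (σ e.1) (σ (π e.2 e.1)) = false).card : ℝ)) →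
          ∀ τ : X → S', c * min (t * u) 1 * Fintype.card (X × W) ≤
            ((univ.filter fun e : X × W => Rel e.2 (consAlong π con e.1 (path e.2)) (τ e.1)
              (τ (walk π e.1 (path e.2))) = false).card : ℝ)

/-- Value of a literal (table, position, sign): table `0` is the table `a` of the left vertex,
table `1` the table `b` of the right vertex, table `2` the table `e` of the edge. -/
def litVal {I : Type} (a b e : I → Bool) (l : Fin 3 × I × Bool) : Bool :=
  (if l.1 = 0 then a l.2.1 else if l.1 = 1 then b l.2.1 else e l.2.1) == l.2.2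

/-- Value of a clause template. -/
def clVal {I : Type} (a b e : I → Bool)
    (c : (Fin 3 × I × Bool) × (Fin 3 × I × Bool) × (Fin 3 × I × Bool)) : Bool :=
  litVal a b e c.1 || litVal a b e c.2.1 || litVal a b e c.2.2

/-- Part A4, alphabet reduction by long codes. -/
def CompThm : Prop :=
  ∃ c : ℝ, 0 < c ∧ ∀ (S : Type) [Fintype S] [Nonempty S],
    ∃ (T I : Type) (_ : Fintype T) (_ : Nonempty T) (_ : Fintype I)
      (cl : (S → S → Bool) → T → (Fin 3 × I × Bool) × (Fin 3 × I × Bool) × (Fin 3 × I × Bool)),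
      ∀ (X E : Type) [Fintype E] (a b : E → X) (R : E → S → S → Bool),
        ((∃ τ : X → S, ∀ e, R e (τ (a e)) (τ (b e)) = true) →
          ∃ (A : X → I → Bool) (B : E → I → Bool), ∀ e t,
            clVal (A (a e)) (A (b e)) (B e) (cl (R e) t) = true) ∧
        ∀ u : ℝ, (∀ τ : X → S, u * Fintype.card E ≤
            ((univ.filter fun e : E => R e (τ (a e)) (τ (b e)) = false).card : ℝ)) →
          ∀ (A : X → I → Bool) (B : E → I → Bool), c * u * Fintype.card (E × T) ≤
            ((univ.filter fun x : E × T =>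
              clVal (A (a x.1)) (A (b x.1)) (B x.1) (cl (R x.1) x.2) = false).card : ℝ)

/-- Subset sums of a family of vectors. -/
noncomputable def comb {ρ : ℕ} {F : Type} [Field F] (α : Fin ρ → Fin 3 → F) (x : Bv ρ) :
    Fin 3 → F := ∑ i, if x i = 1 then α i else 0

/-- Generic families of vectors. -/
def Generic {ρ : ℕ} {F : Type} [Field F] (α : Fin ρ → Fin 3 → F) : Prop :=
  (∀ x : Bv ρ, x ≠ 0 → comb α x ≠ 0) ∧
  (∀ x x' : Bv ρ, x ≠ 0 → x' ≠ 0 → x ≠ x' → crossProduct (comb α x) (comb α x') ≠ 0) ∧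
  ∀ c : Fin ρ → Fin 3 → F,
    (univ.filter fun x : Bv ρ =>
      x ≠ 0 ∧ (comb c x ⬝ᵥ comb α x) ^ 2 = ∏ j, comb α x j).card ≤ 3 * ρ

/-- Part D1, most families are generic. -/
def GenThm : Prop :=
  ∀ ρ : ℕ, ∃ C : ℕ, ∀ (F : Type) [Field F] [Fintype F] [CharP F 2],
    (univ.filter fun α : Fin ρ → Fin 3 → F => ¬ Generic α).card * Fintype.card F ≤
      C * Fintype.card (Fin ρ → Fin 3 → F)

end Vale.Agent.P325
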