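import Vale.Agent.P325.DefsA

/-! Part D2, file A: abstract gadgets and their composition. -/

namespace Vale.Agent.P325.Gd

open Finset
open scoped Classical BigOperators

/-- Indicator of a proposition. -/
noncomputable def ind (p : Prop) : ℝ := if p then 1 else 0

theorem ind_nonneg (p : Prop) : 0 ≤ ind p := by
  unfold ind
  split_ifs <;> norm_num

theorem ind_le_one (p : Prop) : ind p ≤ 1 := by
  unfold ind
  split_ifs <;> norm_num

theorem ind_pos {p : Prop} (h : p) : ind p = 1 := if_pos h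

theorem ind_neg {p : Prop} (h : ¬ p) : ind p = 0 := if_neg h

theorem ind_mono {p q : Prop} (h : p → q) : ind p ≤ ind q := by
  by_cases hp : p
  · rw [ind_pos hp, ind_pos (h hp)]
  · rw [ind_neg hp]
    exact ind_nonneg q

theorem ind_not (p : Prop) : ind (¬ p) = 1 - ind p := by
  by_cases hp : p
  · rw [ind_pos hp, ind_neg (not_not.2 hp), sub_self]
  · rw [ind_neg hp, ind_pos hp, sub_zero]

theorem ex_mono {X : Type*} [Fintype X] {f g : X → ℝ} (h : ∀ x, f x ≤ g x) :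
    𝔼 x, f x ≤ 𝔼 x, g x := expect_le_expect fun x _ => h x

theorem ex_le {X : Type*} [Fintype X] [Nonempty X] {f : X → ℝ} {a : ℝ} (h : ∀ x, f x ≤ a) :
    𝔼 x, f x ≤ a := expect_le univ_nonempty fun x _ => h x

theorem ex_prod {X Y : Type*} [Fintype X] [Fintype Y] (f : X × Y → ℝ) :
    𝔼 z, f z = 𝔼 x, 𝔼 y, f (x, y) := by
  rw [← univ_product_univ, expect_product]

theorem ex_ind {X : Type*} [Fintype X] (P : X → Prop) [DecidablePred P] :
    𝔼 x, ind (P x) = ((univ.filter P).card : ℝ) / Fintype.card X := by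
  rw [Fintype.expect_eq_sum_div_card, Finset.card_filter]
  push_cast
  refine congrArg (· / _) (sum_congr rfl fun x _ => ?_)
  by_cases h : P x
  · rw [ind_pos h, if_pos h]
  · rw [ind_neg h, if_neg h]

theorem card_le_of_ex {X : Type*} [Fintype X] [Nonempty X] (P : X → Prop) [DecidablePred P]
    {a : ℝ} (h : 𝔼 x, ind (P x) ≤ a) : ((univ.filter P).card : ℝ) ≤ a * Fintype.card X := by
  rwa [ex_ind, div_le_iff₀ (by exact_mod_cast Fintype.card_pos)] at h

theorem ex_ind_eq {X : Type*} [Fintype X] (a : X) :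
    𝔼 x, ind (x = a) = 1 / Fintype.card X := by
  have h : (univ.filter fun x => x = a) = {a} := by
    ext x
    simp
  rw [ex_ind, h, card_singleton, Nat.cast_one]

/-- Union bound. -/
theorem ex_union {X Y : Type*} [Fintype X] (s : Finset Y) (P : Y → X → Prop) {η : ℝ}
    (h : ∀ y ∈ s, 𝔼 x, ind (P y x) ≤ η) : 𝔼 x, ind (∃ y ∈ s, P y x) ≤ s.card * η := by
  have h1 : ∀ x, ind (∃ y ∈ s, P y x) ≤ ∑ y ∈ s, ind (P y x) := fun x => by
    by_cases hx : ∃ y ∈ s, P y x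
    · rw [ind_pos hx]
      obtain ⟨y, hy, hp⟩ := hx
      rw [← ind_pos hp]
      exact single_le_sum (f := fun y => ind (P y x)) (fun y _ => ind_nonneg _) hy
    · rw [ind_neg hx]
      exact sum_nonneg fun y _ => ind_nonneg _
  refine (ex_mono h1).trans ?_
  rw [expect_sum_comm, ← nsmul_eq_mul]
  exact sum_le_card_nsmul _ _ _ h

theorem ex_shift {G : Type*} [AddGroup G] [Fintype G] (f : G → ℝ) (a : G) :
    𝔼 x, f (x + a) = 𝔼 x, f x := Fintype.expect_equiv (Equiv.addRight a) _ _ fun _ => rfl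

/-- A surjective homomorphism of finite groups preserves the uniform measure. -/
theorem ex_hom {G H : Type*} [AddCommGroup G] [Fintype G] [AddCommGroup H] [Fintype H]
    (φ : G →+ H) (hφ : Function.Surjective φ) (f : H → ℝ) : 𝔼 x, f (φ x) = 𝔼 y, f y := by
  have h1 : ∀ y : H, 𝔼 x, f (φ x) = 𝔼 x, f (y + φ x) := fun y => by
    obtain ⟨a, rfl⟩ := hφ y
    rw [← ex_shift (fun x => f (φ x)) a]
    exact expect_congr rfl fun x _ => by rw [map_add, add_comm]
  calc 𝔼 x, f (φ x) = 𝔼 _y : H, 𝔼 x, f (φ x) := (Fintype.expect_const _).symm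
    _ = 𝔼 y : H, 𝔼 x, f (y + φ x) := expect_congr rfl fun y _ => h1 y
    _ = 𝔼 x, 𝔼 y : H, f (y + φ x) := expect_comm _ _ _
    _ = 𝔼 _x : G, 𝔼 y : H, f y := expect_congr rfl fun x _ => ex_shift f _
    _ = _ := Fintype.expect_const _

noncomputable instance homFintype {X Y : Type} [AddCommGroup X] [Module (ZMod 2) X] [Fintype X]
    [AddCommGroup Y] [Module (ZMod 2) Y] [Fintype Y] : Fintype (X →ₗ[ZMod 2] Y) :=
  Fintype.ofInjective (fun f : X →ₗ[ZMod 2] Y => (f : X → Y)) DFunLike.coe_injective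

section Lin
variable {X Y W : Type} [AddCommGroup X] [Module (ZMod 2) X] [AddCommGroup Y] [Module (ZMod 2) Y]
  [AddCommGroup W] [Module (ZMod 2) W]

theorem ex_apply [Fintype X] [Fintype Y] {x : X} (hx : x ≠ 0) (f : Y → ℝ) :
    𝔼 J : X →ₗ[ZMod 2] Y, f (J x) = 𝔼 y, f y := by
  obtain ⟨φ, hφ⟩ := Module.Projective.exists_dual_eq_one (ZMod 2) hx
  exact ex_hom (LinearMap.applyₗ (R := ZMod 2) (M₂ := Y) x).toAddMonoidHom
    (fun y => ⟨φ.smulRight y, by simp [hφ]⟩) f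

theorem ex_comp [Fintype X] [Fintype Y] [Fintype W] (L : Y →ₗ[ZMod 2] W)
    (hL : Function.Surjective L) (f : (X →ₗ[ZMod 2] W) → ℝ) :
    𝔼 J : X →ₗ[ZMod 2] Y, f (L ∘ₗ J) = 𝔼 α, f α := by
  obtain ⟨g, hg⟩ := L.exists_rightInverse_of_surjective (LinearMap.range_eq_top.2 hL)
  refine ex_hom (LinearMap.llcomp (ZMod 2) X Y W L).toAddMonoidHom (fun α => ⟨g ∘ₗ α, ?_⟩) f
  change L ∘ₗ g ∘ₗ α = α
  rw [← LinearMap.comp_assoc, hg, LinearMap.id_comp]

theorem surj_of_dot {ρ : ℕ} (L : Y →ₗ[ZMod 2] Bv ρ)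
    (h : ∀ x : Bv ρ, (∀ y, x ⬝ᵥ L y = 0) → x = 0) : Function.Surjective L := by
  rw [← LinearMap.range_eq_top]
  by_contra hne
  obtain ⟨f, hf, hle⟩ := (LinearMap.range L).exists_le_ker_of_lt_top (lt_top_iff_ne_top.2 hne)
  have h1 : ∀ z : Bv ρ, f z = (fun i => f (Pi.single i 1)) ⬝ᵥ z := fun z => by
    conv_lhs => rw [← Finset.univ_sum_single z, map_sum]
    refine sum_congr rfl fun i _ => ?_
    rw [mul_comm, ← smul_eq_mul, ← map_smul, ← Pi.single_smul, smul_eq_mul, mul_one]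
  have h2 := h _ fun y => (h1 (L y)).symm.trans (hle ⟨y, rfl⟩)
  refine hf (LinearMap.ext fun z => ?_)
  rw [h1, h2, zero_dotProduct, LinearMap.zero_apply]
end Lin

/-- An abstract gadget over the space `K`. -/
structure Gad (K : Type) where
  /-- auxiliary space -/
  B : Type
  /-- sample space of the noise -/
  Ω : Type
  [iB : AddCommGroup B]
  [mB : Module (ZMod 2) B]
  [fB : Fintype B]
  [fΩ : Fintype Ω]
  [nΩ : Nonempty Ω]
  /-- the code -/
  g : B → K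
  /-- first component of the noise -/
  aK : Ω → K
  /-- second component of the noise -/
  aB : Ω → B

attribute [instance] Gad.iB Gad.mB Gad.fB Gad.fΩ Gad.nΩ

variable {K : Type} [AddCommGroup K] [Module (ZMod 2) K]

/-- Error probability. -/
noncomputable def Gad.err (G : Gad K) : ℝ :=
  𝔼 b, 𝔼 ω, ind (G.aK ω + G.g (b + G.aB ω) ≠ G.g b)

/-- Probability that a linear map kills the noise. -/
noncomputable def Gad.pk (G : Gad K) {W : Type} [AddCommGroup W] [Module (ZMod 2) W]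
    (α : K →ₗ[ZMod 2] W) (β : G.B →ₗ[ZMod 2] W) : ℝ :=
  𝔼 ω, ind (α (G.aK ω) + β (G.aB ω) = 0)

/-- Average soundness. -/
def Gad.Snd [Fintype K] (G : Gad K) (ρ : ℕ) (μ : ℝ) : Prop :=
  ∃ m : (K →ₗ[ZMod 2] Bv ρ) → ℝ, (∀ α β, G.pk α β ≤ m α) ∧ 𝔼 α, m α ≤ μ

theorem Gad.pk_le_one (G : Gad K) {W : Type} [AddCommGroup W] [Module (ZMod 2) W]
    (α : K →ₗ[ZMod 2] W) (β : G.B →ₗ[ZMod 2] W) : G.pk α β ≤ 1 := ex_le fun _ => ind_le_one _

theorem Gad.snd_one [Fintype K] (G : Gad K) (ρ : ℕ) {μ : ℝ} (h : 1 ≤ μ) : G.Snd ρ μ :=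
  ⟨fun _ => 1, G.pk_le_one, ex_le fun _ => h⟩

theorem Gad.Snd.avg [Fintype K] {G : Gad K} {ρ : ℕ} {μ : ℝ} (h : G.Snd ρ μ) {Y W : Type}
    [AddCommGroup Y] [Module (ZMod 2) Y] [Fintype Y] [AddCommGroup W] [Module (ZMod 2) W]
    (L : Y →ₗ[ZMod 2] W) (T : W →ₗ[ZMod 2] Bv ρ) (hT : Function.Surjective (T ∘ₗ L))
    (β : (K →ₗ[ZMod 2] Y) → G.B →ₗ[ZMod 2] W) :
    𝔼 J : K →ₗ[ZMod 2] Y, G.pk (L ∘ₗ J) (β J) ≤ μ := by
  obtain ⟨m, h1, h2⟩ := h
  rw [← ex_comp (T ∘ₗ L) hT m] at h2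
  refine (ex_mono fun J => le_trans ?_ (h1 _ (T ∘ₗ β J))).trans h2
  refine ex_mono fun ω => ind_mono fun h => ?_
  simp only [LinearMap.comp_apply] at h ⊢
  rw [← map_add, h, map_zero]

section Comp
variable (G : Gad K) {B0 I : Type} [AddCommGroup B0] [Module (ZMod 2) B0] [Fintype B0] [Fintype I]
  [Nonempty I] (g0 : B0 → K) (JK : I → K →ₗ[ZMod 2] K) (JB : I → K →ₗ[ZMod 2] B0)

/-- Composition of a gadget with an outer code. -/
noncomputable def Gad.comp : Gad K where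
  B := B0 × (I → G.B)
  Ω := I × G.Ω
  g := fun z => ∑ i, JK i (G.g (z.2 i)) + g0 (z.1 + ∑ i, JB i (G.g (z.2 i)))
  aK := fun z => JK z.1 (G.aK z.2)
  aB := fun z => (JB z.1 (G.aK z.2), Pi.single z.1 (G.aB z.2))

omit [Nonempty I] in
theorem sum_single {Z : Type} [AddCommGroup Z] [Module (ZMod 2) Z] (J : I → K →ₗ[ZMod 2] Z)
    (b : I → G.B) (i : I) (c : G.B) :
    ∑ j, J j (G.g ((b + Pi.single i c : I → G.B) j)) =
      ∑ j, J j (G.g (b j)) + J i (G.g (b i + c) - G.g (b i)) := by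
  rw [← sub_eq_iff_eq_add', ← sum_sub_distrib, Finset.sum_eq_single i]
  · simp
  · intro j _ hj
    simp [Pi.single_eq_of_ne hj]
  · simp

theorem Gad.comp_err {θ : ℝ} (hθ : ∀ x : K, x ≠ 0 →
    𝔼 i, 𝔼 w, ind (JK i x + g0 (w + JB i x) ≠ g0 w) ≤ θ) :
    (G.comp g0 JK JB).err ≤ θ * G.err := by
  let x : G.B → G.Ω → K := fun b ω => G.aK ω + G.g (b + G.aB ω) - G.g b
  let H : I → K → ℝ := fun i y => 𝔼 w, ind (JK i y + g0 (w + JB i y) ≠ g0 w)
  let P : B0 → (I → G.B) → I → G.Ω → Prop := fun w b i ω =>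
    JK i (G.aK ω) + (∑ j, JK j (G.g ((b + Pi.single i (G.aB ω) : I → G.B) j)) +
      g0 (w + JB i (G.aK ω) + ∑ j, JB j (G.g ((b + Pi.single i (G.aB ω) : I → G.B) j)))) ≠
      ∑ j, JK j (G.g (b j)) + g0 (w + ∑ j, JB j (G.g (b j)))
  have h1 : ∀ (b : I → G.B) (i : I) (ω : G.Ω),
      𝔼 w : B0, ind (P w b i ω) = H i (x (b i) ω) := fun b i ω => by
    refine Eq.trans (expect_congr rfl fun w _ => congrArg ind (propext ?_))
      (ex_shift (fun w => ind (JK i (x (b i) ω) + g0 (w + JB i (x (b i) ω)) ≠ g0 w))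
        (∑ j, JB j (G.g (b j))))
    simp only [P]
    have e1 : w + JB i (G.aK ω) + (∑ j, JB j (G.g (b j)) +
        JB i (G.g (b i + G.aB ω) - G.g (b i))) = w + ∑ j, JB j (G.g (b j)) + JB i (x (b i) ω) := by
      simp only [x, map_add, map_sub]
      abel
    rw [sum_single, sum_single, e1]
    have e2 : ∀ c : K, JK i (G.aK ω) + (∑ j, JK j (G.g (b j)) +
        JK i (G.g (b i + G.aB ω) - G.g (b i)) + c) =
        ∑ j, JK j (G.g (b j)) + (JK i (x (b i) ω) + c) := fun c => by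
      simp only [x, map_add, map_sub]
      abel
    rw [e2, Ne, Ne, add_right_inj]
  have h2 : (G.comp g0 JK JB).err = 𝔼 b : G.B, 𝔼 ω : G.Ω, 𝔼 i : I, H i (x b ω) := by
    calc (G.comp g0 JK JB).err
        = 𝔼 w : B0, 𝔼 b : I → G.B, 𝔼 i : I, 𝔼 ω : G.Ω, ind (P w b i ω) := by
          refine (ex_prod (X := B0) (Y := I → G.B) _).trans ?_
          exact expect_congr rfl fun w _ => expect_congr rfl fun b _ =>
            ex_prod (X := I) (Y := G.Ω) _
      _ = 𝔼 b : I → G.B, 𝔼 i : I, 𝔼 ω : G.Ω, H i (x (b i) ω) := by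
          rw [expect_comm]
          refine expect_congr rfl fun b _ => ?_
          rw [expect_comm]
          refine expect_congr rfl fun i _ => ?_
          rw [expect_comm]
          exact expect_congr rfl fun ω _ => h1 b i ω
      _ = 𝔼 i : I, 𝔼 b : G.B, 𝔼 ω : G.Ω, H i (x b ω) := by
          rw [expect_comm]
          refine expect_congr rfl fun i _ => ?_
          exact ex_hom (Pi.evalAddMonoidHom (fun _ : I => G.B) i) (Function.surjective_eval i)
            fun b => 𝔼 ω : G.Ω, H i (x b ω)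
      _ = _ := by
          rw [expect_comm]
          exact expect_congr rfl fun b _ => expect_comm _ _ _
  rw [h2, Gad.err, mul_expect]
  refine ex_mono fun b => ?_
  rw [mul_expect]
  refine ex_mono fun ω => ?_
  by_cases h0 : x b ω = 0
  · have h3 : ¬ (G.aK ω + G.g (b + G.aB ω) ≠ G.g b) := not_not.2 (sub_eq_zero.1 h0)
    rw [ind_neg h3, mul_zero, h0]
    refine ex_le fun i => ex_le fun w => ?_
    rw [ind_neg (by simp)]
  · rw [ind_pos (sub_ne_zero.1 h0), mul_one]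
    exact hθ _ h0

theorem Gad.comp_pk {W : Type} [AddCommGroup W] [Module (ZMod 2) W] (α : K →ₗ[ZMod 2] W)
    (β' : (G.comp g0 JK JB).B →ₗ[ZMod 2] W) :
    ∃ (γ0 : B0 →ₗ[ZMod 2] W) (γ : I → G.B →ₗ[ZMod 2] W),
      (G.comp g0 JK JB).pk α β' = 𝔼 i, G.pk (α ∘ₗ JK i + γ0 ∘ₗ JB i) (γ i) := by
  let β : (B0 × (I → G.B)) →ₗ[ZMod 2] W := β'
  refine ⟨β ∘ₗ LinearMap.inl (ZMod 2) B0 (I → G.B),
    fun i => β ∘ₗ LinearMap.inr (ZMod 2) B0 (I → G.B) ∘ₗ
    LinearMap.single (ZMod 2) (fun _ : I => G.B) i, (ex_prod (X := I) (Y := G.Ω) _).trans ?_⟩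
  refine expect_congr rfl fun i _ => expect_congr rfl fun ω _ => congrArg ind (propext ?_)
  change α (JK i (G.aK ω)) + β (JB i (G.aK ω), Pi.single i (G.aB ω)) = 0 ↔
    α (JK i (G.aK ω)) + β (JB i (G.aK ω), 0) + β (0, Pi.single i (G.aB ω)) = 0
  rw [add_assoc, ← map_add, Prod.mk_add_mk, add_zero, zero_add]
end Comp

/-- The top layer: average soundness becomes soundness for every map of full rank. -/
theorem Gad.exists_top [Fintype K] (G : Gad K) {r : ℕ} {μ : ℝ} (h : G.Snd r μ) :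
    ∃ G' : Gad K, G'.err ≤ G.err ∧ ∀ (W : Type) [AddCommGroup W] [Module (ZMod 2) W]
      (α : K →ₗ[ZMod 2] W) (β : G'.B →ₗ[ZMod 2] W) (T : W →ₗ[ZMod 2] Bv r),
      Function.Surjective (T ∘ₗ α) → G'.pk α β ≤ μ := by
  refine ⟨G.comp (B0 := Bv 0) (I := K →ₗ[ZMod 2] K) (fun _ => 0) id (fun _ => 0), ?_, ?_⟩
  · rw [← one_mul G.err]
    exact G.comp_err _ _ _ fun x _ => ex_le fun _ => ex_le fun _ => ind_le_one _
  · intro W _ _ α β T hT
    obtain ⟨γ0, γ, hγ⟩ := G.comp_pk _ _ _ α β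
    refine hγ.trans_le ?_
    simp only [LinearMap.comp_zero, add_zero, id]
    exact h.avg α T hT _

end Vale.Agent.P325.Gd
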