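import Vale.Agent.P325.GadA

/-! Part D2, file B: algebra of the quadratic step. -/

namespace Vale.Agent.P325.Gd

open Finset
open scoped Classical BigOperators

variable {F : Type} [Field F]

theorem exists_smul_of_cross {A v : Fin 3 → F} (hA : A ≠ 0) (h : crossProduct A v = 0) :
    ∃ t : F, v = t • A := by
  have h0 := congrFun h 0
  have h1 := congrFun h 1
  have h2 := congrFun h 2
  simp only [cross_apply, Matrix.cons_val_zero, Matrix.cons_val_one, Matrix.cons_val_two,
    Matrix.head_cons, Matrix.tail_cons, Pi.zero_apply] at h0 h1 h2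
  obtain ⟨i, hi⟩ := Function.ne_iff.1 hA
  have hi' : A i ≠ 0 := hi
  refine ⟨v i / A i, funext fun j => ?_⟩
  rw [Pi.smul_apply, smul_eq_mul, div_mul_eq_mul_div, eq_div_iff hi']
  fin_cases i <;> fin_cases j <;> simp only [Fin.zero_eta, Fin.mk_one, Fin.reduceFinMk] <;>
    first
      | linear_combination h0
      | linear_combination -h0
      | linear_combination h1
      | linear_combination -h1
      | linear_combination h2
      | linear_combination -h2

theorem ex_cross [Fintype F] {A : Fin 3 → F} (hA : A ≠ 0) :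
    𝔼 v, ind (crossProduct A v = 0) = 1 / (Fintype.card F : ℝ) ^ 2 := by
  have h1 : (univ.filter fun v => crossProduct A v = 0) = univ.image fun t : F => t • A := by
    ext v
    simp only [mem_filter, mem_univ, true_and, mem_image]
    refine ⟨fun h => (exists_smul_of_cross hA h).imp fun t ht => ht.symm, ?_⟩
    rintro ⟨t, rfl⟩
    rw [map_smul, cross_self, smul_zero]
  have h2 : (0 : ℝ) < Fintype.card F := by exact_mod_cast Fintype.card_pos
  rw [ex_ind, h1, card_image_of_injective _ (smul_left_injective F hA), card_univ,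
    Fintype.card_fun, Fintype.card_fin]
  push_cast
  field_simp

theorem ex_cross_ne [Fintype F] (v : Fin 3 → F) :
    𝔼 z, ind (crossProduct v z ≠ 0) ≤ 1 - 1 / (Fintype.card F : ℝ) ^ 2 := by
  by_cases hv : v = 0
  · have h2 : (1 : ℝ) ≤ Fintype.card F := by exact_mod_cast Fintype.card_pos
    refine ex_le fun z => ?_
    rw [ind_neg (by simp [hv]), sub_nonneg, div_le_one (by positivity)]
    exact one_le_pow₀ h2
  · simp only [Ne, ind_not]
    rw [expect_sub_distrib, ex_cross hv, Fintype.expect_const]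

/-- The quadratic map. -/
def Q (u : Fin 3 → F) : Fin 3 → F := ![u 1 * u 2, u 0 * u 2, u 0 * u 1]

theorem comb_add {ρ : ℕ} (a a' : Fin ρ → Fin 3 → F) (x : Bv ρ) :
    comb (a + a') x = comb a x + comb a' x := by
  unfold comb
  rw [← sum_add_distrib]
  refine sum_congr rfl fun i _ => ?_
  split_ifs <;> simp

theorem eq_one_of_ne {x : ZMod 2} (h : x ≠ 0) : x = 1 := by
  revert x
  decide

theorem ex_noninj [Fintype F] (ρ : ℕ) :
    𝔼 a : Fin ρ → Fin 3 → F, ind (∃ x ∈ univ.filter fun x : Bv ρ => x ≠ 0, comb a x = 0) ≤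
      2 ^ ρ / (Fintype.card F : ℝ) ^ 3 := by
  refine (ex_union _ _ (η := 1 / (Fintype.card F : ℝ) ^ 3) fun x hx => ?_).trans ?_
  · obtain ⟨i, hi⟩ := Function.ne_iff.1 (mem_filter.1 hx).2
    have hi' : x i = 1 := eq_one_of_ne hi
    have h1 := ex_hom (AddMonoidHom.mk' (fun a : Fin ρ → Fin 3 → F => comb a x)
      fun a a' => comb_add a a' x) (fun k => ⟨Pi.single i k, ?_⟩) fun k => ind (k = 0)
    · rw [ex_ind_eq, Fintype.card_fun, Fintype.card_fin, Nat.cast_pow] at h1
      exact h1.le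
    · change comb (Pi.single i k : Fin ρ → Fin 3 → F) x = k
      rw [comb, Finset.sum_eq_single i]
      · rw [if_pos hi', Pi.single_eq_same]
      · intro j _ hj
        rw [Pi.single_eq_of_ne hj, ite_self]
      · simp
  · rw [mul_one_div]
    refine div_le_div_of_nonneg_right ?_ (by positivity)
    have h2 : (univ.filter fun x : Bv ρ => x ≠ 0).card ≤ 2 ^ ρ :=
      (card_filter_le _ _).trans (by simp)
    exact_mod_cast h2

variable [Algebra (ZMod 2) F]

/-- The trace pairing. -/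
noncomputable def tp {ρ : ℕ} (a : Fin ρ → Fin 3 → F) : (Fin 3 → F) →ₗ[ZMod 2] Bv ρ :=
  AddMonoidHom.toZModLinearMap 2 (AddMonoidHom.mk'
    (fun k j => Algebra.trace (ZMod 2) F (a j ⬝ᵥ k)) fun k k' => by
      funext j
      rw [dotProduct_add, map_add, Pi.add_apply])

theorem tp_apply {ρ : ℕ} (a : Fin ρ → Fin 3 → F) (k : Fin 3 → F) (j : Fin ρ) :
    tp a k j = Algebra.trace (ZMod 2) F (a j ⬝ᵥ k) := rfl

theorem dot_tp {ρ : ℕ} (a : Fin ρ → Fin 3 → F) (k : Fin 3 → F) (x : Bv ρ) :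
    x ⬝ᵥ tp a k = Algebra.trace (ZMod 2) F (comb a x ⬝ᵥ k) := by
  rw [comb, sum_dotProduct, map_sum]
  refine sum_congr rfl fun j _ => ?_
  by_cases h : x j = 1
  · rw [if_pos h, h, one_mul, tp_apply]
  · have h0 : x j = 0 := by
      by_contra h0
      exact h (eq_one_of_ne h0)
    rw [if_neg h, h0, zero_mul, zero_dotProduct, map_zero]

variable [Fintype F]

theorem tr_ext {a : F} (h : ∀ t, Algebra.trace (ZMod 2) F (a * t) = 0) : a = 0 :=
  (traceForm_nondegenerate (ZMod 2) F).1 a h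

theorem tr_dot_ext {A : Fin 3 → F} (h : ∀ w, Algebra.trace (ZMod 2) F (A ⬝ᵥ w) = 0) : A = 0 :=
  funext fun i => tr_ext fun t => by rw [← h (Pi.single i t), dotProduct_single]

theorem tr_sq (t : F) : Algebra.trace (ZMod 2) F (t ^ 2) = Algebra.trace (ZMod 2) F t := by
  have h := Algebra.trace_eq_of_algEquiv (FiniteField.frobeniusAlgEquivOfAlgebraic (ZMod 2) F) t
  rwa [FiniteField.coe_frobeniusAlgEquivOfAlgebraic, ZMod.card] at h

theorem tp_bij (ρ : ℕ) : Function.Bijective (tp : (Fin ρ → Fin 3 → F) → _) := by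
  refine ⟨fun a a' h => funext fun j => sub_eq_zero.1 (tr_dot_ext fun w => ?_), fun α => ?_⟩
  · rw [sub_dotProduct, map_sub, ← tp_apply, ← tp_apply, h, sub_self]
  · have h1 : ∀ φ : F →ₗ[ZMod 2] ZMod 2, ∃ a : F, ∀ t, Algebra.trace (ZMod 2) F (a * t) = φ t :=
      fun φ => ⟨_, LinearMap.BilinForm.apply_toDual_symm_apply
        (hB := traceForm_nondegenerate (ZMod 2) F) φ⟩
    choose c hc using h1
    refine ⟨fun j i => c (LinearMap.proj j ∘ₗ α ∘ₗ LinearMap.single (ZMod 2) (fun _ => F) i),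
      LinearMap.ext fun k => funext fun j => ?_⟩
    rw [tp_apply, dotProduct, map_sum]
    conv_rhs => rw [← Finset.univ_sum_single k, map_sum, Finset.sum_apply]
    exact sum_congr rfl fun i _ => hc _ _

theorem Gad.snd_of (G : Gad (Fin 3 → F)) {ρ : ℕ} {μ : ℝ} (n : (Fin ρ → Fin 3 → F) → ℝ)
    (h1 : ∀ a β, G.pk (tp a) β ≤ n a) (h2 : 𝔼 a, n a ≤ μ) : G.Snd ρ μ := by
  let e := Equiv.ofBijective _ (tp_bij (F := F) ρ)
  refine ⟨fun α => n (e.symm α), fun α β => ?_, ?_⟩
  · obtain ⟨a, rfl⟩ := e.surjective α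
    simp only [e.symm_apply_apply]
    exact h1 a β
  · rwa [Fintype.expect_equiv e.symm (fun α => n (e.symm α)) n fun _ => rfl]

variable [CharP F 2]

/-- First component of the map `P v`. -/
noncomputable def PK (v : Fin 3 → F) : (F × (Fin 3 → F)) →ₗ[ZMod 2] (Fin 3 → F) :=
  AddMonoidHom.toZModLinearMap 2 (AddMonoidHom.mk'
    (fun z => z.1 ^ 2 • Q v + crossProduct v z.2) fun z z' => by
      rw [Prod.fst_add, Prod.snd_add, CharTwo.add_sq, add_smul, map_add]
      abel)

/-- Second component of the map `P v`. -/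
noncomputable def PB (v : Fin 3 → F) : (F × (Fin 3 → F)) →ₗ[ZMod 2] (Fin 3 → F) :=
  AddMonoidHom.toZModLinearMap 2 (AddMonoidHom.mk'
    (fun z => z.1 • v) fun z z' => by rw [Prod.fst_add, add_smul])

omit [Fintype F] in
theorem PK_apply (v : Fin 3 → F) (t : F) (w : Fin 3 → F) :
    PK v (t, w) = t ^ 2 • Q v + crossProduct v w := rfl

omit [Fintype F] [CharP F 2] in
theorem PB_apply (v : Fin 3 → F) (t : F) (w : Fin 3 → F) : PB v (t, w) = t • v := rfl

omit [Fintype F] in
theorem err_eq (v w w' : Fin 3 → F) (t : F) :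
    PK v (t, w') + Q (w + PB v (t, w')) = Q w + crossProduct v (w' + t • w) := by
  have h2 : (2 : F) = 0 := CharTwo.two_eq_zero
  rw [PK_apply, PB_apply]
  funext i
  fin_cases i
  · simp [Q, cross_apply]
    linear_combination (t ^ 2 * v 1 * v 2 + t * v 2 * w 1) * h2
  · simp [Q, cross_apply]
    linear_combination (t ^ 2 * v 0 * v 2 + t * v 0 * w 2) * h2
  · simp [Q, cross_apply]
    linear_combination (t ^ 2 * v 0 * v 1 + t * v 1 * w 0) * h2

theorem ex_err {x : Fin 3 → F} (hx : x ≠ 0) (v : Fin 3 → F) :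
    𝔼 J : (Fin 3 → F) →ₗ[ZMod 2] (F × (Fin 3 → F)), 𝔼 w,
      ind (PK v (J x) + Q (w + PB v (J x)) ≠ Q w) ≤ 1 - 1 / (Fintype.card F : ℝ) ^ 2 := by
  rw [ex_apply hx fun z => 𝔼 w, ind (PK v z + Q (w + PB v z) ≠ Q w), ex_prod]
  refine ex_le fun t => ?_
  rw [expect_comm]
  refine ex_le fun w => ?_
  simp only [err_eq, Ne, add_eq_left]
  rw [ex_shift (fun z => ind (¬ crossProduct v z = 0))]
  exact ex_cross_ne v

theorem kill {ρ : ℕ} (a c : Fin ρ → Fin 3 → F) (v : Fin 3 → F) (x : Bv ρ)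
    (h : ∀ y, x ⬝ᵥ (tp a ∘ₗ PK v + tp c ∘ₗ PB v) y = 0) :
    crossProduct (comb a x) v = 0 ∧
      (v ≠ 0 → (comb c x ⬝ᵥ comb a x) ^ 2 = ∏ j, comb a x j) := by
  have h2 : (2 : F) = 0 := CharTwo.two_eq_zero
  have h1 : ∀ t w, Algebra.trace (ZMod 2) F (comb a x ⬝ᵥ (t ^ 2 • Q v + crossProduct v w)) +
      Algebra.trace (ZMod 2) F (comb c x ⬝ᵥ (t • v)) = 0 := fun t w => by
    rw [← dot_tp, ← dot_tp, ← dotProduct_add]
    exact h (t, w)
  generalize comb a x = A at h1 ⊢
  generalize comb c x = C at h1 ⊢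
  have h3 : crossProduct A v = 0 := tr_dot_ext fun w => by
    have h4 := h1 0 w
    rw [zero_smul, dotProduct_zero, map_zero, add_zero, zero_pow two_ne_zero, zero_smul, zero_add,
      ← triple_product_permutation, dotProduct_comm] at h4
    exact h4
  refine ⟨h3, fun hv => ?_⟩
  have h5 : A ⬝ᵥ Q v + (C ⬝ᵥ v) ^ 2 = 0 := tr_ext fun s => by
    obtain ⟨t, rfl⟩ := isSquare_of_charTwo' s
    have h4 := h1 t 0
    rw [map_zero, add_zero, dotProduct_smul, dotProduct_smul, ← tr_sq (t • (C ⬝ᵥ v)),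
      ← map_add] at h4
    rw [← h4]
    congr 1
    simp only [smul_eq_mul]
    ring
  obtain ⟨l, rfl⟩ := exists_smul_of_cross hv (by rw [← cross_anticomm, h3, neg_zero] :
    crossProduct v A = 0)
  rw [dotProduct_smul, smul_eq_mul, Fin.prod_univ_three]
  simp [dotProduct, Fin.sum_univ_three, Q] at h5 ⊢
  linear_combination l ^ 2 * h5 - 2 * l ^ 3 * v 0 * v 1 * v 2 * h2

end Vale.Agent.P325.Gd
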