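import Vale.Agent.P325.GadB

/-! Part D2, file C: the quadratic step and the recursion. -/

namespace Vale.Agent.P325.Gd

open Finset
open scoped Classical BigOperators

variable {F : Type} [Field F] [Algebra (ZMod 2) F] [Fintype F]

/-- The gadget of level zero. -/
noncomputable def gad0 (K : Type) [AddCommGroup K] [Fintype K] : Gad K where
  B := Bv 0
  Ω := K
  g := fun _ => 0
  aK := id
  aB := fun _ => 0

theorem gad0_snd (ρ : ℕ) :
    (gad0 (Fin 3 → F)).Snd ρ (1 / ((ρ : ℝ) + 1) + 2 ^ ρ / (Fintype.card F : ℝ) ^ 3) := by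
  refine Gad.snd_of _ (fun a => 1 / ((ρ : ℝ) + 1) +
    ind (∃ x ∈ univ.filter fun x : Bv ρ => x ≠ 0, comb a x = 0)) (fun a β => ?_) ?_
  · by_cases h : ∃ x ∈ univ.filter fun x : Bv ρ => x ≠ 0, comb a x = 0
    · rw [ind_pos h]
      exact (Gad.pk_le_one _ _ _).trans (le_add_of_nonneg_left (by positivity))
    · rw [ind_neg h, add_zero]
      have hs : Function.Surjective (tp a) := surj_of_dot _ fun x hx => by
        by_contra hx0
        exact h ⟨x, mem_filter.2 ⟨mem_univ _, hx0⟩, tr_dot_ext fun w => by rw [← dot_tp, hx]⟩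
      have h1 := ex_hom (tp a).toAddMonoidHom hs fun y => ind (y = 0)
      rw [ex_ind_eq, Fintype.card_fun, ZMod.card, Fintype.card_fin] at h1
      have h2 : (gad0 (Fin 3 → F)).pk (tp a) β = 1 / ((2 ^ ρ : ℕ) : ℝ) := by
        rw [← h1]
        refine expect_congr rfl fun ω _ => congrArg ind (propext ?_)
        change tp a ω + β 0 = 0 ↔ tp a ω = 0
        rw [map_zero, add_zero]
      rw [h2]
      refine one_div_le_one_div_of_le (by positivity) ?_
      exact_mod_cast Nat.lt_two_pow_self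
  · rw [expect_add_distrib, Fintype.expect_const]
    exact add_le_add_right (ex_noninj ρ) _

variable [CharP F 2]

/-- The quadratic step. -/
noncomputable def quad (G : Gad (Fin 3 → F)) : Gad (Fin 3 → F) :=
  G.comp (B0 := Fin 3 → F) (I := (Fin 3 → F) × ((Fin 3 → F) →ₗ[ZMod 2] (F × (Fin 3 → F)))) Q
    (fun i => PK i.1 ∘ₗ i.2) (fun i => PB i.1 ∘ₗ i.2)

theorem quad_err (G : Gad (Fin 3 → F)) :
    (quad G).err ≤ (1 - 1 / (Fintype.card F : ℝ) ^ 2) * G.err := by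
  refine G.comp_err _ _ _ fun x hx => ?_
  rw [ex_prod]
  exact ex_le fun v => ex_err hx v

theorem quad_pk (G : Gad (Fin 3 → F)) {ρ : ℕ} (a : Fin ρ → Fin 3 → F)
    (β : (quad G).B →ₗ[ZMod 2] Bv ρ) : ∃ (c : Fin ρ → Fin 3 → F)
      (γ : (Fin 3 → F) → ((Fin 3 → F) →ₗ[ZMod 2] (F × (Fin 3 → F))) → G.B →ₗ[ZMod 2] Bv ρ),
      (quad G).pk (tp a) β =
        𝔼 v, 𝔼 J, G.pk ((tp a ∘ₗ PK v + tp c ∘ₗ PB v) ∘ₗ J) (γ v J) := by
  obtain ⟨γ0, γ, hγ⟩ := G.comp_pk _ _ _ (tp a) β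
  obtain ⟨c, rfl⟩ := (tp_bij (F := F) ρ).2 γ0
  refine ⟨c, fun v J => γ (v, J), hγ.trans ?_⟩
  rw [ex_prod]
  refine expect_congr rfl fun v _ => expect_congr rfl fun J _ => ?_
  simp only [LinearMap.add_comp, LinearMap.comp_assoc]

theorem surj_del {ρ : ℕ} {a : Fin (ρ + 1) → Fin 3 → F} (ha : Generic a)
    (c : Fin (ρ + 1) → Fin 3 → F) {v : Fin 3 → F} (hv : v ≠ 0) :
    ∃ T : Bv (ρ + 1) →ₗ[ZMod 2] Bv ρ,
      Function.Surjective (T ∘ₗ (tp a ∘ₗ PK v + tp c ∘ₗ PB v)) := by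
  set L := tp a ∘ₗ PK v + tp c ∘ₗ PB v with hL
  have h1 : ∃ i : Fin (ρ + 1), ∀ x : Bv (ρ + 1), (∀ y, x ⬝ᵥ L y = 0) → x i = 0 → x = 0 := by
    by_cases h : ∃ x : Bv (ρ + 1), x ≠ 0 ∧ ∀ y, x ⬝ᵥ L y = 0
    · obtain ⟨x, hx, hk⟩ := h
      obtain ⟨i, hi⟩ := Function.ne_iff.1 hx
      refine ⟨i, fun x' hk' hi' => ?_⟩
      by_contra hx'
      refine ha.2.1 x x' hx hx' (fun e => hi (e ▸ hi')) ?_
      obtain ⟨t, ht⟩ := exists_smul_of_cross hv (by
        rw [← cross_anticomm, (kill a c v x hk).1, neg_zero] : crossProduct v (comb a x) = 0)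
      obtain ⟨t', ht'⟩ := exists_smul_of_cross hv (by
        rw [← cross_anticomm, (kill a c v x' hk').1, neg_zero] : crossProduct v (comb a x') = 0)
      rw [ht, ht', map_smul, map_smul, LinearMap.smul_apply, cross_self, smul_zero, smul_zero]
    · refine ⟨0, fun x hk _ => ?_⟩
      by_contra hx
      exact h ⟨x, hx, hk⟩
  obtain ⟨i, hi⟩ := h1
  refine ⟨LinearMap.funLeft (ZMod 2) (ZMod 2) i.succAbove, surj_of_dot _ fun x hx => ?_⟩
  have h2 := hi (Fin.insertNth i 0 x) (fun y => by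
    refine Eq.trans ?_ (hx y)
    rw [dotProduct, Fin.sum_univ_succAbove _ i, Fin.insertNth_apply_same, zero_mul, zero_add]
    exact sum_congr rfl fun j _ => by rw [Fin.insertNth_apply_succAbove]; rfl)
    (Fin.insertNth_apply_same _ _ _)
  funext j
  have h3 := congrFun h2 (i.succAbove j)
  rwa [Fin.insertNth_apply_succAbove] at h3

theorem quad_pk_le (G : Gad (Fin 3 → F)) {ρ : ℕ} {μ ν : ℝ} (hμ : 0 ≤ μ) (hν : 0 ≤ ν)
    (h1 : G.Snd (ρ + 1) μ) (h2 : G.Snd ρ (μ + ν)) (a : Fin (ρ + 1) → Fin 3 → F)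
    (β : (quad G).B →ₗ[ZMod 2] Bv (ρ + 1)) :
    (quad G).pk (tp a) β ≤ μ + 3 * (ρ + 1) / (Fintype.card F : ℝ) ^ 2 * ν +
      1 / (Fintype.card F : ℝ) ^ 3 + 2 ^ (ρ + 1) / (Fintype.card F : ℝ) ^ 2 * ind (¬ Generic a) +
      ind (∃ x ∈ univ.filter fun x : Bv (ρ + 1) => x ≠ 0, comb a x = 0) := by
  have p1 : 0 ≤ 3 * (ρ + 1) / (Fintype.card F : ℝ) ^ 2 * ν := by positivity
  have p2 : 0 ≤ 1 / (Fintype.card F : ℝ) ^ 3 := by positivity
  have p3 : 0 ≤ 2 ^ (ρ + 1) / (Fintype.card F : ℝ) ^ 2 * ind (¬ Generic a) :=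
    mul_nonneg (by positivity) (ind_nonneg _)
  by_cases hi : ∃ x ∈ univ.filter fun x : Bv (ρ + 1) => x ≠ 0, comb a x = 0
  · rw [ind_pos hi]
    have := (quad G).pk_le_one (tp a) β
    linarith
  rw [ind_neg hi, add_zero]
  have hi' : ∀ x : Bv (ρ + 1), x ≠ 0 → comb a x ≠ 0 := fun x hx h0 =>
    hi ⟨x, mem_filter.2 ⟨mem_univ _, hx⟩, h0⟩
  obtain ⟨c, γ, he⟩ := quad_pk G a β
  rw [he]
  have hle : ∀ v, 𝔼 J, G.pk ((tp a ∘ₗ PK v + tp c ∘ₗ PB v) ∘ₗ J) (γ v J) ≤ 1 := fun v =>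
    ex_le fun J => G.pk_le_one _ _
  have hU : ∀ s : Finset (Bv (ρ + 1)), (∀ x ∈ s, x ≠ 0) →
      𝔼 v, ind (∃ x ∈ s, crossProduct (comb a x) v = 0) ≤
        s.card * (1 / (Fintype.card F : ℝ) ^ 2) := fun s hs =>
    ex_union s _ fun x hx => (ex_cross (hi' x (hs x hx))).le
  by_cases hg : Generic a
  · let s := univ.filter fun x : Bv (ρ + 1) =>
      x ≠ 0 ∧ (comb c x ⬝ᵥ comb a x) ^ 2 = ∏ j, comb a x j
    have hs : (s.card : ℝ) ≤ 3 * (ρ + 1) := by exact_mod_cast hg.2.2 c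
    have h3 : ∀ v, 𝔼 J, G.pk ((tp a ∘ₗ PK v + tp c ∘ₗ PB v) ∘ₗ J) (γ v J) ≤
        μ + ind (∃ x ∈ s, crossProduct (comb a x) v = 0) * ν + ind (v = 0) := fun v => by
      have p4 := mul_nonneg (ind_nonneg (∃ x ∈ s, crossProduct (comb a x) v = 0)) hν
      by_cases hv : v = 0
      · rw [ind_pos hv]
        linarith [hle v]
      rw [ind_neg hv, add_zero]
      by_cases hb : ∃ x ∈ s, crossProduct (comb a x) v = 0
      · rw [ind_pos hb, one_mul]
        obtain ⟨T, hT⟩ := surj_del hg c hv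
        exact h2.avg _ T hT _
      · rw [ind_neg hb, zero_mul, add_zero]
        refine h1.avg _ LinearMap.id (surj_of_dot _ fun x hx => ?_) _
        by_contra hx0
        exact hb ⟨x, mem_filter.2 ⟨mem_univ _, hx0, (kill a c v x hx).2 hv⟩, (kill a c v x hx).1⟩
    refine (ex_mono h3).trans ?_
    rw [expect_add_distrib, expect_add_distrib, Fintype.expect_const, ← expect_mul, ex_ind_eq,
      Fintype.card_fun, Fintype.card_fin, Nat.cast_pow]
    have h4 := (hU s fun x hx => (mem_filter.1 hx).2.1).trans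
      (mul_le_mul_of_nonneg_right hs (by positivity))
    have h5 := mul_le_mul_of_nonneg_right h4 hν
    rw [mul_one_div] at h5
    linarith
  · let s := univ.filter fun x : Bv (ρ + 1) => x ≠ 0
    have hs : (s.card : ℝ) ≤ 2 ^ (ρ + 1) := by
      have h2 : s.card ≤ 2 ^ (ρ + 1) := (card_filter_le _ _).trans (by simp)
      exact_mod_cast h2
    have h3 : ∀ v, 𝔼 J, G.pk ((tp a ∘ₗ PK v + tp c ∘ₗ PB v) ∘ₗ J) (γ v J) ≤
        μ + ind (∃ x ∈ s, crossProduct (comb a x) v = 0) := fun v => by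
      by_cases hb : ∃ x ∈ s, crossProduct (comb a x) v = 0
      · rw [ind_pos hb]
        linarith [hle v]
      · rw [ind_neg hb, add_zero]
        refine h1.avg _ LinearMap.id (surj_of_dot _ fun x hx => ?_) _
        by_contra hx0
        exact hb ⟨x, mem_filter.2 ⟨mem_univ _, hx0⟩, (kill a c v x hx).1⟩
    refine (ex_mono h3).trans ?_
    rw [expect_add_distrib, Fintype.expect_const, ind_pos hg, mul_one]
    have h4 := (hU s fun x hx => (mem_filter.1 hx).2).trans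
      (mul_le_mul_of_nonneg_right hs (by positivity))
    rw [mul_one_div] at h4
    linarith

theorem quad_snd (G : Gad (Fin 3 → F)) {ρ : ℕ} {A E C : ℝ} (hA : 0 ≤ A) (hE : 0 ≤ E)
    (h1 : G.Snd (ρ + 1) (A / (ρ + 1 + 1) + E)) (h2 : G.Snd ρ (A / (ρ + 1) + E))
    (hC : 𝔼 a : Fin (ρ + 1) → Fin 3 → F, ind (¬ Generic a) ≤ C / Fintype.card F) :
    (quad G).Snd (ρ + 1) ((1 + 3 / (Fintype.card F : ℝ) ^ 2) * A / (ρ + 1 + 1) +
      (E + (1 + (C + 1) * 2 ^ (ρ + 1)) / (Fintype.card F : ℝ) ^ 3)) := by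
  have hq : (0 : ℝ) < Fintype.card F := by exact_mod_cast Fintype.card_pos
  have e1 : A / (ρ + 1) + E = A / (ρ + 1 + 1) + E + A / ((ρ + 1) * (ρ + 1 + 1)) := by
    field_simp
    ring
  rw [e1] at h2
  refine Gad.snd_of _ _ (quad_pk_le G (by positivity) (by positivity) h1 h2) ?_
  rw [expect_add_distrib, expect_add_distrib, Fintype.expect_const, ← mul_expect]
  have h3 := mul_le_mul_of_nonneg_left hC
    (by positivity : (0 : ℝ) ≤ 2 ^ (ρ + 1) / (Fintype.card F : ℝ) ^ 2)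
  refine (add_le_add (add_le_add_right h3 _) (ex_noninj (ρ + 1))).trans (le_of_eq ?_)
  field_simp
  ring

theorem exists_level (r : ℕ) {C : ℝ} (hC0 : 0 ≤ C)
    (hC : ∀ ρ ≤ r, 𝔼 a : Fin ρ → Fin 3 → F, ind (¬ Generic a) ≤ C / Fintype.card F) (D : ℕ) :
    ∃ G : Gad (Fin 3 → F), G.err ≤ (1 - 1 / (Fintype.card F : ℝ) ^ 2) ^ D ∧
      ∀ ρ ≤ r, G.Snd ρ ((1 + 3 / (Fintype.card F : ℝ) ^ 2) ^ D / (ρ + 1) +
        (D + 1) * (1 + (C + 1) * 2 ^ r) / (Fintype.card F : ℝ) ^ 3) := by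
  have hq : (1 : ℝ) ≤ Fintype.card F := by exact_mod_cast Fintype.card_pos
  have hmono : ∀ (G : Gad (Fin 3 → F)) (ρ : ℕ) (μ μ' : ℝ), G.Snd ρ μ → μ ≤ μ' → G.Snd ρ μ' :=
    fun G ρ μ μ' ⟨m, h1, h2⟩ h => ⟨m, h1, h2.trans h⟩
  have hp : ∀ ρ ≤ r, (2 : ℝ) ^ ρ ≤ 2 ^ r := fun ρ h => pow_le_pow_right₀ one_le_two h
  induction D with
  | zero =>
    refine ⟨gad0 _, ex_le fun _ => ex_le fun _ => (ind_le_one _).trans (by simp),
      fun ρ hρ => hmono _ _ _ _ (gad0_snd ρ) ?_⟩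
    rw [pow_zero, Nat.cast_zero, zero_add, one_mul]
    refine add_le_add_right (div_le_div_of_nonneg_right ?_ (by positivity)) _
    have h1 := hp ρ hρ
    have h2 : 0 ≤ C * 2 ^ r := by positivity
    linarith
  | succ D ih =>
    obtain ⟨G, h1, h2⟩ := ih
    have hθ : 0 ≤ 1 - 1 / (Fintype.card F : ℝ) ^ 2 := by
      rw [sub_nonneg, div_le_one (by positivity)]
      exact one_le_pow₀ hq
    refine ⟨quad G, (quad_err G).trans ?_, fun ρ hρ => ?_⟩
    · rw [pow_succ' _ D]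
      exact mul_le_mul_of_nonneg_left h1 hθ
    · cases ρ with
      | zero =>
        refine Gad.snd_one _ _ ?_
        rw [Nat.cast_zero, zero_add, div_one]
        refine le_add_of_le_of_nonneg (one_le_pow₀ (le_add_of_nonneg_right ?_)) ?_ <;> positivity
      | succ ρ =>
        have h3 := h2 (ρ + 1) hρ
        rw [Nat.cast_succ] at h3
        refine hmono _ _ _ _ (quad_snd G (by positivity) (by positivity) h3 (h2 ρ (by omega))
          (hC (ρ + 1) hρ)) ?_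
        rw [pow_succ' _ D, Nat.cast_succ ρ, Nat.cast_succ D, ← add_div]
        refine add_le_add_right (div_le_div_of_nonneg_right ?_ (by positivity)) _
        have h4 := mul_le_mul_of_nonneg_left (hp (ρ + 1) hρ) (by positivity : 0 ≤ C + 1)
        linarith

end Vale.Agent.P325.Gd
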