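import Vale.Agent.P325.DefsA

/-! Part D1: most families of vectors are generic. -/

namespace Vale.Agent.P325

namespace Gen

open Finset MvPolynomial
open scoped Classical BigOperators

/-- The ring of polynomials in the coordinates of the family. -/
abbrev Rg (ρ : ℕ) : Type := MvPolynomial (Fin ρ × Fin 3) (ZMod 2)

variable {ρ : ℕ}

/-- The generic subset sums. -/
noncomputable def ga (x : Bv ρ) (j : Fin 3) : Rg ρ := ∑ i, C (x i) * X (i, j)

theorem zm_cases (a : ZMod 2) : a = 0 ∨ a = 1 := by revert a; decide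

theorem zm_sq (a : ZMod 2) : a * a = a := by revert a; decide

theorem pderiv_ga (x : Bv ρ) (j : Fin 3) (i : Fin ρ) (k : Fin 3) :
    pderiv (i, k) (ga x j) = if j = k then C (x i) else 0 := by
  simp only [ga, map_sum, pderiv_C_mul, pderiv_X, Pi.single_apply, Prod.mk.injEq, mul_ite, mul_one,
    mul_zero]
  by_cases h : j = k
  · simp [h]
  · simp [h]

theorem exists_one {x : Bv ρ} (hx : x ≠ 0) : ∃ i, x i = 1 := by
  by_contra h
  push Not at h
  exact hx (funext fun i => (zm_cases (x i)).resolve_right (h i))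

theorem ga_ne {x : Bv ρ} (hx : x ≠ 0) (j : Fin 3) : ga x j ≠ 0 := by
  obtain ⟨i, hi⟩ := exists_one hx
  intro h
  have := pderiv_ga x j i j
  rw [h, map_zero, if_pos rfl, hi, map_one] at this
  exact zero_ne_one this

theorem cross_ne {x x' : Bv ρ} (hx : x ≠ 0) (hx' : x' ≠ 0) (h : x ≠ x') :
    ga x 1 * ga x' 2 - ga x 2 * ga x' 1 ≠ 0 := by
  intro e
  have key : ∀ i k, x i * x' k = x k * x' i := fun i k => by
    have := congrArg (fun p => pderiv (k, (2 : Fin 3)) (pderiv (i, (1 : Fin 3)) p)) e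
    simp only [map_sub, Derivation.leibniz, pderiv_ga, smul_eq_mul, map_zero, if_true,
      show ¬ (2 : Fin 3) = 1 by decide, if_false, mul_zero, zero_add, add_zero, pderiv_C] at this
    rw [← map_mul, ← map_mul, ← map_sub, map_eq_zero_iff _ (C_injective _ _), sub_eq_zero] at this
    rw [this, mul_comm]
  obtain ⟨i, hi⟩ := exists_one hx
  rcases zm_cases (x' i) with h0 | h0
  · exact hx' (funext fun k => by simpa [hi, h0] using key i k)
  · exact h (funext fun k => by simpa [hi, h0] using (key i k).symm)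

/-- Dependencies among the vectors `x ⊗ ga x`, supported in `Z`. -/
def Dep (Z : Finset (Bv ρ)) (l : Bv ρ → Rg ρ) : Prop :=
  (∀ x, x ∉ Z → l x = 0) ∧ (∀ i j, ∑ x, l x * (C (x i) * ga x j) = 0) ∧ l ≠ 0

theorem exists_dep (Z : Finset (Bv ρ)) (hZ : Z.card = 3 * ρ + 1) : ∃ l, Dep Z l := by
  have h : ¬ LinearIndependent (Rg ρ)
      fun x : Z => (fun z : Fin ρ × Fin 3 => C (x.1 z.1) * ga x.1 z.2 : Fin ρ × Fin 3 → Rg ρ) := by
    intro h
    have := h.fintype_card_le_finrank
    simp only [Fintype.card_coe, Module.finrank_fintype_fun_eq_card, Fintype.card_prod,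
      Fintype.card_fin, hZ] at this
    omega
  obtain ⟨g, hg, x, hx⟩ := Fintype.not_linearIndependent_iff.1 h
  refine ⟨fun y => if hy : y ∈ Z then g ⟨y, hy⟩ else 0, fun y hy => dif_neg hy, fun i j => ?_,
    fun e => hx ?_⟩
  · have := congrFun hg (i, j)
    rw [Finset.sum_apply, Pi.zero_apply] at this
    refine Eq.trans ?_ this
    rw [← Finset.sum_subset (Finset.subset_univ Z) (fun y _ hy => by
      simp only [dif_neg hy, zero_mul]), ← Finset.sum_coe_sort]
    exact Finset.sum_congr rfl fun y _ => by simp only [dif_pos y.2]; rfl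
  · have := congrFun e x
    rwa [dif_pos x.2] at this

theorem pderiv_sq_mul (v : Fin ρ × Fin 3) (p q : Rg ρ) :
    pderiv v (p ^ 2 * q) = p ^ 2 * pderiv v q := by
  rw [Derivation.leibniz, Derivation.leibniz_pow, two_nsmul, CharTwo.add_self_eq_zero, smul_zero,
    add_zero, smul_eq_mul]

theorem exists_good (Z : Finset (Bv ρ)) (hZ : Z.card = 3 * ρ + 1) (h0 : (0 : Bv ρ) ∉ Z) :
    ∃ l, Dep Z l ∧ ∑ x, l x ^ 2 * (ga x 0 * ga x 1 * ga x 2) ≠ 0 := by
  obtain ⟨l, hl, hmin⟩ := exists_minimalFor_of_wellFoundedLT (Dep Z)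
    (fun l => (univ.filter fun x => l x ≠ 0).card) (exists_dep Z hZ)
  refine ⟨l, hl, fun e => ?_⟩
  have k1 : ∀ i j k, ∑ x, l x * C (x i * x j * x k) = 0 := fun i j k => by
    have := congrArg (fun p => pderiv (k, (2 : Fin 3)) (pderiv (j, (1 : Fin 3))
      (pderiv (i, (0 : Fin 3)) p))) e
    simp only [map_sum, pderiv_sq_mul, map_zero] at this
    refine pow_eq_zero_iff (two_ne_zero) |>.1 ?_
    rw [sum_pow_char, ← this]
    refine Finset.sum_congr rfl fun x _ => ?_
    rw [mul_pow, ← map_pow, sq (x i * x j * x k), zm_sq]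
    congr 1
    simp only [Derivation.leibniz, pderiv_ga, smul_eq_mul, if_true,
      show ¬ (2 : Fin 3) = 1 by decide, show ¬ (2 : Fin 3) = 0 by decide,
      show ¬ (1 : Fin 3) = 0 by decide, if_false, mul_zero, zero_add, add_zero, pderiv_C, map_mul]
  have k2 : ∀ i j k, ∑ x, l x * C (x i) * (C (x j) * ga x k) = 0 := fun i j k => by
    simp only [ga, Finset.mul_sum]
    rw [Finset.sum_comm]
    refine Finset.sum_eq_zero fun m _ => ?_
    have := congrArg (· * X (m, k)) (k1 i j m)
    simp only [Finset.sum_mul, zero_mul, map_mul] at this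
    rw [← this]
    exact Finset.sum_congr rfl fun x _ => by ring
  have k3 : ∀ i x y, l x ≠ 0 → l y ≠ 0 → x i = 1 → y i = 1 := by
    intro i x y hx hy hi
    have hd : Dep Z fun z => l z * C (z i) :=
      ⟨fun z hz => by simp only [hl.1 z hz, zero_mul], k2 i, fun e => hx (by
        have := congrFun e x
        rwa [hi, map_one, mul_one] at this)⟩
    have hsub : (univ.filter fun z => l z * C (z i) ≠ 0) ⊆ univ.filter fun z => l z ≠ 0 :=
      fun z hz => by
        rw [mem_filter] at hz ⊢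
        exact ⟨hz.1, left_ne_zero_of_mul hz.2⟩
    have heq := Finset.eq_of_subset_of_card_le hsub (hmin hd (Finset.card_le_card hsub))
    have : y ∈ univ.filter fun z => l z * C (z i) ≠ 0 := by
      rw [heq]; exact mem_filter.2 ⟨mem_univ _, hy⟩
    refine (zm_cases (y i)).resolve_left fun h => (mem_filter.1 this).2 ?_
    rw [h, map_zero, mul_zero]
  obtain ⟨x, hx⟩ := Function.ne_iff.1 hl.2.2
  have hx0 : x ≠ 0 := fun e => hx (hl.1 x (e ▸ h0))
  obtain ⟨i, hi⟩ := exists_one hx0
  have k4 := hl.2.1 i 0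
  rw [Finset.sum_eq_single x (fun y _ hy => ?_) (by simp), hi, map_one, one_mul] at k4
  · exact mul_ne_zero hx (ga_ne hx0 0) k4
  · by_cases hly : l y = 0
    · rw [hly, zero_mul]
    · refine absurd (_root_.funext fun m => ?_) hy
      rcases zm_cases (x m) with h1 | h1
      · rw [h1]
        refine (zm_cases (y m)).resolve_right fun h2 => ?_
        rw [k3 m y x hly hx h2] at h1
        exact one_ne_zero h1
      · rw [h1, k3 m x y hx hly h1]

section Eval

variable {F : Type} [Field F] [CharP F 2]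

/-- Evaluation at a family. -/
noncomputable def ev (α : Fin ρ → Fin 3 → F) : Rg ρ →+* F :=
  eval₂Hom (ZMod.castHom (dvd_refl 2) F) fun z => α z.1 z.2

theorem ev_C (α : Fin ρ → Fin 3 → F) (a : ZMod 2) : ev α (C a) = if a = 1 then 1 else 0 := by
  rcases zm_cases a with rfl | rfl <;> simp

omit [CharP F 2] in
theorem comb_apply (α : Fin ρ → Fin 3 → F) (x : Bv ρ) (j : Fin 3) :
    comb α x j = ∑ i, (if x i = 1 then 1 else 0) * α i j := by
  rw [comb, Finset.sum_apply]
  exact Finset.sum_congr rfl fun i _ => by split_ifs <;> simp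

theorem ev_ga (α : Fin ρ → Fin 3 → F) (x : Bv ρ) (j : Fin 3) : ev α (ga x j) = comb α x j := by
  rw [comb_apply, ga, map_sum]
  refine Finset.sum_congr rfl fun i _ => ?_
  rw [map_mul, ev_C, ev, eval₂Hom_X']

theorem ev_dep {Z : Finset (Bv ρ)} {l : Bv ρ → Rg ρ} (hl : Dep Z l) (α c : Fin ρ → Fin 3 → F)
    (h : ∀ x ∈ Z, (comb c x ⬝ᵥ comb α x) ^ 2 = ∏ j, comb α x j) :
    ev α (∑ x, l x ^ 2 * (ga x 0 * ga x 1 * ga x 2)) = 0 := by
  have e1 : ∑ x, ev α (l x) * (comb c x ⬝ᵥ comb α x) = 0 := by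
    have e2 : ∀ x, ev α (l x) * (comb c x ⬝ᵥ comb α x) =
        ∑ j, ∑ i, c i j * ev α (l x * (C (x i) * ga x j)) := fun x => by
      simp only [dotProduct, comb_apply c, map_mul, ev_ga, ev_C, Finset.mul_sum, Finset.sum_mul]
      exact Finset.sum_congr rfl fun j _ => Finset.sum_congr rfl fun i _ => by ring
    simp only [e2]
    rw [Finset.sum_comm]
    refine Finset.sum_eq_zero fun j _ => ?_
    rw [Finset.sum_comm]
    refine Finset.sum_eq_zero fun i _ => ?_
    rw [← Finset.mul_sum, ← map_sum, hl.2.1, map_zero, mul_zero]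
  have e3 := congrArg (· ^ 2) e1
  simp only [sum_pow_char, zero_pow two_ne_zero] at e3
  rw [← e3, map_sum]
  refine Finset.sum_congr rfl fun x _ => ?_
  by_cases hx : x ∈ Z
  · rw [mul_pow, h x hx, Fin.prod_univ_three, map_mul, map_pow, map_mul, map_mul, ev_ga, ev_ga,
      ev_ga]
  · simp [hl.1 x hx]

end Eval

theorem exists_poly (ρ : ℕ) : ∃ P : Rg ρ, P ≠ 0 ∧ ∀ (F : Type) [Field F] [CharP F 2]
    (α : Fin ρ → Fin 3 → F), ev α P ≠ 0 → Generic α := by
  choose! l hl hl' using exists_good (ρ := ρ)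
  refine ⟨(∏ x ∈ univ.filter fun x : Bv ρ => x ≠ 0, ga x 0) *
    (∏ z ∈ univ.filter fun z : Bv ρ × Bv ρ => z.1 ≠ 0 ∧ z.2 ≠ 0 ∧ z.1 ≠ z.2,
      (ga z.1 1 * ga z.2 2 - ga z.1 2 * ga z.2 1)) *
    ∏ Z ∈ univ.filter fun Z : Finset (Bv ρ) => Z.card = 3 * ρ + 1 ∧ 0 ∉ Z,
      ∑ x, l Z x ^ 2 * (ga x 0 * ga x 1 * ga x 2), ?_, fun F _ _ α h => ?_⟩
  · refine mul_ne_zero (mul_ne_zero (prod_ne_zero_iff.2 fun x hx => ?_)
      (prod_ne_zero_iff.2 fun z hz => ?_)) (prod_ne_zero_iff.2 fun Z hZ => ?_)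
    · exact ga_ne (mem_filter.1 hx).2 0
    · exact cross_ne (mem_filter.1 hz).2.1 (mem_filter.1 hz).2.2.1 (mem_filter.1 hz).2.2.2
    · exact hl' Z (mem_filter.1 hZ).2.1 (mem_filter.1 hZ).2.2
  rw [map_mul, map_mul, map_prod, map_prod, map_prod, mul_ne_zero_iff, mul_ne_zero_iff,
    prod_ne_zero_iff, prod_ne_zero_iff, prod_ne_zero_iff] at h
  obtain ⟨⟨h1, h2⟩, h3⟩ := h
  refine ⟨fun x hx e => ?_, fun x x' hx hx' hne e => ?_, fun c => ?_⟩
  · refine h1 x (mem_filter.2 ⟨mem_univ _, hx⟩) ?_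
    rw [ev_ga, e, Pi.zero_apply]
  · refine h2 (x, x') (mem_filter.2 ⟨mem_univ _, hx, hx', hne⟩) ?_
    rw [map_sub, map_mul, map_mul, ev_ga, ev_ga, ev_ga, ev_ga]
    exact congrFun e 0
  · by_contra hc
    obtain ⟨Z, hZ, hcard⟩ := Finset.exists_subset_card_eq (Nat.succ_le_of_lt (not_le.1 hc))
    have h0 : (0 : Bv ρ) ∉ Z := fun h => (mem_filter.1 (hZ h)).2.1 rfl
    exact h3 Z (mem_filter.2 ⟨mem_univ _, hcard, h0⟩)
      (ev_dep (hl Z hcard h0) α c fun x hx => (mem_filter.1 (hZ hx)).2.2)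

theorem sz {σ F : Type} [Fintype σ] [DecidableEq σ] [Field F] [Fintype F] (P : MvPolynomial σ F) (hP : P ≠ 0) :
    (univ.filter fun a : σ → F => eval a P = 0).card * Fintype.card F ≤
      P.totalDegree * Fintype.card (σ → F) := by
  let e := Fintype.equivFin σ
  have hP' : rename e P ≠ 0 := fun h => hP (rename_injective e e.injective (by rw [h, map_zero]))
  have h := schwartz_zippel_totalDegree hP' (univ : Finset F)
  have hc : (0 : ℚ≥0) < (univ : Finset F).card := by
    exact_mod_cast Finset.card_pos.2 univ_nonempty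
  rw [div_le_div_iff₀ (pow_pos hc _) hc] at h
  have h2 : (univ.filter fun a : σ → F => eval a P = 0).card =
      ((Fintype.piFinset fun _ => (univ : Finset F)).filter
        fun f : Fin (Fintype.card σ) → F => eval f (rename e P) = 0).card := by
    refine Finset.card_equiv (Equiv.arrowCongr e (Equiv.refl F)) fun a => ?_
    have : (Equiv.arrowCongr e (Equiv.refl F) a) ∘ e = a := by
      funext s; simp
    simp only [mem_filter, mem_univ, true_and, Fintype.mem_piFinset, implies_true, eval_rename, this]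
  have h3 : (rename e P).totalDegree ≤ P.totalDegree := totalDegree_rename_le _ _
  rw [h2, Fintype.card_fun]
  refine le_trans ?_ (Nat.mul_le_mul_right _ h3)
  rw [Finset.card_univ] at h
  exact_mod_cast h

end Gen

open Finset MvPolynomial in
open scoped Classical in
theorem genThm : GenThm := by
  intro ρ
  obtain ⟨P, hP, h⟩ := Gen.exists_poly ρ
  refine ⟨P.totalDegree, fun F _ _ _ => ?_⟩
  have hinj : Function.Injective (ZMod.castHom (dvd_refl 2) F) := RingHom.injective _
  have h1 := Gen.sz (MvPolynomial.map (ZMod.castHom (dvd_refl 2) F) P)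
    fun e => hP (map_injective _ hinj (by rw [e, map_zero]))
  have h3 : (MvPolynomial.map (ZMod.castHom (dvd_refl 2) F) P).totalDegree ≤ P.totalDegree :=
    Finset.sup_mono (support_map_subset _ _)
  refine le_trans (Nat.mul_le_mul_right _ ?_) (h1.trans ?_)
  · refine Finset.card_le_card_of_injOn (fun α z => α z.1 z.2) (fun α hα => ?_)
      fun α _ β _ e => _root_.funext fun i => _root_.funext fun j => congrFun e (i, j)
    refine mem_coe.2 (mem_filter.2 ⟨mem_univ _, ?_⟩)
    rw [eval_map]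
    by_contra hne
    exact (mem_filter.1 (mem_coe.1 hα)).2 (h F α hne)
  · exact Nat.mul_le_mul h3 (le_of_eq (Fintype.card_congr (Equiv.curry _ _ _)))

end Vale.Agent.P325
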