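import Vale.Agent.P325.Defs

/-! Fourier tools and elementary inequalities for the inverse lemma. -/

namespace Vale.Agent.P325.Inv

open Finset
open scoped Classical BigOperators

lemma z2 (x : ZMod 2) : x = 0 ∨ x = 1 := by revert x; decide

lemma sg_zero : sg 0 = 1 := by simp [sg]

lemma sg_one : sg 1 = -1 := by simp [sg]

lemma sg_add (x y : ZMod 2) : sg (x + y) = sg x * sg y := by
  have h : (1 : ZMod 2) + 1 = 0 := by decide
  rcases z2 x with rfl | rfl <;> rcases z2 y with rfl | rfl <;> simp [sg, h]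

lemma abs_sg (x : ZMod 2) : |sg x| = 1 := by
  rcases z2 x with rfl | rfl <;> simp [sg]

lemma one_eq_sg (t : ZMod 2) : (1 : ℝ) = sg t + 2 * (if t = 1 then 1 else 0) := by
  rcases z2 t with rfl | rfl <;> norm_num [sg]

lemma exp_add {G : Type} [AddCommGroup G] [Fintype G] (f : G → ℝ) (g : G) :
    𝔼 x, f (x + g) = 𝔼 x, f x :=
  Fintype.expect_equiv (Equiv.addRight g) _ _ fun _ => rfl

lemma exp_shift {G I : Type} [AddCommGroup G] [Fintype G] [Fintype I] (h : G → I → ℝ)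
    (g : I → G) : 𝔼 x, 𝔼 i, h (x + g i) i = 𝔼 x, 𝔼 i, h x i := by
  rw [expect_comm, expect_comm univ univ h]
  exact expect_congr rfl fun i _ => exp_add (fun x => h x i) (g i)

lemma exp_sg_zero {D : Type} [AddCommGroup D] [Fintype D] (L : D → ZMod 2)
    (hL : ∀ a b, L (a + b) = L a + L b) (d : D) (hd : L d ≠ 0) : 𝔼 a, sg (L a) = 0 := by
  have h1 : L d = 1 := (z2 _).resolve_left hd
  have h := exp_add (fun a => sg (L a)) d
  simp only [hL, sg_add, h1, sg_one, mul_neg, mul_one, expect_neg_distrib] at h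
  linarith

/-- A complete family of characters of an elementary abelian group of exponent two. -/
structure IsChar {G D : Type} [AddCommGroup G] [Fintype D] (χ : D → G → ℝ) : Prop where
  two : ∀ x : G, x + x = 0
  mul : ∀ d x y, χ d (x + y) = χ d x * χ d y
  zero : ∀ d, χ d 0 = 1
  orth : ∀ x, x ≠ 0 → 𝔼 d, χ d x = 0

lemma two_mod {G : Type} [AddCommGroup G] [Module (ZMod 2) G] (x : G) : x + x = 0 := by
  have h : (1 : ZMod 2) + 1 = 0 := by decide
  calc x + x = ((1 : ZMod 2) + 1) • x := by rw [add_smul, one_smul]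
    _ = 0 := by rw [h, zero_smul]

lemma isChar_dot (ι : Type) [Fintype ι] [DecidableEq ι] :
    IsChar (fun z t : ι → ZMod 2 => sg (z ⬝ᵥ t)) where
  two := two_mod
  mul := fun d x y => by rw [dotProduct_add, sg_add]
  zero := fun d => by rw [dotProduct_zero, sg_zero]
  orth := fun x hx => by
    obtain ⟨i, hi⟩ := Function.ne_iff.1 hx
    refine exp_sg_zero (fun z => z ⬝ᵥ x) (fun a b => add_dotProduct a b x) (Pi.single i 1) ?_
    simpa using hi

lemma isChar_dual (G : Type) [AddCommGroup G] [Module (ZMod 2) G]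
    [Fintype (G →ₗ[ZMod 2] ZMod 2)] :
    IsChar (fun (S : G →ₗ[ZMod 2] ZMod 2) (g : G) => sg (S g)) where
  two := two_mod
  mul := fun d x y => by rw [map_add, sg_add]
  zero := fun d => by rw [map_zero, sg_zero]
  orth := fun x hx => by
    have h := (Module.forall_dual_apply_eq_zero_iff (ZMod 2) x).not.2 hx
    push Not at h
    obtain ⟨S, hS⟩ := h
    exact exp_sg_zero (fun S : G →ₗ[ZMod 2] ZMod 2 => S x) (fun a b => rfl) S hS

section
variable {G D : Type} [AddCommGroup G] [Fintype G] [Fintype D] [Nonempty D] {χ : D → G → ℝ}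

lemma IsChar.inv (h : IsChar χ) (p : G → ℝ) (w : G) :
    𝔼 d, (∑ u, p u * χ d u) * χ d w = p w := by
  simp only [sum_mul, mul_assoc, ← h.mul]
  rw [expect_sum_comm, sum_eq_single w]
  · simp [h.two, h.zero]
  · intro u _ hu
    rw [← mul_expect, h.orth, mul_zero]
    intro h0
    apply hu
    calc u = u + w + w := by rw [add_assoc, h.two, add_zero]
      _ = w := by rw [h0, zero_add]
  · simp

lemma IsChar.triple (h : IsChar χ) (a b c : G → ℝ) :
    ∑ x, ∑ y, a y * b x * c (x + y) =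
      𝔼 d, (∑ y, a y * χ d y) * (∑ x, b x * χ d x) * (∑ w, c w * χ d w) := by
  have e : ∀ d, (∑ y, a y * χ d y) * (∑ x, b x * χ d x) * (∑ w, c w * χ d w) =
      ∑ x, ∑ y, a y * b x * ((∑ w, c w * χ d w) * χ d (x + y)) := by
    intro d
    rw [mul_comm (∑ y, a y * χ d y), sum_mul_sum, sum_mul]
    refine sum_congr rfl fun x _ => ?_
    rw [sum_mul]
    refine sum_congr rfl fun y _ => ?_
    rw [h.mul]; ring
  simp only [e, expect_sum_comm, ← mul_expect, h.inv]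

lemma IsChar.corr (h : IsChar χ) (f : G → ℝ) (g : G) :
    ∑ x, f x * f (x + g) = 𝔼 d, (∑ x, f x * χ d x) ^ 2 * χ d g := by
  have e : ∀ d, (∑ x, f x * χ d x) ^ 2 * χ d g =
      ∑ x, f x * ((∑ w, f w * χ d w) * χ d (x + g)) := by
    intro d
    rw [sq, mul_assoc, sum_mul]
    refine sum_congr rfl fun x _ => ?_
    rw [h.mul]; ring
  simp only [e, expect_sum_comm, ← mul_expect, h.inv]

lemma IsChar.parseval (h : IsChar χ) (f : G → ℝ) :
    𝔼 d, (∑ x, f x * χ d x) ^ 2 = ∑ x, f x ^ 2 := by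
  have := h.corr f 0
  simp only [add_zero, h.zero, mul_one, ← sq] at this
  exact this.symm

lemma IsChar.parseval_le (h : IsChar χ) (f : G → ℝ) (hf : ∀ x, |f x| ≤ 1) :
    𝔼 d, (∑ x, f x * χ d x) ^ 2 ≤ Fintype.card G := by
  rw [h.parseval]
  calc ∑ x, f x ^ 2 ≤ ∑ _x : G, (1 : ℝ) :=
        sum_le_sum fun x _ => (sq_le_one_iff_abs_le_one _).2 (hf x)
    _ = _ := by simp

lemma IsChar.psd (h : IsChar χ) {A B : Type} [Fintype A] [Fintype B] (g1 : A → G) (g2 : B → G)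
    (δ C : ℝ) (hd : ∀ d, 𝔼 i, χ d (g1 i) ≤ δ + C * 𝔼 j, χ d (g2 j)) (f : G → ℝ) :
    𝔼 x, 𝔼 i, f x * f (x + g1 i) ≤ δ * (𝔼 x, f x ^ 2) + C * 𝔼 x, 𝔼 j, f x * f (x + g2 j) := by
  have key : ∑ x, 𝔼 i, f x * f (x + g1 i) ≤
      δ * (∑ x, f x ^ 2) + C * ∑ x, 𝔼 j, f x * f (x + g2 j) := by
    rw [← expect_sum_comm, ← expect_sum_comm, ← h.parseval]
    simp only [h.corr]
    rw [expect_comm, expect_comm univ univ fun j d => (∑ x, f x * χ d x) ^ 2 * χ d (g2 j),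
      mul_expect, mul_expect, ← expect_add_distrib]
    refine expect_le_expect fun d _ => ?_
    rw [← mul_expect, ← mul_expect]
    have := mul_le_mul_of_nonneg_left (hd d) (sq_nonneg (∑ x, f x * χ d x))
    linarith
  have hN : (0 : ℝ) < Fintype.card G := by exact_mod_cast Fintype.card_pos
  simp only [Fintype.expect_eq_sum_div_card (ι := G)]
  rw [← mul_div_assoc, ← mul_div_assoc, ← add_div]
  exact div_le_div_of_nonneg_right key hN.le

lemma IsChar.bound3 (h : IsChar χ) (a b c : G → ℝ) (B : ℝ) (ha : ∀ x, |a x| ≤ 1)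
    (hc : ∀ x, |c x| ≤ 1) (hb : ∀ d, |𝔼 x, b x * χ d x| ≤ B) :
    𝔼 x, 𝔼 y, a y * b x * c (x + y) ≤ B := by
  have hN : (0 : ℝ) < Fintype.card G := by exact_mod_cast Fintype.card_pos
  have hB : 0 ≤ B := (abs_nonneg _).trans (hb (Classical.arbitrary D))
  have key : ∑ x, ∑ y, a y * b x * c (x + y) ≤ B * Fintype.card G * Fintype.card G := by
    rw [h.triple]
    have h1 := h.parseval_le a ha
    have h2 := h.parseval_le c hc
    calc _ ≤ 𝔼 d, B * Fintype.card G / 2 *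
          ((∑ x, a x * χ d x) ^ 2 + (∑ x, c x * χ d x) ^ 2) := by
          refine expect_le_expect fun d _ => ?_
          have h3 := hb d
          rw [Fintype.expect_eq_sum_div_card, abs_div, abs_of_pos hN, div_le_iff₀ hN,
            abs_le] at h3
          generalize ∑ x, a x * χ d x = s at *
          generalize ∑ x, b x * χ d x = t at *
          generalize ∑ x, c x * χ d x = r at *
          generalize B * Fintype.card G = R at *
          nlinarith [mul_nonneg (sub_nonneg.2 h3.2) (sq_nonneg (s + r)),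
            mul_nonneg (sub_nonneg.2 h3.1) (sq_nonneg (s - r))]
      _ ≤ _ := by
          rw [← mul_expect, expect_add_distrib]
          have : 0 ≤ B * Fintype.card G := by positivity
          nlinarith
  simp only [Fintype.expect_eq_sum_div_card, ← sum_div]
  rw [div_div, div_le_iff₀ (by positivity)]
  linarith

end

lemma coll3 {ι : Type} [Fintype ι] [DecidableEq ι] (p q r : (ι → ZMod 2) → ℝ) :
    ∑ u, p u * q u * r u = 𝔼 φ : ι → ZMod 2, 𝔼 ψ : ι → ZMod 2,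
      (∑ u, p u * sg (φ ⬝ᵥ u)) * (∑ u, q u * sg (ψ ⬝ᵥ u)) * ∑ u, r u * sg ((φ + ψ) ⬝ᵥ u) := by
  have e : ∀ φ ψ : ι → ZMod 2,
      (∑ u, p u * sg (φ ⬝ᵥ u)) * (∑ u, q u * sg (ψ ⬝ᵥ u)) * ∑ u, r u * sg ((φ + ψ) ⬝ᵥ u) =
      ∑ w, r w * ((∑ u, p u * sg (φ ⬝ᵥ u)) * sg (φ ⬝ᵥ w)) *
        ((∑ u, q u * sg (ψ ⬝ᵥ u)) * sg (ψ ⬝ᵥ w)) := by
    intro φ ψ
    rw [mul_sum]
    refine sum_congr rfl fun w _ => ?_
    rw [add_dotProduct, sg_add]; ring
  simp only [e, expect_sum_comm, ← mul_expect, ← expect_mul, (isChar_dot ι).inv]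
  exact sum_congr rfl fun u _ => by ring

lemma cube_le {X : Type} [Fintype X] (A : X → X → ℝ) :
    (𝔼 x, 𝔼 y, 𝔼 z, A x y * A y z * A x z) ^ 2 ≤ (𝔼 x, 𝔼 y, A x y ^ 2) ^ 3 := by
  have e1 : 𝔼 x, 𝔼 y, 𝔼 z, A x y * A y z * A x z =
      𝔼 p : X × X, (𝔼 y, A p.1 y * A y p.2) * A p.1 p.2 := by
    rw [← univ_product_univ, expect_product]
    refine expect_congr rfl fun x _ => ?_
    rw [expect_comm]
    simp only [expect_mul]
  have e2 : 𝔼 x, 𝔼 y, A x y ^ 2 = 𝔼 p : X × X, A p.1 p.2 ^ 2 := by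
    rw [← univ_product_univ, expect_product]
  have e3 : 𝔼 p : X × X, (𝔼 y, A p.1 y * A y p.2) ^ 2 ≤ (𝔼 x, 𝔼 y, A x y ^ 2) ^ 2 := by
    calc _ ≤ 𝔼 p : X × X, (𝔼 y, A p.1 y ^ 2) * 𝔼 y, A y p.2 ^ 2 :=
          expect_le_expect fun p _ => expect_mul_sq_le_sq_mul_sq _ _ _
      _ = _ := by
          rw [← univ_product_univ, expect_product]
          simp only [← mul_expect, ← expect_mul]
          rw [expect_comm univ univ fun z y => A y z ^ 2, sq]
  have h0 : 0 ≤ 𝔼 x, 𝔼 y, A x y ^ 2 :=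
    expect_nonneg fun _ _ => expect_nonneg fun _ _ => sq_nonneg _
  rw [e1]
  refine (expect_mul_sq_le_sq_mul_sq _ _ _).trans ?_
  rw [← e2, pow_succ _ 2]
  exact mul_le_mul_of_nonneg_right e3 h0

lemma twisted {ι : Type} [Fintype ι] [DecidableEq ι] (α : (ι → ZMod 2) → (ι → ZMod 2) → ℝ)
    (hα : ∀ φ κ, |α φ κ| ≤ 1) :
    𝔼 κ, 𝔼 μ, 𝔼 φ, 𝔼 ψ, α φ κ * α ψ μ * α (φ + ψ) (κ + μ) * sg (ψ ⬝ᵥ κ) ≤
      1 / Real.sqrt (Fintype.card (ι → ZMod 2)) := by
  have hc := isChar_dot ι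
  set N : ℝ := ((Fintype.card (ι → ZMod 2) : ℕ) : ℝ) with hNdef
  have hN : 0 < N := by rw [hNdef]; exact_mod_cast Fintype.card_pos
  set A : (ι → ZMod 2) → (ι → ZMod 2) → ℝ := fun x y => ∑ φ, α φ (x + y) * sg (x ⬝ᵥ φ) with hA
  have h2 : 𝔼 x, 𝔼 y, A x y ^ 2 ≤ N := by
    have : ∀ x, 𝔼 y, A x y ^ 2 = 𝔼 κ, (∑ φ, α φ κ * sg (x ⬝ᵥ φ)) ^ 2 := fun x => by
      rw [← exp_add (fun κ => (∑ φ, α φ κ * sg (x ⬝ᵥ φ)) ^ 2) x]
      simp only [hA, add_comm]
    simp only [this]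
    rw [expect_comm]
    exact expect_le univ_nonempty fun κ _ => hc.parseval_le _ fun φ => hα φ κ
  have h3 : 𝔼 x, 𝔼 y, 𝔼 z, A x y * A y z * A x z =
      (𝔼 κ, 𝔼 μ, 𝔼 φ, 𝔼 ψ, α φ κ * α ψ μ * α (φ + ψ) (κ + μ) * sg (ψ ⬝ᵥ κ)) * N ^ 2 := by
    have e : ∀ x, 𝔼 y, 𝔼 z, A x y * A y z * A x z = 𝔼 κ, 𝔼 μ,
        (∑ φ, α φ κ * sg (x ⬝ᵥ φ)) * (∑ ψ, α ψ μ * sg (ψ ⬝ᵥ κ) * sg (x ⬝ᵥ ψ)) *
          ∑ θ, α θ (κ + μ) * sg (x ⬝ᵥ θ) := fun x => by
      rw [← exp_add (fun y => 𝔼 z, A x y * A y z * A x z) x]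
      refine expect_congr rfl fun κ _ => ?_
      rw [← exp_add (fun z => A x (κ + x) * A (κ + x) z * A x z) (κ + x)]
      refine expect_congr rfl fun μ _ => ?_
      have a1 : x + (κ + x) = κ := by rw [add_comm κ, ← add_assoc, two_mod, zero_add]
      have a2 : κ + x + (μ + (κ + x)) = μ := by rw [add_comm μ, ← add_assoc, two_mod, zero_add]
      have a3 : x + (μ + (κ + x)) = κ + μ := by rw [add_left_comm, a1, add_comm]
      simp only [hA, a1, a2, a3, add_dotProduct, sg_add, dotProduct_comm κ, mul_assoc]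
    simp only [e]
    rw [expect_comm, expect_mul]
    refine expect_congr rfl fun κ _ => ?_
    rw [expect_comm, expect_mul]
    refine expect_congr rfl fun μ _ => ?_
    rw [← hc.triple, sum_comm]
    simp only [Fintype.expect_eq_sum_div_card, ← sum_div, ← hNdef]
    rw [div_div, ← sq, div_mul_cancel₀ _ (by positivity)]
    refine sum_congr rfl fun φ _ => sum_congr rfl fun ψ _ => ?_
    rw [add_comm ψ]; ring
  have h4 := cube_le A
  rw [h3] at h4
  generalize 𝔼 κ, 𝔼 μ, 𝔼 φ, 𝔼 ψ, α φ κ * α ψ μ * α (φ + ψ) (κ + μ) * sg (ψ ⬝ᵥ κ) = s at *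
  have h0 : 0 ≤ 𝔼 x, 𝔼 y, A x y ^ 2 :=
    expect_nonneg fun _ _ => expect_nonneg fun _ _ => sq_nonneg _
  have h5 : (s * N ^ 2) ^ 2 ≤ N ^ 3 := h4.trans (pow_le_pow_left₀ h0 h2 3)
  have h6 : s ^ 2 ≤ 1 / N := by
    rw [le_div_iff₀ hN]
    have : s ^ 2 * N * N ^ 3 ≤ 1 * N ^ 3 := by nlinarith
    exact le_of_mul_le_mul_right this (by positivity)
  rw [← Real.sqrt_one, ← Real.sqrt_div zero_le_one]
  exact Real.le_sqrt_of_sq_le h6

lemma amgm4 {a b c : ℝ} (d : ℝ) (ha : 0 < a) (hb : 0 < b) (hc : 0 < c) :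
    4 * d ^ 3 ≤ a * b * c + d ^ 4 / a + d ^ 4 / b + d ^ 4 / c := by
  have hp : a * b * c * (d ^ 4 / a) * ((d ^ 4 / b) * (d ^ 4 / c)) = d ^ 12 := by
    field_simp
  have hu : 0 ≤ a * b * c := by positivity
  have hv : 0 ≤ d ^ 4 / a := by positivity
  have hw : 0 ≤ d ^ 4 / b := by positivity
  have hz : 0 ≤ d ^ 4 / c := by positivity
  generalize a * b * c = u at *
  generalize d ^ 4 / a = v at *
  generalize d ^ 4 / b = w at *
  generalize d ^ 4 / c = z at *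
  have h1 : 4 * (u * v) ≤ (u + v) ^ 2 := by nlinarith [sq_nonneg (u - v)]
  have h2 : 4 * (w * z) ≤ (w + z) ^ 2 := by nlinarith [sq_nonneg (w - z)]
  have h3 : 4 * ((u + v) * (w + z)) ≤ (u + v + w + z) ^ 2 := by
    nlinarith [sq_nonneg (u + v - w - z)]
  have h4 := mul_le_mul h1 h2 (by positivity) (by positivity)
  have h5 := pow_le_pow_left₀ (by positivity) h3 2
  refine le_of_pow_le_pow_left₀ (n := 4) (by norm_num) (by positivity) ?_
  nlinarith

lemma box {X : Type} [AddCommGroup X] [Fintype X] (two : ∀ x : X, x + x = 0) (P : X → X → ℝ)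
    (h0 : ∀ x y, 0 ≤ P x y) (h1 : ∀ x y, P x y ≤ 1) :
    (𝔼 x, 𝔼 y, P x y) ^ 4 ≤
      𝔼 x, 𝔼 y, (𝔼 s, P s y) * (𝔼 t, P x t) * 𝔼 s, P s (s + (x + y)) := by
  set d := 𝔼 x, 𝔼 y, P x y with hd
  set a : X → ℝ := fun y => 𝔼 s, P s y with ha
  set b : X → ℝ := fun x => 𝔼 t, P x t with hb
  set c : X → ℝ := fun w => 𝔼 s, P s (s + w) with hc
  have d0 : 0 ≤ d := expect_nonneg fun _ _ => expect_nonneg fun _ _ => h0 _ _
  have pt : ∀ x y, 4 * d ^ 3 * P x y ≤ a y * b x * c (x + y) + d ^ 4 * (P x y / a y) +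
      d ^ 4 * (P x y / b x) + d ^ 4 * (P x y / c (x + y)) := by
    intro x y
    have hu : 0 ≤ a y * b x * c (x + y) :=
      mul_nonneg (mul_nonneg (expect_nonneg fun _ _ => h0 _ _) (expect_nonneg fun _ _ => h0 _ _))
        (expect_nonneg fun _ _ => h0 _ _)
    rcases (h0 x y).eq_or_lt with h | h
    · rw [← h]; simpa using hu
    have a0 : 0 < a y := expect_pos' (fun _ _ => h0 _ _) ⟨x, mem_univ _, h⟩
    have b0 : 0 < b x := expect_pos' (fun _ _ => h0 _ _) ⟨y, mem_univ _, h⟩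
    have c0 : 0 < c (x + y) := expect_pos' (fun _ _ => h0 _ _)
      ⟨x, mem_univ _, by rwa [← add_assoc, two, zero_add]⟩
    have h2 := mul_le_mul_of_nonneg_right (amgm4 d a0 b0 c0) h.le
    have h3 := mul_le_mul_of_nonneg_left (h1 x y) hu
    have e : (a y * b x * c (x + y) + d ^ 4 / a y + d ^ 4 / b x + d ^ 4 / c (x + y)) * P x y =
        a y * b x * c (x + y) * P x y + d ^ 4 * (P x y / a y) +
        d ^ 4 * (P x y / b x) + d ^ 4 * (P x y / c (x + y)) := by ring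
    linarith
  have ea : 𝔼 x, 𝔼 y, P x y / a y ≤ 1 := by
    rw [expect_comm]
    refine expect_le univ_nonempty fun y _ => ?_
    rw [← expect_div]; exact div_self_le_one _
  have eb : 𝔼 x, 𝔼 y, P x y / b x ≤ 1 := by
    refine expect_le univ_nonempty fun y _ => ?_
    rw [← expect_div]; exact div_self_le_one _
  have ec : 𝔼 x, 𝔼 y, P x y / c (x + y) ≤ 1 := by
    have : ∀ x, 𝔼 y, P x y / c (x + y) = 𝔼 w, P x (x + w) / c w := fun x => by
      rw [← exp_add (fun y => P x y / c (x + y)) x]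
      refine expect_congr rfl fun w _ => ?_
      rw [add_comm w, ← add_assoc, two, zero_add]
    simp only [this]
    rw [expect_comm]
    refine expect_le univ_nonempty fun y _ => ?_
    rw [← expect_div]; exact div_self_le_one _
  have tot : 𝔼 x, 𝔼 y, 4 * d ^ 3 * P x y ≤ 𝔼 x, 𝔼 y, (a y * b x * c (x + y) +
      d ^ 4 * (P x y / a y) + d ^ 4 * (P x y / b x) + d ^ 4 * (P x y / c (x + y))) :=
    expect_le_expect fun x _ => expect_le_expect fun y _ => pt x y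
  simp only [expect_add_distrib, ← mul_expect] at tot
  rw [← hd] at tot
  have d4 : 0 ≤ d ^ 4 := by positivity
  have := mul_le_mul_of_nonneg_left ea d4
  have := mul_le_mul_of_nonneg_left eb d4
  have := mul_le_mul_of_nonneg_left ec d4
  change d ^ 4 ≤ 𝔼 x, 𝔼 y, a y * b x * c (x + y)
  linarith

lemma tangent {U : Type} [Fintype U] (d : U → ℝ) (h0 : ∀ u, 0 ≤ d u) (h1 : ∑ u, d u = 1)
    {s : ℝ} (hs : 0 ≤ s) : 3 * s ^ 2 * ∑ u, d u ^ 2 - 2 * s ^ 3 ≤ ∑ u, d u ^ 4 := by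
  have : ∑ u, (3 * s ^ 2 * d u ^ 2 - 2 * s ^ 3 * d u) ≤ ∑ u, d u ^ 4 := by
    refine sum_le_sum fun u _ => ?_
    have := h0 u
    have : 0 ≤ d u * ((d u - s) ^ 2 * (d u + 2 * s)) := by positivity
    nlinarith
  rwa [sum_sub_distrib, ← mul_sum, ← mul_sum, h1, mul_one] at this

end Vale.Agent.P325.Inv
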