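import Vale.Agent.P325.LinFourier

/-! Decoding of strategies from tables with large bias. -/

namespace Vale.Agent.P325.Lin

open Finset
open scoped BigOperators

theorem derand {E X S : Type} [Fintype E] [Fintype S] [Nonempty S] (c : E → X) (w : E → S → ℝ)
    (hw : ∀ e s, 0 ≤ w e s) (p : X → S → ℝ) (hp : ∀ x s, 0 ≤ p x s) (hp1 : ∀ x, ∑ s, p x s ≤ 1) :
    ∃ f : X → S, ∑ e, ∑ s, p (c e) s * w e s ≤ ∑ e, w e (f (c e)) := by
  classical
  have h : ∀ x, ∃ s0, ∀ s, ∑ e ∈ univ.filter (fun e => c e = x), w e s ≤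
      ∑ e ∈ univ.filter (fun e => c e = x), w e s0 := fun x => by
    obtain ⟨s0, -, h⟩ := exists_max_image univ
      (fun s => ∑ e ∈ univ.filter (fun e => c e = x), w e s) univ_nonempty
    exact ⟨s0, fun s => h s (mem_univ s)⟩
  choose f hf using h
  refine ⟨f, ?_⟩
  have hm : ∀ e ∈ (univ : Finset E), c e ∈ univ.image c := fun e he => mem_image_of_mem c he
  rw [← sum_fiberwise_of_maps_to hm, ← sum_fiberwise_of_maps_to hm (fun e => w e (f (c e)))]
  refine sum_le_sum fun x _ => ?_
  have e1 : ∑ e ∈ univ.filter (fun e => c e = x), ∑ s, p (c e) s * w e s =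
      ∑ s, p x s * ∑ e ∈ univ.filter (fun e => c e = x), w e s := by
    rw [sum_comm]
    refine sum_congr rfl fun s _ => ?_
    rw [mul_sum]
    refine sum_congr rfl fun e he => ?_
    rw [(mem_filter.1 he).2]
  have e2 : ∑ e ∈ univ.filter (fun e => c e = x), w e (f (c e)) =
      ∑ e ∈ univ.filter (fun e => c e = x), w e (f x) :=
    sum_congr rfl fun e he => by rw [(mem_filter.1 he).2]
  rw [e1, e2]
  have h0 : 0 ≤ ∑ e ∈ univ.filter (fun e => c e = x), w e (f x) := sum_nonneg fun e _ => hw _ _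
  calc _ ≤ ∑ s, p x s * ∑ e ∈ univ.filter (fun e => c e = x), w e (f x) :=
        sum_le_sum fun s _ => mul_le_mul_of_nonneg_left (hf x s) (hp x s)
    _ = (∑ s, p x s) * ∑ e ∈ univ.filter (fun e => c e = x), w e (f x) := by rw [sum_mul]
    _ ≤ _ := mul_le_of_le_one_left h0 (hp1 x)

variable {ι κ : Type} [Fintype ι] [DecidableEq ι] [Fintype κ] [DecidableEq κ]

/-- A point of the support. -/
noncomputable def pick [Nonempty ι] (α : ι → ZMod 2) : ι :=
  Classical.epsilon fun a => α a = 1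

omit [Fintype ι] [DecidableEq ι] in
theorem pick_spec [Nonempty ι] {α : ι → ZMod 2} (h : α ≠ 0) : α (pick α) = 1 := by
  obtain ⟨a, ha⟩ := Function.ne_iff.1 h
  exact Classical.epsilon_spec (p := fun a => α a = 1) ⟨a, (z2_cases (α a)).resolve_left ha⟩

/-- The strategy of the prover with the small alphabet. -/
noncomputable def pA [Nonempty ι] (A : (ι → ZMod 2) → ℝ) (a : ι) : ℝ :=
  ∑ α, if pick α = a then coef A α ^ 2 else 0

/-- The strategy of the prover with the large alphabet. -/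
noncomputable def pB (B : (κ → ZMod 2) → ℝ) (b : κ) : ℝ :=
  ∑ β, if β b = 1 then coef B β ^ 2 / wt β else 0

theorem pA_nonneg [Nonempty ι] (A : (ι → ZMod 2) → ℝ) (a : ι) : 0 ≤ pA A a :=
  sum_nonneg fun _ _ => by split_ifs <;> positivity

theorem pB_nonneg (B : (κ → ZMod 2) → ℝ) (b : κ) : 0 ≤ pB B b :=
  sum_nonneg fun _ _ => by split_ifs <;> positivity

theorem sum_pA [Nonempty ι] (A : (ι → ZMod 2) → ℝ) (hA : ∀ f, A f ^ 2 = 1) :
    ∑ a, pA A a ≤ 1 := by
  unfold pA
  rw [sum_comm]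
  simp [parseval A hA]

theorem sum_pB (B : (κ → ZMod 2) → ℝ) (hB : ∀ f, B f ^ 2 = 1) : ∑ b, pB B b ≤ 1 := by
  unfold pB
  rw [sum_comm, ← parseval B hB]
  refine sum_le_sum fun β _ => ?_
  rw [← sum_filter, sum_const, nsmul_eq_mul]
  change (wt β : ℝ) * _ ≤ _
  by_cases h : (wt β : ℝ) = 0
  · rw [h, zero_mul]; positivity
  · rw [mul_div_cancel₀ _ h]

theorem edge_le [Nonempty ι] (π : κ → ι) (valid : κ → Prop) [DecidablePred valid]
    (A : (ι → ZMod 2) → ℝ) (B : (κ → ZMod 2) → ℝ) (hA : coef A 0 = 0)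
    (hB : ∀ β b, ¬ valid b → β b = 1 → coef B β = 0) :
    ∑ β, coef B β ^ 2 / wt β * coef A (push π β) ^ 2 ≤
      ∑ b, pB B b * (if valid b then pA A (π b) else 0) := by
  unfold pB
  simp only [sum_mul]
  rw [sum_comm]
  refine sum_le_sum fun β _ => ?_
  have hnn : ∀ b ∈ (univ : Finset κ), 0 ≤ (if β b = 1 then coef B β ^ 2 / wt β else 0) *
      (if valid b then pA A (π b) else 0) := fun b _ => by
    have := pA_nonneg A (π b)
    split_ifs <;> positivity
  by_cases h0 : push π β = 0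
  · rw [h0, hA]
    simpa using sum_nonneg hnn
  by_cases h1 : coef B β = 0
  · simp [h1]
  have h2 := pick_spec h0
  obtain ⟨b, -, hb⟩ := exists_ne_zero_of_sum_ne_zero (s := univ)
    (f := fun b => if π b = pick (push π β) then β b else 0) (by
      change push π β (pick (push π β)) ≠ 0
      rw [h2]; decide)
  have hb1 : π b = pick (push π β) := by
    by_contra h; simp [h] at hb
  have hb2 : β b = 1 := (z2_cases (β b)).resolve_left (by simpa [hb1] using hb)
  have hb3 : valid b := by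
    by_contra h; exact h1 (hB β b h hb2)
  refine le_trans ?_ (single_le_sum hnn (mem_univ b))
  rw [if_pos hb2, if_pos hb3]
  refine mul_le_mul_of_nonneg_left ?_ (by positivity)
  unfold pA
  refine le_trans ?_ (single_le_sum (f := fun α => if pick α = π b then coef A α ^ 2 else 0)
    (fun _ _ => by split_ifs <;> positivity) (mem_univ (push π β)))
  rw [if_pos hb1.symm]

theorem sound_core {E V U : Type} [Fintype E] [Nonempty E] [Nonempty ι] [Nonempty κ]
    (bob : E → V) (ali : E → U) (π : E → κ → ι) (valid : V → κ → Prop)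
    [∀ v, DecidablePred (valid v)] {n : ℕ} (hn : 2 ≤ n)
    (A : U → (ι → ZMod 2) → ℝ) (B : V → (κ → ZMod 2) → ℝ)
    (hA : ∀ u f, A u f ^ 2 = 1) (hA' : ∀ u f, A u (f + 1) = -A u f)
    (hB : ∀ v g, B v g ^ 2 = 1)
    (hB' : ∀ v g b, ¬ valid v b → B v (g + Pi.single b 1) = B v g) (η : ℝ)
    (hval : ∀ (F : V → κ) (G : U → ι),
      𝔼 e, (if valid (bob e) (F (bob e)) ∧ π e (F (bob e)) = G (ali e) then (1 : ℝ) else 0) ≤ η) :
    (𝔼 e, bias n (π e) (A (ali e)) (B (bob e))) ^ 2 ≤ n / 2 * η := by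
  have hc : (0 : ℝ) < Fintype.card E := by positivity
  have hA0 : ∀ u, coef (A u) 0 = 0 := fun u =>
    coef_eq_zero (A u) 1 0 (-1) (fun f => by rw [hA']; ring) (by simp [chi, sg_zero])
  have hB0 : ∀ v β b, ¬ valid v b → β b = 1 → coef (B v) β = 0 := fun v β b h1 h2 =>
    coef_eq_zero (B v) (Pi.single b 1) β 1 (fun g => by rw [hB' v g b h1, one_mul]) (by
      rw [one_mul, chi, prod_eq_single b (fun c _ hc => by simp [hc, sg_zero]) (by simp)]
      simp [h2, sg_one])
  obtain ⟨F, hF⟩ := derand bob (fun e b => if valid (bob e) b then pA (A (ali e)) (π e b) else 0)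
    (fun e b => by have := pA_nonneg (A (ali e)) (π e b); split_ifs <;> positivity)
    (fun v => pB (B v)) (fun v => pB_nonneg _) (fun v => sum_pB _ (hB v))
  obtain ⟨G, hG⟩ := derand ali
    (fun e a => if valid (bob e) (F (bob e)) ∧ π e (F (bob e)) = a then (1 : ℝ) else 0)
    (fun e a => by split_ifs <;> positivity)
    (fun u => pA (A u)) (fun u => pA_nonneg _) (fun u => sum_pA _ (hA u))
  have h1 : ∀ e, (if valid (bob e) (F (bob e)) then pA (A (ali e)) (π e (F (bob e))) else 0) =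
      ∑ a, pA (A (ali e)) a *
        (if valid (bob e) (F (bob e)) ∧ π e (F (bob e)) = a then (1 : ℝ) else 0) := by
    intro e
    by_cases h : valid (bob e) (F (bob e)) <;> simp [h]
  have h2 := hval F G
  rw [expect_eq_sum_div_card, card_univ, div_le_iff₀ hc] at h2
  have h3 : ∑ e, bias n (π e) (A (ali e)) (B (bob e)) ^ 2 ≤ n / 2 * (η * Fintype.card E) := by
    refine (sum_le_sum fun e _ => bias_sq_le hn (π e) (A (ali e)) (B (bob e)) (hB _)
      (hA0 _)).trans ?_
    rw [← mul_sum]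
    refine mul_le_mul_of_nonneg_left ?_ (by positivity)
    refine (sum_le_sum fun e _ => edge_le (π e) (valid (bob e)) _ _ (hA0 _) (hB0 _)).trans ?_
    refine hF.trans ?_
    simp only [h1]
    exact hG.trans h2
  have h4 := sq_sum_le_card_mul_sum_sq (s := univ)
    (f := fun e => bias n (π e) (A (ali e)) (B (bob e)))
  rw [expect_eq_sum_div_card, div_pow, card_univ, div_le_iff₀ (by positivity)]
  rw [card_univ] at h4
  refine h4.trans ((mul_le_mul_of_nonneg_left h3 hc.le).trans_eq (by ring))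

end Vale.Agent.P325.Lin
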