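import Vale.Agent.P325.Defs

/-! Fourier analysis on the cube and the bias of the test of Hastad. -/

namespace Vale.Agent.P325.Lin

open Finset
open scoped BigOperators

theorem z2_cases (x : ZMod 2) : x = 0 ∨ x = 1 := by revert x; decide

theorem sg_zero : sg 0 = 1 := by simp [sg]

theorem sg_one : sg 1 = -1 := by simp [sg]

theorem sg_add (x y : ZMod 2) : sg (x + y) = sg x * sg y := by
  have h : (1 : ZMod 2) + 1 = 0 := by decide
  rcases z2_cases x with rfl | rfl <;> rcases z2_cases y with rfl | rfl <;>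
    simp [sg_zero, sg_one, h]

theorem sg_sq (x : ZMod 2) : sg x ^ 2 = 1 := by
  rcases z2_cases x with rfl | rfl <;> simp [sg_zero, sg_one]

theorem sg_sum {κ : Type} (s : Finset κ) (f : κ → ZMod 2) :
    sg (∑ i ∈ s, f i) = ∏ i ∈ s, sg (f i) := by
  classical
  induction s using Finset.induction_on with
  | empty => simp [sg_zero]
  | insert a s ha ih => rw [sum_insert ha, prod_insert ha, sg_add, ih]

theorem sum_z2 (f : ZMod 2 → ℝ) : ∑ x, f x = f 0 + f 1 := by
  have h : (univ : Finset (ZMod 2)) = {0, 1} := by decide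
  rw [h, sum_pair (by decide)]

variable {ι : Type} [Fintype ι] [DecidableEq ι]

/-- The characters of the cube. -/
noncomputable def chi (β g : ι → ZMod 2) : ℝ := ∏ i, sg (β i * g i)

omit [DecidableEq ι] in
theorem chi_add (β g h : ι → ZMod 2) : chi β (g + h) = chi β g * chi β h := by
  simp [chi, mul_add, sg_add, prod_mul_distrib]

omit [DecidableEq ι] in
theorem chi_comm (β g : ι → ZMod 2) : chi β g = chi g β := by
  simp [chi, mul_comm]

theorem sum_chi (β : ι → ZMod 2) :
    ∑ g, chi β g = if β = 0 then (Fintype.card (ι → ZMod 2) : ℝ) else 0 := by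
  split_ifs with h
  · subst h; simp [chi, sg_zero]
  · unfold chi
    rw [← Fintype.prod_sum (fun i (x : ZMod 2) => sg (β i * x))]
    obtain ⟨i, hi⟩ := Function.ne_iff.1 h
    refine prod_eq_zero (mem_univ i) ?_
    rcases z2_cases (β i) with h0 | h1
    · exact absurd h0 hi
    · rw [sum_z2, h1]; simp [sg_zero, sg_one]

/-- Fourier coefficients. -/
noncomputable def coef (F : (ι → ZMod 2) → ℝ) (β : ι → ZMod 2) : ℝ := 𝔼 g, F g * chi β g

omit [Fintype ι] [DecidableEq ι] in
theorem add_eq_zero_iff_eq (g h : ι → ZMod 2) : g + h = 0 ↔ h = g := by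
  constructor
  · intro e
    funext i
    have := congrFun e i
    simp only [Pi.add_apply, Pi.zero_apply] at this
    revert this
    generalize g i = x
    generalize h i = y
    revert x y
    decide
  · rintro rfl
    funext i
    simp only [Pi.add_apply, Pi.zero_apply]
    generalize h i = y
    revert y
    decide

theorem inversion (F : (ι → ZMod 2) → ℝ) (g : ι → ZMod 2) : ∑ β, coef F β * chi β g = F g := by
  have hc : (Fintype.card (ι → ZMod 2) : ℝ) ≠ 0 := by positivity
  simp only [coef, expect_eq_sum_div_card, card_univ, div_mul_eq_mul_div, sum_mul]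
  rw [← sum_div, sum_comm, div_eq_iff hc]
  have h : ∀ h : ι → ZMod 2, ∑ β, F h * chi β h * chi β g =
      if h = g then F g * Fintype.card (ι → ZMod 2) else 0 := by
    intro h
    simp only [mul_assoc, ← chi_add, ← mul_sum]
    simp only [chi_comm _ (h + g), sum_chi, add_eq_zero_iff_eq]
    by_cases e : h = g
    · simp [e]
    · simp [e, Ne.symm e]
  simp [h]

theorem conv (F : (ι → ZMod 2) → ℝ) (h : ι → ZMod 2) :
    𝔼 g, F g * F (g + h) = ∑ β, coef F β ^ 2 * chi β h := by
  have e : ∀ g, F g * F (g + h) = ∑ β, F g * chi β g * (coef F β * chi β h) := by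
    intro g
    rw [← inversion F (g + h), mul_sum]
    refine sum_congr rfl fun β _ => ?_
    rw [chi_add]; ring
  simp only [e, expect_sum_comm, ← expect_mul]
  refine sum_congr rfl fun β _ => ?_
  rw [← coef]; ring

theorem parseval (F : (ι → ZMod 2) → ℝ) (hF : ∀ g, F g ^ 2 = 1) : ∑ β, coef F β ^ 2 = 1 := by
  have h := conv F 0
  simp only [add_zero, ← sq, hF] at h
  simpa [chi, sg_zero] using h.symm

/-- A function that changes by the sign `s` under a shift has no coefficient at characters that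
change by the other sign. -/
theorem coef_eq_zero (F : (ι → ZMod 2) → ℝ) (h β : ι → ZMod 2) (s : ℝ)
    (hF : ∀ g, F (g + h) = s * F g) (hs : s * chi β h = -1) : coef F β = 0 := by
  have e : coef F β = 𝔼 g, F (g + h) * chi β (g + h) :=
    (Fintype.expect_equiv (Equiv.addRight h) _ _ fun g => by simp).symm
  have e2 : ∀ g, F (g + h) * chi β (g + h) = -(F g * chi β g) := by
    intro g
    rw [hF, chi_add]
    linear_combination (F g * chi β g) * hs
  simp only [e2, expect_neg_distrib] at e
  rw [← coef] at e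
  linarith

variable {κ : Type} [Fintype κ] [DecidableEq κ]

/-- Push forward of a character along a projection. -/
def push (π : κ → ι) (β : κ → ZMod 2) : ι → ZMod 2 := fun a => ∑ b, if π b = a then β b else 0

omit [DecidableEq κ] in
theorem chi_comp (π : κ → ι) (β : κ → ZMod 2) (f : ι → ZMod 2) :
    chi β (fun b => f (π b)) = chi (push π β) f := by
  unfold chi push
  rw [← sg_sum, ← sg_sum]
  simp only [sum_mul, ite_mul, zero_mul]
  rw [sum_comm]
  simp

/-- The noise. -/
def noise {n : ℕ} (ω : κ → Fin n) : κ → ZMod 2 := fun b => if (ω b : ℕ) = 0 then 1 else 0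

/-- Size of the support. -/
def wt (β : κ → ZMod 2) : ℕ := (univ.filter fun b => β b = 1).card

theorem sum_fin_ite {n : ℕ} (hn : 0 < n) (x y : ℝ) :
    ∑ w : Fin n, (if (w : ℕ) = 0 then x else y) = x + (n - 1) * y := by
  obtain ⟨m, rfl⟩ : ∃ m, n = m + 1 := ⟨n - 1, by omega⟩
  rw [Fin.sum_univ_succ]
  simp

theorem expect_noise {n : ℕ} (hn : 0 < n) (β : κ → ZMod 2) :
    𝔼 ω : κ → Fin n, chi β (noise ω) = (1 - 2 / (n : ℝ)) ^ wt β := by
  have hn' : (n : ℝ) ≠ 0 := by positivity
  unfold chi noise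
  rw [expect_eq_sum_div_card,
    ← Fintype.prod_sum (fun b (w : Fin n) => sg (β b * if (w : ℕ) = 0 then 1 else 0))]
  have e : ∀ b, ∑ w : Fin n, sg (β b * if (w : ℕ) = 0 then 1 else 0) =
      (if β b = 1 then 1 - 2 / (n : ℝ) else 1) * n := by
    intro b
    rcases z2_cases (β b) with h | h
    · simp [h, sg_zero]
    · simp only [h, one_mul, apply_ite sg, sg_zero, sg_one, sum_fin_ite hn, if_true]
      field_simp
      ring
  simp only [e, prod_mul_distrib, prod_const, card_univ, Fintype.card_pi, Fintype.card_fin,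
    Nat.cast_pow]
  rw [mul_div_assoc, div_self (by positivity), mul_one, prod_ite]
  simp [wt]

/-- The bias of the test. -/
noncomputable def bias (n : ℕ) (π : κ → ι) (A : (ι → ZMod 2) → ℝ) (B : (κ → ZMod 2) → ℝ) : ℝ :=
  𝔼 f : ι → ZMod 2, 𝔼 ω : κ → Fin n, 𝔼 g : κ → ZMod 2,
    A f * (B g * B (g + ((fun b => f (π b)) + noise ω)))

theorem bias_eq {n : ℕ} (hn : 0 < n) (π : κ → ι) (A : (ι → ZMod 2) → ℝ) (B : (κ → ZMod 2) → ℝ) :
    bias n π A B = ∑ β, coef B β ^ 2 * (coef A (push π β) * (1 - 2 / (n : ℝ)) ^ wt β) := by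
  unfold bias
  simp only [← mul_expect, conv, chi_add, chi_comp, expect_sum_comm, expect_noise hn, mul_sum]
  refine sum_congr rfl fun β _ => ?_
  generalize coef B β = c
  rw [coef, expect_mul, mul_expect]
  refine expect_congr rfl fun f _ => ?_
  ring

theorem pow_le_inv {x : ℝ} (h0 : 0 ≤ x) (h1 : x ≤ 1) (k : ℕ) : (1 - x) ^ k * (k * x) ≤ 1 := by
  have h2 : 1 + k * x ≤ (1 + x) ^ k := one_add_mul_le_pow (by linarith) k
  have h3 : 0 ≤ (1 - x) ^ k := pow_nonneg (by linarith) k
  have h4 : (1 - x) ^ k * (1 + x) ^ k ≤ 1 := by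
    rw [← mul_pow]
    exact pow_le_one₀ (by nlinarith) (by nlinarith)
  nlinarith

theorem bias_sq_le {n : ℕ} (hn : 2 ≤ n) (π : κ → ι) (A : (ι → ZMod 2) → ℝ)
    (B : (κ → ZMod 2) → ℝ) (hB : ∀ g, B g ^ 2 = 1) (hA : coef A 0 = 0) :
    bias n π A B ^ 2 ≤ n / 2 * ∑ β, coef B β ^ 2 / wt β * coef A (push π β) ^ 2 := by
  have hn0 : (2 : ℝ) ≤ n := by exact_mod_cast hn
  rw [bias_eq (by omega)]
  have h1 := sum_mul_sq_le_sq_mul_sq univ (fun β => coef B β)
    (fun β => coef B β * (coef A (push π β) * (1 - 2 / (n : ℝ)) ^ wt β))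
  rw [parseval B hB, one_mul] at h1
  have e : ∑ β, coef B β ^ 2 * (coef A (push π β) * (1 - 2 / (n : ℝ)) ^ wt β) =
      ∑ β, coef B β * (coef B β * (coef A (push π β) * (1 - 2 / (n : ℝ)) ^ wt β)) :=
    sum_congr rfl fun β _ => by ring
  rw [e]
  refine h1.trans ?_
  rw [mul_sum]
  refine sum_le_sum fun β _ => ?_
  by_cases hw : wt β = 0
  · have hβ : push π β = 0 := by
      funext a
      refine sum_eq_zero fun b _ => ?_
      have := card_eq_zero.1 hw
      have hb : β b ≠ 1 := fun h => by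
        have h' : b ∈ univ.filter fun b => β b = 1 := by simp [h]
        rw [this] at h'
        simp at h'
      rcases z2_cases (β b) with h | h
      · simp [h]
      · exact absurd h hb
    simp [hβ, hA]
  · have hw' : (0 : ℝ) < wt β := by positivity
    have hx0 : (0 : ℝ) ≤ 2 / n := by positivity
    have hx1 : 2 / (n : ℝ) ≤ 1 := by rw [div_le_one (by linarith)]; exact hn0
    have h2 := pow_le_inv hx0 hx1 (wt β)
    have h3 : 0 ≤ (1 - 2 / (n : ℝ)) ^ wt β := pow_nonneg (by linarith) _
    have h4 : (1 - 2 / (n : ℝ)) ^ wt β ≤ 1 := pow_le_one₀ (by linarith) (by linarith)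
    have h5 : (1 - 2 / (n : ℝ)) ^ wt β ≤ n / 2 / wt β := by
      rw [le_div_iff₀ hw', le_div_iff₀ (by norm_num)]
      have e2 : (wt β : ℝ) * (2 / n) = wt β * 2 / n := by ring
      rw [e2, ← mul_div_assoc, div_le_one (by linarith)] at h2
      linarith
    generalize (1 - 2 / (n : ℝ)) ^ wt β = r at *
    have h6 : r ^ 2 ≤ n / 2 / wt β := by nlinarith
    calc (coef B β * (coef A (push π β) * r)) ^ 2
        = coef B β ^ 2 * coef A (push π β) ^ 2 * r ^ 2 := by ring
      _ ≤ coef B β ^ 2 * coef A (push π β) ^ 2 * (n / 2 / wt β) := by gcongr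
      _ = _ := by ring

end Vale.Agent.P325.Lin
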