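import Vale.Agent.P325.Defs

/-! Tools for polynomial-time functions: finite lookups, tuples, arithmetic. -/

namespace Vale.Agent.P325

open Vale.Agent.Lib.PolyTime

/-- A code for any finite type. -/
@[reducible] noncomputable def finEnc (β : Type) [Fintype β] : Enc β :=
  ⟨fun b => (Fintype.equivFin β b : ℕ), fun _ => Fintype.card β,
    fun b => (sz_nat_le _).trans (Fintype.equivFin β b).2.le,
    fun _ _ h => (Fintype.equivFin β).injective (Fin.ext h)⟩

section Lookup

variable {α β γ : Type} [Enc α] [Enc β] [Enc γ]

/-- Case distinction along a function with values in a fixed list. -/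
theorem pt_cases_list {g : α → β} (hg : PT g) (F : β → α → γ) (D : α → γ) (hD : PT D)
    (s : List β) (hF : ∀ b ∈ s, PT (F b)) :
    PT fun a => open Classical in if g a ∈ s then F (g a) a else D a := by
  classical
  induction s with
  | nil => exact hD.congr fun a => by simp
  | cons b s ih =>
    have h1 := ih fun c hc => hF c (List.mem_cons_of_mem _ hc)
    have h2 := hF b List.mem_cons_self
    have h3 := PT.ite (p := fun a => g a = b) (PT.eq hg (PT.const b)) h2 h1
    refine h3.congr fun a => ?_
    by_cases h : g a = b
    · simp [h]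
    · simp [h]

/-- Case distinction along a function with finite range. -/
theorem pt_cases_range {g : α → β} (hg : PT g) (s : Set β) (hs : s.Finite) (h : ∀ a, g a ∈ s)
    (F : β → α → γ) (hF : ∀ b ∈ s, PT (F b)) : PT fun a => F (g a) a := by
  classical
  by_cases he : Nonempty α
  · obtain ⟨a0⟩ := he
    have h1 := pt_cases_list hg F (F (g a0)) (hF _ (h a0)) hs.toFinset.toList
      fun b hb => hF b (by simpa using hb)
    refine h1.congr fun a => ?_
    rw [if_pos (by simpa using h a)]
  · obtain ⟨h1, p, T, hT, hp⟩ := PT.id (α := α)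
    exact ⟨h1.of_le fun a => (he ⟨a⟩).elim, p, T, hT, fun a => (he ⟨a⟩).elim⟩

/-- Case distinction along a function into a finite type. -/
theorem pt_cases [Finite β] {g : α → β} (hg : PT g) (F : β → α → γ) (hF : ∀ b, PT (F b)) :
    PT fun a => F (g a) a :=
  pt_cases_range hg Set.univ Set.finite_univ (fun _ => trivial) F fun b _ => hF b

/-- An arbitrary function of a value from a finite set. -/
theorem pt_of_finite_range {g : α → β} (hg : PT g) (s : Set β) (hs : s.Finite)
    (h : ∀ a, g a ∈ s) (F : β → γ) : PT fun a => F (g a) :=
  pt_cases_range hg s hs h (fun b _ => F b) fun b _ => PT.const (F b)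

/-- An arbitrary function of a value from a finite type. -/
theorem pt_finite [Finite β] {g : α → β} (hg : PT g) (F : β → γ) : PT fun a => F (g a) :=
  pt_cases hg (fun b _ => F b) fun b => PT.const (F b)

/-- A map along a fixed list of templates (no code for the templates is needed). -/
theorem pt_map_const {τ : Type*} (c : List τ) (F : α → τ → γ) (hF : ∀ t ∈ c, PT fun a => F a t) :
    PT fun a => c.map (F a) := by
  induction c with
  | nil => exact PT.const []
  | cons t c ih =>
    exact PT.cons (hF t List.mem_cons_self) (ih fun s hs => hF s (List.mem_cons_of_mem _ hs))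

/-- A concatenation along a fixed list of templates. -/
theorem pt_flatMap_const [Inhabited γ] {τ : Type*} (c : List τ) (F : α → τ → List γ)
    (hF : ∀ t ∈ c, PT fun a => F a t) : PT fun a => c.flatMap (F a) :=
  (PT.flatten (pt_map_const c F hF)).congr fun _ => List.flatMap_def

/-- A list of fixed length given by its entries. -/
theorem pt_ofFn {n : ℕ} (F : α → Fin n → γ) (hF : ∀ i, PT fun a => F a i) :
    PT fun a => List.ofFn (F a) :=
  (pt_map_const (List.finRange n) F fun i _ => hF i).congr fun _ => List.ofFn_eq_map

/-- A value in a finite type that is determined by finitely many values in a finite type. -/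
theorem pt_finite_fun {ι : Type} [Fintype ι] [Finite β] (g : α → ι → β)
    (hg : ∀ i, PT fun a => g a i) (F : (ι → β) → α → γ) (hF : ∀ b, PT (F b)) :
    PT fun a => F (g a) a := by
  classical
  have h1 := pt_map_const (Finset.univ : Finset ι).toList g fun i _ => hg i
  by_cases he : Nonempty α
  · obtain ⟨a0⟩ := he
    let e : (ι → β) → List β := fun b => (Finset.univ : Finset ι).toList.map b
    have hi : Function.Injective e := fun b b' h =>
      funext fun i => List.map_inj_left.1 h i (by simp)
    have : Nonempty (ι → β) := ⟨g a0⟩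
    have h2 := pt_cases_range h1 (Set.range e) (Set.finite_range e) (fun a => ⟨g a, rfl⟩)
      (fun l => F (Function.invFun e l)) fun l _ => hF _
    exact h2.congr fun a => by rw [Function.leftInverse_invFun hi (g a)]
  · obtain ⟨h1, p, T, hT, hp⟩ := PT.id (α := α)
    exact ⟨h1.of_le fun a => (he ⟨a⟩).elim, p, T, hT, fun a => (he ⟨a⟩).elim⟩

theorem pt_forall {ι : Type} [Fintype ι] (p : α → ι → Prop) (hp : ∀ i, PT fun a => p a i) :
    PT fun a => ∀ i, p a i :=
  pt_finite_fun p hp (fun b _ => ∀ i, b i) fun _ => PT.const _

theorem pt_exists {ι : Type} [Fintype ι] (p : α → ι → Prop) (hp : ∀ i, PT fun a => p a i) :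
    PT fun a => ∃ i, p a i :=
  pt_finite_fun p hp (fun b _ => ∃ i, b i) fun _ => PT.const _

theorem pt_finsum {ι : Type} (s : Finset ι) (f : α → ι → ℕ) (hf : ∀ i ∈ s, PT fun a => f a i) :
    PT fun a => ∑ i ∈ s, f a i :=
  (PT.sum (pt_map_const s.toList f fun i hi => hf i (by simpa using hi))).congr fun a =>
    (Finset.sum_map_toList s (f a)).symm

@[fun_prop] theorem pt_xor {c d : α → Bool} (hc : PT c) (hd : PT d) :
    PT fun a => xor (c a) (d a) :=
  pt_finite (PT.mk hc hd) fun p => xor p.1 p.2

@[fun_prop] theorem pt_toNat {c : α → Bool} (hc : PT c) : PT fun a => (c a).toNat :=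
  pt_finite hc Bool.toNat

@[fun_prop] theorem pt_beq [BEq β] [LawfulBEq β] {f g : α → β} (hf : PT f) (hg : PT g) :
    PT fun a => f a == g a := by
  classical
  exact (PT.decide (PT.eq hf hg)).congr fun a => by
    by_cases h : f a = g a <;> simp [h]

@[fun_prop] theorem pt_enc {f : α → β} (hf : PT f) : PT fun a => enc (f a) := hf.encN

end Lookup

section Arith

variable {α β : Type} [Enc α] [Enc β]

@[fun_prop] theorem pt_size {f : α → ℕ} (hf : PT f) : PT fun a => Nat.size (f a) :=
  hf.bits.length.congr fun _ => (Nat.size_eq_bits_len _).symm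

theorem pt_pow {b f : α → ℕ} (hb : PT b) (hf : PT f) (hB : PB f) : PT fun a => b a ^ f a := by
  have key : ∀ x k : ℕ, (fun s : ℕ => s * x)^[k] 1 = x ^ k := fun x k => by
    induction k with
    | zero => rfl
    | succ k ih => rw [Function.iterate_succ_apply', ih, pow_succ]
  refine (PT.iterate (f := fun a (s : ℕ) => s * b a) (i := fun _ => 1) (by fun_prop) hf hB
    (by fun_prop) ((hb.1.mul hB).add (PB.const 1)) fun a k hk => ?_).congr fun a => (key _ _).symm
  rw [key, sz_nat, sz_nat, Nat.size_le]
  have h1 := Nat.pow_le_pow_left (Nat.lt_size_self (b a)).le k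
  rw [← pow_mul] at h1
  refine h1.trans_lt (Nat.pow_lt_pow_right one_lt_two ?_)
  have := Nat.mul_le_mul_left (Nat.size (b a)) hk
  omega

@[fun_prop] theorem pt_pow_const {f : α → ℕ} (k : ℕ) (hf : PT f) : PT fun a => f a ^ k :=
  pt_pow hf (PT.const k) (PB.const k)

/-- The number with the given binary digits. -/
def bval (l : List Bool) : ℕ := l.foldr (fun d s => s + s + if d = true then 1 else 0) 0

theorem foldr_div (b : ℕ) (l : List Bool) : l.foldr (fun (d : Bool) (s : ℕ × ℕ) =>
    (s.1 + s.1 + if d = true then 1 else 0,
      if 0 < b ∧ (s.2 + s.2 + 1) * b ≤ s.1 + s.1 + if d = true then 1 else 0 then s.2 + s.2 + 1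
      else s.2 + s.2)) (0, 0) = (bval l, bval l / b) := by
  induction l with
  | nil => simp [bval]
  | cons d l ih =>
    have e : bval (d :: l) = bval l + bval l + if d = true then 1 else 0 := rfl
    rw [List.foldr_cons, ih, e]
    have hd : (if d = true then 1 else 0) ≤ 1 := by split_ifs <;> omega
    generalize (if d = true then 1 else 0) = x at hd
    generalize bval l = v
    refine Prod.ext rfl ?_
    rcases Nat.eq_zero_or_pos b with rfl | hb
    · simp
    have h1 := Nat.div_add_mod v b
    have h2 := Nat.mod_lt v hb
    dsimp only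
    rw [mul_comm] at h1
    rw [eq_comm, Nat.div_eq_iff hb]
    split_ifs with h <;> simp only [add_mul, one_mul, hb, true_and] at h ⊢ <;> omega

theorem bval_bits (k : ℕ) : bval k.bits = k :=
  foldr_bits k _ id rfl fun b k => by cases b <;> simp <;> ring

theorem size_double (s : ℕ) {x : ℕ} (hx : x ≤ 1) : Nat.size (s + s + x) ≤ Nat.size s + 1 := by
  rw [Nat.size_le, pow_succ]
  have := Nat.lt_size_self s
  omega

@[fun_prop] theorem pt_div {f g : α → ℕ} (hf : PT f) (hg : PT g) : PT fun a => f a / g a := by
  have h := PT.foldr_add (f := fun a (d : Bool) (s : ℕ × ℕ) =>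
    (s.1 + s.1 + if d = true then 1 else 0,
      if 0 < g a ∧ (s.2 + s.2 + 1) * g a ≤ s.1 + s.1 + if d = true then 1 else 0 then s.2 + s.2 + 1
      else s.2 + s.2)) (i := fun _ => (0, 0)) (by fun_prop) hf.bits (by fun_prop) (PB.const 3)
    fun a s d _ => by
      have h1 := size_double s.1 (x := if d = true then 1 else 0) (by split_ifs <;> omega)
      have h2 := size_double s.2 (x := 1) le_rfl
      have h3 := size_double s.2 (x := 0) zero_le_one
      rw [sz_prod s]
      simp only [sz_pair, sz_nat, add_zero] at *
      split_ifs at * <;> omega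
  exact h.snd.congr fun a => by rw [foldr_div, bval_bits]

@[fun_prop] theorem pt_range_length [Inhabited β] {l : α → List β} (hl : PT l) :
    PT fun a => List.range (l a).length := PT.idx hl

@[fun_prop] theorem pt_countP [Inhabited β] {p : α → β → Bool} {l : α → List β}
    (hp : PT fun x : α × β => p x.1 x.2) (hl : PT l) : PT fun a => (l a).countP (p a) :=
  (PT.filter hp hl).length.congr fun _ => List.countP_eq_length_filter

@[fun_prop] theorem pt_count [Inhabited β] [BEq β] [LawfulBEq β] {y : α → β} {l : α → List β}
    (hy : PT y) (hl : PT l) : PT fun a => (l a).count (y a) :=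
  pt_countP (p := fun a x => x == y a) (by fun_prop) hl

@[fun_prop] theorem pt_idxOf [Inhabited β] [BEq β] [LawfulBEq β] {y : α → β} {l : α → List β}
    (hy : PT y) (hl : PT l) : PT fun a => (l a).idxOf (y a) := by
  have h := (PT.takeWhile (p := fun a (x : β) => !(x == y a)) (by fun_prop) hl).length
  refine h.congr fun a => ?_
  induction l a with
  | nil => simp
  | cons x L ih =>
    rw [List.idxOf_cons, List.takeWhile_cons]
    by_cases hx : (x == y a) = true <;> simp [hx, ih]

/-- Square roots of polynomially bounded numbers. -/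
theorem pt_sqrt {n : α → ℕ} (hn : PT n) (hb : PB n) : PT fun a => Nat.sqrt (n a) := by
  have h0 := PT.range hn hb
  have h : PT fun a => (List.range (n a)).countP fun i => decide ((i + 1) * (i + 1) ≤ n a) := by
    fun_prop
  refine h.congr fun a => ?_
  have key : ∀ N k, (List.range k).countP (fun i => decide ((i + 1) * (i + 1) ≤ N))
      = min k (Nat.sqrt N) := by
    intro N k
    induction k with
    | zero => simp
    | succ k ih =>
      rw [List.range_succ, List.countP_append, ih, List.countP_singleton]
      simp only [decide_eq_true_eq, ← Nat.le_sqrt]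
      split_ifs <;> omega
  rw [key, min_eq_right (Nat.sqrt_le_self _)]

end Arith

section Tuples

variable {β : Type}

/-- All tuples of length `t` with entries from `l`. -/
def tuples : ℕ → List β → List (List β)
  | 0, _ => [[]]
  | t + 1, l => l.flatMap fun b => (tuples t l).map fun u => b :: u

@[fun_prop] theorem pt_tuples {α : Type} [Enc α] [Enc β] [Inhabited β] (t : ℕ) {l : α → List β}
    (hl : PT l) : PT fun a => tuples t (l a) := by
  induction t with
  | zero => exact PT.const [[]]
  | succ t ih =>
    have h1 : PT fun p : α × β => (tuples t (l p.1)).map fun u => p.2 :: u :=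
      PT.map (f := fun (p : α × β) (u : List β) => p.2 :: u) (by fun_prop)
        (ih.comp (f := fun p : α × β => p.1) (by fun_prop))
    exact PT.flatMap (f := fun a b => (tuples t (l a)).map fun u => b :: u) h1 hl

theorem sum_map_eq {M : Type*} [AddCommMonoid M] {β : Type*} (l : List β) (F : β → M) :
    (l.map F).sum = ∑ i : Fin l.length, F l[i] := by
  exact (Fin.sum_univ_fun_getElem l F).symm

theorem sum_flatMap_eq {M : Type*} [AddCommMonoid M] {β γ : Type*} (l : List β) (G : β → List γ)
    (F : γ → M) : ((l.flatMap G).map F).sum = (l.map fun b => ((G b).map F).sum).sum := by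
  induction l with
  | nil => simp
  | cons b l ih => simp [ih]

/-- Sums over tuples. -/
theorem sum_tuples {M : Type*} [AddCommMonoid M] (t : ℕ) (l : List β) (F : List β → M) :
    ((tuples t l).map F).sum = ∑ u : Fin t → Fin l.length, F (List.ofFn fun i => l[u i]) := by
  induction t generalizing F with
  | zero => simp [tuples]
  | succ t ih =>
    rw [tuples, sum_flatMap_eq, sum_map_eq, ← (Fin.consEquiv fun _ => Fin l.length).sum_comp,
      Fintype.sum_prod_type]
    refine Finset.sum_congr rfl fun i _ => ?_
    rw [List.map_map, ih]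
    refine Finset.sum_congr rfl fun u _ => ?_
    simp [Fin.consEquiv, List.ofFn_succ]

theorem length_tuples (t : ℕ) (l : List β) : (tuples t l).length = l.length ^ t := by
  have h := sum_tuples t l fun _ => 1
  simpa using h

theorem mem_tuples {t : ℕ} {l : List β} {u : List β} :
    u ∈ tuples t l ↔ u.length = t ∧ ∀ x ∈ u, x ∈ l := by
  induction t generalizing u with
  | zero =>
    simp only [tuples, List.mem_singleton, List.length_eq_zero_iff]
    exact ⟨fun h => by simp [h], fun h => h.1⟩
  | succ t ih =>
    simp only [tuples, List.mem_flatMap, List.mem_map]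
    constructor
    · rintro ⟨b, hb, v, hv, rfl⟩
      obtain ⟨h1, h2⟩ := ih.1 hv
      exact ⟨by simp [h1], List.forall_mem_cons.2 ⟨hb, h2⟩⟩
    · rintro ⟨h1, h2⟩
      cases u with
      | nil => simp at h1
      | cons b v =>
        obtain ⟨h3, h4⟩ := List.forall_mem_cons.1 h2
        exact ⟨b, h3, v, ih.2 ⟨by simpa using h1, h4⟩, rfl⟩

/-- Counting as a sum of indicators. -/
theorem countP_eq_sum {R : Type*} [AddCommMonoidWithOne R] {β : Type*} (l : List β)
    (p : β → Bool) :
    (l.countP p : R) = (l.map fun x => if p x = true then (1 : R) else 0).sum := by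
  induction l with
  | nil => simp
  | cons b l ih =>
    rw [List.countP_cons, List.map_cons, List.sum_cons, Nat.cast_add, ih, add_comm]
    split_ifs <;> simp

theorem countP_eq_card {β : Type*} (l : List β) (p : β → Bool) :
    l.countP p = (Finset.univ.filter fun i : Fin l.length => p l[i] = true).card := by
  have h := countP_eq_sum (R := ℕ) l p
  rw [Nat.cast_id, sum_map_eq] at h
  rw [h, Finset.card_filter]

theorem countP_tuples (t : ℕ) (l : List β) (p : List β → Bool) :
    (tuples t l).countP p = (Finset.univ.filter fun u : Fin t → Fin l.length =>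
      p (List.ofFn fun i => l[u i]) = true).card := by
  have h := countP_eq_sum (R := ℕ) (tuples t l) p
  rw [Nat.cast_id, sum_tuples] at h
  rw [h, Finset.card_filter]

/-- Sums over the list of all elements of a finite type. -/
theorem sum_toList_univ {M : Type*} [AddCommMonoid M] {τ : Type*} [Fintype τ] (F : τ → M) :
    ((Finset.univ : Finset τ).toList.map F).sum = ∑ x, F x := Finset.sum_map_toList _ _

end Tuples

end Vale.Agent.P325
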