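import Vale.Agent.P325.LinCore
import Vale.Agent.P325.PTools

/-! The clause versus variable game and its repetition. -/

namespace Vale.Agent.P325.Lin

open Finset
open scoped BigOperators Classical

theorem ite_iff {R : Type} {p q : Prop} {d : Decidable p} {d' : Decidable q} {x y u v : R}
    (h : p ↔ q) (h1 : x = u) (h2 : y = v) : @ite R p d x y = @ite R q d' u v := by
  by_cases hp : p
  · rw [if_pos hp, if_pos (h.1 hp), h1]
  · rw [if_neg hp, if_neg fun hq => hp (h.2 hq), h2]

/-- Clauses. -/
abbrev Cl : Type := (ℕ × Bool) × (ℕ × Bool) × (ℕ × Bool)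

/-- Variables of a clause. -/
def cvar (c : Cl) (p : Fin 3) : ℕ := if p = 0 then c.1.1 else if p = 1 then c.2.1.1 else c.2.2.1

/-- Signs of a clause. -/
def csgn (c : Cl) (p : Fin 3) : Bool :=
  if p = 0 then c.1.2 else if p = 1 then c.2.1.2 else c.2.2.2

theorem clauseTrue_iff (σ : ℕ → Bool) (c : Cl) :
    clauseTrue σ c = true ↔ ∃ p, σ (cvar c p) = csgn c p := by
  simp [clauseTrue, cvar, csgn, Fin.exists_fin_succ, or_assoc]

/-- Modes: a position and a flag for the null question. -/
abbrev Mode : Type := Fin 3 × Bool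

/-- The question of the prover with the small alphabet. -/
def aq (c : Cl) (m : Mode) : Option ℕ := if m.2 = true then none else some (cvar c m.1)

/-- The projection. -/
def pr1 (m : Mode) (b : Fin 3 → Bool) : Bool := if m.2 = true then false else b m.1

/-- Valid answers for clauses with the signs `s`. -/
def ok {t : ℕ} (s : Fin t × Fin 3 → Bool) (b : Fin t → Fin 3 → Bool) : Prop :=
  ∀ i, ∃ p, b i p = s (i, p)

theorem base_val (ψ : CNF3) (hψ : ψ ≠ []) {α : ℝ}
    (hα : ∀ σ, (cnfCount ψ σ : ℝ) ≤ (1 - α) * ψ.length)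
    (f : Cl → Fin 3 → Bool) (g : Option ℕ → Bool) :
    ∑ e : Fin ψ.length × Mode,
      (if (if ∃ p, f ψ[e.1] p = csgn ψ[e.1] p then some (pr1 e.2 (f ψ[e.1])) else none) =
        some (g (aq ψ[e.1] e.2)) then 1 / (6 * ψ.length : ℝ) else 0) ≤ 1 - α / 6 := by
  have hN : (0 : ℝ) < ψ.length := by exact_mod_cast List.length_pos_iff.2 hψ
  have h1 := hα fun x => g (some x)
  rw [cnfCount, countP_eq_sum, sum_map_eq] at h1
  have key : ∀ c : Cl, ∑ m : Mode,
      (if (if ∃ p, f c p = csgn c p then some (pr1 m (f c)) else none) =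
        some (g (aq c m)) then 1 / (6 * ψ.length : ℝ) else 0) ≤
      (5 + if clauseTrue (fun x => g (some x)) c = true then 1 else 0) *
        (1 / (6 * ψ.length : ℝ)) := by
    intro c
    have hu : (0 : ℝ) ≤ 1 / (6 * ψ.length : ℝ) := by positivity
    generalize 1 / (6 * ψ.length : ℝ) = u at hu
    rw [← sum_filter, sum_const, nsmul_eq_mul]
    refine mul_le_mul_of_nonneg_right ?_ hu
    by_cases hc : clauseTrue (fun x => g (some x)) c = true
    · rw [if_pos hc]
      have := card_le_univ (univ.filter fun m : Mode =>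
        (if ∃ p, f c p = csgn c p then some (pr1 m (f c)) else none) = some (g (aq c m)))
      have h6 : Fintype.card Mode = 6 := by simp
      rw [h6] at this
      exact_mod_cast this
    · rw [if_neg hc]
      have h5 : (univ.filter fun m : Mode =>
          (if ∃ p, f c p = csgn c p then some (pr1 m (f c)) else none) =
            some (g (aq c m))).card < 6 := by
        have h6 : Fintype.card Mode = 6 := by simp
        rw [← h6]
        refine card_lt_card ⟨subset_univ _, fun h => ?_⟩
        have h7 : ∀ p : Fin 3, (if ∃ p, f c p = csgn c p then some (pr1 (p, false) (f c))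
            else none) = some (g (aq c (p, false))) := fun p => (mem_filter.1 (h (mem_univ _))).2
        by_cases h8 : ∃ p, f c p = csgn c p
        · obtain ⟨p, hp⟩ := h8
          have h9 := h7 p
          rw [if_pos ⟨p, hp⟩] at h9
          refine hc ((clauseTrue_iff _ _).2 ⟨p, ?_⟩)
          rw [← hp]
          simpa [pr1, aq] using h9.symm
        · have h9 := h7 0
          rw [if_neg h8] at h9
          simp at h9
      have : (univ.filter fun m : Mode =>
          (if ∃ p, f c p = csgn c p then some (pr1 m (f c)) else none) =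
            some (g (aq c m))).card ≤ 5 := by omega
      rw [add_zero]
      exact_mod_cast this
  rw [Fintype.sum_prod_type]
  refine (sum_le_sum fun j _ => key ψ[j]).trans ?_
  rw [← sum_mul, sum_add_distrib, sum_const, card_univ, Fintype.card_fin, nsmul_eq_mul,
    mul_one_div, div_le_iff₀ (by positivity)]
  nlinarith

theorem null_half (ψ : CNF3) (u : ℝ) (v : Cl) :
    ∑ e : Fin ψ.length × Mode, (if ψ[e.1] = v ∧ aq ψ[e.1] e.2 = none then u else 0) =
      (1 / 2) * ∑ e : Fin ψ.length × Mode, (if ψ[e.1] = v then u else 0) := by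
  rw [Fintype.sum_prod_type, Fintype.sum_prod_type, mul_sum]
  have key : ∀ c : Cl, ∑ m : Mode, (if c = v ∧ aq c m = none then u else 0) =
      (1 / 2) * ∑ _m : Mode, (if c = v then u else 0) := by
    intro c
    by_cases h : c = v
    · simp [h, aq, Fintype.sum_prod_type]
      ring
    · simp [h]
  exact sum_congr rfl fun j _ => key ψ[j]

theorem rep_val (hP : ParRep) (ψ : CNF3) (hψ : ψ ≠ []) {α : ℝ} (h0 : 0 ≤ α) (h1 : α ≤ 1)
    (hα : ∀ σ, (cnfCount ψ σ : ℝ) ≤ (1 - α) * ψ.length) (t : ℕ)
    (F : (Fin t → Cl) → Fin t → Fin 3 → Bool) (G : (Fin t → Option ℕ) → Fin t → Bool) :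
    (𝔼 e : (Fin t → Fin ψ.length) × (Fin t → Mode),
      if ok (fun x => csgn ψ[e.1 x.1] x.2) (F fun j => ψ[e.1 j]) ∧
        (fun i => pr1 (e.2 i) (F (fun j => ψ[e.1 j]) i)) = G (fun j => aq ψ[e.1 j] (e.2 j))
      then (1 : ℝ) else 0) ^ 2 ≤ (1 - (α / 6) ^ 2 / 16) ^ t := by
  have hN : (0 : ℝ) < ψ.length := by exact_mod_cast List.length_pos_iff.2 hψ
  have hs : ∑ _e : Fin ψ.length × Mode, 1 / (6 * ψ.length : ℝ) = 1 := by
    simp
    field_simp
  have h := hP (Fin ψ.length × Mode) Cl (Option ℕ) Bool (Fin 3 → Bool) (fun e => ψ[e.1])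
    (fun e => aq ψ[e.1] e.2)
    (fun e b => if ∃ p, b p = csgn ψ[e.1] p then some (pr1 e.2 b) else none)
    (fun _ => 1 / (6 * ψ.length : ℝ)) (fun _ => 1 / (6 * ψ.length : ℝ)) 1 (α / 6) none
    (fun _ => by positivity) hs hs zero_le_one (fun _ => (one_mul _).le)
    (fun v => by
      refine Eq.trans (sum_congr rfl fun e _ => ite_iff Iff.rfl rfl rfl)
        ((null_half ψ _ v).trans ?_)
      exact congrArg _ (sum_congr rfl fun e _ => ite_iff Iff.rfl rfl rfl))
    (by positivity) (by linarith)
    (fun f g => le_trans (sum_le_sum fun e _ => (ite_iff Iff.rfl rfl rfl).le)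
      (base_val ψ hψ hα f g)) t F G
  rw [one_mul] at h
  refine le_trans (le_of_eq ?_) h
  refine congrArg (· ^ 2) ?_
  rw [expect_eq_sum_div_card, sum_div]
  refine Fintype.sum_equiv (Equiv.arrowProdEquivProdArrow _ _ _).symm _ _ fun e => ?_
  rw [ite_div, zero_div]
  refine ite_iff ?_ ?_ rfl
  · simp only [Equiv.arrowProdEquivProdArrow_symm_apply, ok, funext_iff, ← forall_and]
    refine forall_congr' fun i => ?_
    by_cases hi : ∃ p, F (fun j => ψ[e.1 j]) i p = csgn ψ[e.1 i] p
    · simp only [hi, true_and, if_true, Option.some.injEq]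
    · simp only [hi, false_and, if_false, reduceCtorEq]
  · simp [mul_pow, mul_comm]

end Vale.Agent.P325.Lin
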