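import Vale.Agent.P325.PCPSound
import Vale.Agent.P325.PTools

/-! One round of gap amplification as a program on lists. -/

namespace Vale.Agent.P325.PCP

open Finset Vale.Agent.Lib.PolyTime
open scoped Classical BigOperators

section PT

variable {α γ : Type} [Enc α] [Enc γ] {φ : α → CNF3}

theorem pt_marg {m i : α → ℕ} (hm : PT m) (hi : PT i) (q : Fin 8) :
    PT fun a => marg (m a) q (i a) := by
  unfold marg
  fun_prop

@[fun_prop] theorem pt_sel {β : Type} [Enc β] {x : α → ℕ} {s : α → β × β × β} (hx : PT x)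
    (hs : PT s) : PT fun a => sel (x a) (s a) := by
  unfold sel
  fun_prop

@[fun_prop] theorem pt_clauseAt {x : α → ℕ} (hφ : PT φ) (hx : PT x) :
    PT fun a => clauseAt (φ a) (x a) := by
  unfold clauseAt
  fun_prop

@[fun_prop] theorem pt_var {x : α → ℕ} (hφ : PT φ) (hx : PT x) : PT fun a => var (φ a) (x a) := by
  unfold var
  fun_prop

theorem pb_len (hφ : PT φ) (c : ℕ) : PB fun a => c * (φ a).length :=
  (PB.const c).mul hφ.pb_length

@[fun_prop] theorem pt_full {x : α → ℕ} (hφ : PT φ) (hx : PT x) :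
    PT fun a => full (φ a) (x a) := by
  have h := PT.range (n := fun a => 12 * (φ a).length) (by fun_prop) (pb_len hφ 12)
  unfold full
  fun_prop

@[fun_prop] theorem pt_side {x : α → ℕ} (hφ : PT φ) (hx : PT x) :
    PT fun a => side (φ a) (x a) :=
  pt_sqrt (by fun_prop) (pt_full hφ hx).pb_length

@[fun_prop] theorem pt_cloud {x : α → ℕ} (hφ : PT φ) (hx : PT x) :
    PT fun a => cloud (φ a) (x a) := by
  unfold cloud
  fun_prop

@[fun_prop] theorem pt_gs (hφ : PT φ) : PT fun a => gs (φ a) :=
  (pt_sqrt (n := fun a => 12 * (φ a).length) (by fun_prop) (pb_len hφ 12)).add (PT.const 1)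

theorem pt_step {x : α → ℕ} (hφ : PT φ) (hx : PT x) (p : Port) :
    PT fun a => step (φ a) p (x a) := by
  have h1 := pt_marg (m := fun a => side (φ a) (var (φ a) (x a)))
    (i := fun a => (cloud (φ a) (var (φ a) (x a))).idxOf (x a)) (by fun_prop) (by fun_prop) p.2
  have h2 := pt_marg (pt_gs hφ) hx p.2
  unfold step
  fun_prop

theorem pt_con {x : α → ℕ} (hφ : PT φ) (hx : PT x) (p : Port) (s s' : S3) :
    PT fun a => con (φ a) (x a) p s s' := by
  have h1 := pt_step hφ hx p
  unfold con okc
  fun_prop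

theorem pt_walk (hφ : PT φ) (s : List Port) : ∀ {x : α → ℕ}, PT x →
    PT fun a => walk (step (φ a)) (x a) s := by
  induction s with
  | nil => exact id
  | cons p s ih => exact fun hx => ih (pt_step hφ hx p)

theorem pt_cons (hφ : PT φ) (s : List Port) : ∀ {x : α → ℕ}, PT x →
    ∀ F : List (S3 → S3 → Bool) → α → γ, (∀ b, PT (F b)) →
      PT fun a => F (consAlong (step (φ a)) (con (φ a)) (x a) s) a := by
  induction s with
  | nil => exact fun _ F hF => hF []
  | cons p s ih =>
    intro x hx F hF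
    exact pt_finite_fun (fun a (k : S3 × S3) => con (φ a) (x a) p k.1 k.2)
      (fun k => pt_con hφ hx p k.1 k.2)
      (fun b a => F (Function.curry b :: consAlong (step (φ a)) (con (φ a)) (step (φ a) p (x a)) s) a)
      fun b => ih (pt_step hφ hx p) (fun l a => F (Function.curry b :: l) a) fun _ => hF _

end PT

variable {S' W T I : Type} [Fintype W] [Fintype T] [Fintype I]

/-- Names of the new variables. -/
noncomputable def nm (x : ℕ) (k : Option W × I) : ℕ := pr x (Fintype.equivFin _ k)

/-- A literal from a template. -/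
noncomputable def lit (x y : ℕ) (w : W) (l : Fin 3 × I × Bool) : ℕ × Bool :=
  (if l.1 = 0 then nm x ((none : Option W), l.2.1) else if l.1 = 1 then
    nm y ((none : Option W), l.2.1) else nm x (some w, l.2.1), l.2.2)

/-- A clause from a template. -/
noncomputable def mkCl (x y : ℕ) (w : W)
    (c : (Fin 3 × I × Bool) × (Fin 3 × I × Bool) × (Fin 3 × I × Bool)) : Cl :=
  (lit x y w c.1, lit x y w c.2.1, lit x y w c.2.2)

variable (path : W → List Port) (Rel : W → List (S3 → S3 → Bool) → S' → S' → Bool)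
  (cl : (S' → S' → Bool) → T → (Fin 3 × I × Bool) × (Fin 3 × I × Bool) × (Fin 3 × I × Bool))

/-- One clause of the new formula. -/
noncomputable def newCl (φ : CNF3) (x : ℕ) (k : W × T) : Cl :=
  mkCl x (walk (step φ) x (path k.1)) k.1
    (cl (Rel k.1 (consAlong (step φ) (con φ) x (path k.1))) k.2)

/-- One round of amplification. -/
noncomputable def amp (φ : CNF3) : CNF3 :=
  (List.range (nv φ)).flatMap fun x => (univ : Finset (W × T)).toList.map (newCl path Rel cl φ x)

theorem pt_mkCl {α : Type} [Enc α] {x y : α → ℕ} (hx : PT x) (hy : PT y) (w : W)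
    (c : (Fin 3 × I × Bool) × (Fin 3 × I × Bool) × (Fin 3 × I × Bool)) :
    PT fun a => mkCl (x a) (y a) w c := by
  have h : ∀ l : Fin 3 × I × Bool, PT fun a => lit (x a) (y a) w l := fun l =>
    PT.mk (PT.ite (PT.const _) (hx.pr (PT.const _))
      (PT.ite (PT.const _) (hy.pr (PT.const _)) (hx.pr (PT.const _)))) (PT.const _)
  exact PT.mk (h _) (PT.mk (h _) (h _))

theorem pt_amp : PT (amp path Rel cl) := by
  have h1 : PT fun φ : CNF3 => List.range (nv φ) :=
    PT.range ((pt_gs PT.id).mul (pt_gs PT.id))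
      ((((pb_len PT.id 12).add (PB.const 1)).pow 2).of_le fun φ => by
        rw [nv, pow_two]
        have : gs φ ≤ 12 * φ.length + 1 := Nat.succ_le_succ (Nat.sqrt_le_self _)
        exact Nat.mul_le_mul this this)
  refine PT.flatMap (f := fun φ x => (univ : Finset (W × T)).toList.map (newCl path Rel cl φ x))
    (pt_map_const _ (fun (a : CNF3 × ℕ) => newCl path Rel cl a.1 a.2) fun k _ => ?_) h1
  exact pt_cons (φ := fun a : CNF3 × ℕ => a.1) (by fun_prop) (path k.1)
    (x := fun a => a.2) (by fun_prop)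
    (fun b a => mkCl a.2 (walk (step a.1) a.2 (path k.1)) k.1 (cl (Rel k.1 b) k.2))
    fun b => pt_mkCl (by fun_prop) (pt_walk (by fun_prop) _ (by fun_prop)) _ _

theorem sum_amp {M : Type} [AddCommMonoid M] (φ : CNF3) (G : Cl → M) :
    ((amp path Rel cl φ).map G).sum =
      ∑ e : (Fin (nv φ) × W) × T, G (newCl path Rel cl φ e.1.1 (e.1.2, e.2)) := by
  rw [amp, sum_flatMap_eq, sum_map_eq, Fintype.sum_prod_type, Fintype.sum_prod_type]
  refine Fintype.sum_equiv (finCongr List.length_range) _ _ fun i => ?_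
  rw [List.map_map, sum_toList_univ, Fintype.sum_prod_type]
  simp

theorem length_amp (φ : CNF3) :
    (amp path Rel cl φ).length = Fintype.card ((Fin (nv φ) × W) × T) := by
  simpa using sum_amp path Rel cl φ fun _ => (1 : ℕ)

theorem clauseTrue_mkCl (σ : ℕ → Bool) (x y : ℕ) (w : W)
    (c : (Fin 3 × I × Bool) × (Fin 3 × I × Bool) × (Fin 3 × I × Bool)) :
    clauseTrue σ (mkCl x y w c) = clVal (fun i => σ (nm x ((none : Option W), i)))
      (fun i => σ (nm y ((none : Option W), i))) (fun i => σ (nm x (some w, i))) c := by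
  have h : ∀ l : Fin 3 × I × Bool, (σ (lit x y w l).1 == (lit x y w l).2) =
      litVal (fun i => σ (nm x ((none : Option W), i)))
      (fun i => σ (nm y ((none : Option W), i))) (fun i => σ (nm x (some w, i))) l := fun l => by
    simp only [lit, litVal]
    split_ifs <;> rfl
  simp only [clauseTrue, clVal, mkCl, h]

variable {lam : ℝ}

theorem walk_coe (hM : MargOK lam) (φ : CNF3) (s : List Port) : ∀ x : Fin (nv φ),
    walk (step φ) x s = (walk (stepF hM φ) x s).1 := by
  induction s with
  | nil => exact fun _ => rfl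
  | cons p s ih => exact fun x => ih (stepF hM φ p x)

theorem cons_coe (hM : MargOK lam) (φ : CNF3) (s : List Port) : ∀ x : Fin (nv φ),
    consAlong (step φ) (con φ) x s = consAlong (stepF hM φ) (fun y => con φ y) x s := by
  induction s with
  | nil => exact fun _ => rfl
  | cons p s ih => exact fun x => congrArg (con φ x p :: ·) (ih (stepF hM φ p x))

theorem mem_amp {φ : CNF3} {c : Cl} (h : c ∈ amp path Rel cl φ) :
    ∃ (x : Fin (nv φ)) (k : W × T), c = newCl path Rel cl φ x k := by
  simp only [amp, List.mem_flatMap, List.mem_range, List.mem_map] at h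
  obtain ⟨x, hx, k, -, rfl⟩ := h
  exact ⟨⟨x, hx⟩, k, rfl⟩

theorem size_amp (hM : MargOK lam) : ∃ c : ℕ, ∀ φ : CNF3, φ ≠ [] →
    (amp path Rel cl φ).length ≤ c * φ.length ∧
      sz (amp path Rel cl φ) ≤ c * φ.length * (c * φ.length) := by
  set K := Fintype.card (Option W × I) with hK
  refine ⟨48 * (Fintype.card W * Fintype.card T) + 20 * K + 2000, fun φ hφ => ?_⟩
  have h1 := nv_le hφ
  have h0 : 0 < φ.length := List.length_pos_iff.2 hφ
  have h2 : (amp path Rel cl φ).length ≤
      (48 * (Fintype.card W * Fintype.card T) + 20 * K + 2000) * φ.length := by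
    rw [length_amp]
    simp only [Fintype.card_prod, Fintype.card_fin, mul_assoc]
    have := Nat.mul_le_mul_right (Fintype.card W * Fintype.card T) h1
    nlinarith
  have h3 : ∀ x < nv φ, ∀ k : Option W × I, sz (nm x k) ≤ 2 * nv φ + K + 1 := fun x hx k => by
    have a1 := size_pr x (Fintype.equivFin _ k)
    have a2 : Nat.size x ≤ x := sz_nat_le x
    have a3 : Nat.size (Fintype.equivFin _ k : ℕ) ≤ (Fintype.equivFin _ k : ℕ) := sz_nat_le _
    have a4 := (Fintype.equivFin _ k).2
    rw [sz_nat, nm]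
    omega
  have h4 : ∀ x < nv φ, ∀ y < nv φ, ∀ (w : W) (l : Fin 3 × I × Bool),
      sz (lit x y w l) ≤ 4 * nv φ + 2 * K + 4 := fun x hx y hy w l => by
    rw [lit, sz_pair, sz_bool]
    have := h3 x hx (none, l.2.1)
    have := h3 y hy (none, l.2.1)
    have := h3 x hx (some w, l.2.1)
    split_ifs <;> omega
  refine ⟨h2, (sz_le_of_forall (b := 20 * nv φ + 10 * K + 22) fun c hc => ?_).trans
    (Nat.mul_le_mul h2 ?_)⟩
  · obtain ⟨x, k, rfl⟩ := mem_amp path Rel cl hc
    rw [newCl, walk_coe hM, mkCl, sz_pair, sz_pair (lit _ _ _ _) (lit _ _ _ _)]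
    have := fun l => h4 x x.2 _ (walk (stepF hM φ) x (path k.1)).2 k.1 l
    have e1 := this (cl (Rel k.1 (consAlong (step φ) (con φ) x (path k.1))) k.2).1
    have e2 := this (cl (Rel k.1 (consAlong (step φ) (con φ) x (path k.1))) k.2).2.1
    have e3 := this (cl (Rel k.1 (consAlong (step φ) (con φ) x (path k.1))) k.2).2.2
    omega
  · nlinarith [Nat.zero_le (Fintype.card W * Fintype.card T * φ.length)]

theorem sat_amp (hM : MargOK lam) (φ : CNF3) (A : Fin (nv φ) → I → Bool)
    (B : Fin (nv φ) × W → I → Bool)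
    (h : ∀ (e : Fin (nv φ) × W) t, clVal (A e.1) (A (walk (stepF hM φ) e.1 (path e.2))) (B e)
      (cl (Rel e.2 (consAlong (stepF hM φ) (fun y => con φ y) e.1 (path e.2))) t) = true) :
    Sat (amp path Rel cl φ) := by
  let g : Fin (nv φ) × Option W × I → ℕ := fun z => nm z.1 z.2
  have hg : Function.Injective g := fun z z' e => by
    obtain ⟨e1, e2⟩ := pr_inj e
    exact Prod.ext (Fin.ext e1) ((Fintype.equivFin _).injective (Fin.ext e2))
  let F : Fin (nv φ) × Option W × I → Bool := fun z =>
    z.2.1.elim (A z.1 z.2.2) fun w => B (z.1, w) z.2.2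
  have e : ∀ (x : Fin (nv φ)) (k : Option W × I),
      Function.extend g F (fun _ => true) (nm x k) = F (x, k) := fun x k =>
    hg.extend_apply F _ (x, k)
  refine ⟨Function.extend g F fun _ => true, fun c hc => ?_⟩
  obtain ⟨x, k, rfl⟩ := mem_amp path Rel cl hc
  rw [newCl, walk_coe hM, cons_coe hM, clauseTrue_mkCl]
  simp only [e]
  exact h (x, k.1) k.2

theorem count_amp (hM : MargOK lam) (φ : CNF3) (σ : ℕ → Bool) :
    (cnfCount (amp path Rel cl φ) σ : ℝ) = (amp path Rel cl φ).length -
      ((univ.filter fun e : (Fin (nv φ) × W) × T =>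
        clVal (fun i => σ (nm e.1.1 ((none : Option W), i)))
          (fun i => σ (nm (walk (stepF hM φ) e.1.1 (path e.1.2) : Fin (nv φ)) ((none : Option W), i)))
          (fun i => σ (nm e.1.1 (some e.1.2, i)))
          (cl (Rel e.1.2 (consAlong (stepF hM φ) (fun y => con φ y) e.1.1 (path e.1.2))) e.2) =
            false).card : ℝ) := by
  rw [cnfCount, countP_eq_sum, sum_amp, length_amp, card_filter, Nat.cast_sum, eq_sub_iff_add_eq,
    ← sum_add_distrib, ← card_univ, card_eq_sum_ones, Nat.cast_sum]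
  refine sum_congr rfl fun e _ => ?_
  rw [newCl, walk_coe hM, cons_coe hM, clauseTrue_mkCl]
  split_ifs <;> simp_all

end Vale.Agent.P325.PCP
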