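import Vale.Agent.P325.DefsA

/-! The constraint graph of constant degree attached to a formula. -/

namespace Vale.Agent.P325.PCP

open Finset
open scoped Classical BigOperators

/-- Labels. -/
abbrev S3 : Type := Bool × Bool × Bool

/-- Ports. -/
abbrev Port : Type := Fin 3 × Fin 8

/-- Clauses. -/
abbrev Cl : Type := (ℕ × Bool) × (ℕ × Bool) × (ℕ × Bool)

/-- The component of a triple owned by the vertex `x`. -/
def sel {β : Type} (x : ℕ) (s : β × β × β) : β :=
  if x % 3 = 0 then s.1 else if x % 3 = 1 then s.2.1 else s.2.2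

/-- The clause with a given number. -/
def clauseAt (φ : CNF3) (j : ℕ) : Cl := φ.getD j ((0, true), (0, true), (0, true))

/-- The variable of a vertex. -/
def var (φ : CNF3) (x : ℕ) : ℕ := (sel x (clauseAt φ (x % (3 * φ.length) / 3))).1

/-- All copies of occurrences of a variable. -/
def full (φ : CNF3) (v : ℕ) : List ℕ := (List.range (12 * φ.length)).filter fun x => var φ x == v

/-- The side of the torus of a variable. -/
def side (φ : CNF3) (v : ℕ) : ℕ := Nat.sqrt (full φ v).length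

/-- The cloud of a variable. -/
def cloud (φ : CNF3) (v : ℕ) : List ℕ := (full φ v).take (side φ v * side φ v)

/-- The side of the global torus. -/
def gs (φ : CNF3) : ℕ := Nat.sqrt (12 * φ.length) + 1

/-- The number of vertices. -/
def nv (φ : CNF3) : ℕ := gs φ * gs φ

/-- The port maps. -/
def step (φ : CNF3) (p : Port) (x : ℕ) : ℕ :=
  if p.1 = 0 then
    (if x < 3 * φ.length then x / 3 * 3 + (x + if p.2 < 4 then 1 else 2) % 3 else x)
  else if p.1 = 1 then
    (if x ∈ cloud φ (var φ x) then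
      (cloud φ (var φ x)).getD (marg (side φ (var φ x)) p.2 ((cloud φ (var φ x)).idxOf x)) 0
    else x)
  else marg (gs φ) p.2 x

/-- A label satisfies a clause. -/
def okc (c : Cl) (s : S3) : Bool := (s.1 == c.1.2) || (s.2.1 == c.2.1.2) || (s.2.2 == c.2.2.2)

/-- The constraints. -/
def con (φ : CNF3) (x : ℕ) (p : Port) (s s' : S3) : Bool :=
  if p.1 = 0 then (if x < 3 * φ.length then (s == s') && okc (clauseAt φ (x / 3)) s else true)
  else if p.1 = 1 then sel x s == sel (step φ p x) s'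
  else true

/-- The inverse port. -/
def inv (p : Port) : Port := (p.1, p.2 + 4)

/-- The properties of the Margulis maps. -/
def MargOK (lam : ℝ) : Prop := ∀ m : ℕ, 0 < m →
    (∀ p i, i < m * m → marg m p i < m * m) ∧
    (∀ p i, i < m * m → marg m (p + 4) (marg m p i) = i) ∧
    ∀ f : ℕ → ℝ, ∑ i ∈ range (m * m), f i = 0 →
      ∑ i ∈ range (m * m), ((∑ p : Fin 8, f (marg m p i)) / 8) ^ 2 ≤
        lam ^ 2 * ∑ i ∈ range (m * m), f i ^ 2

theorem inv_inv (p : Port) : inv (inv p) = p := by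
  obtain ⟨a, q⟩ := p
  revert q
  simp only [inv, Prod.mk.injEq, true_and]
  decide

variable {φ : CNF3} {lam : ℝ}

theorem lt_nv (φ : CNF3) : 12 * φ.length < nv φ := Nat.lt_succ_sqrt _

theorem nv_le (h : φ ≠ []) : nv φ ≤ 48 * φ.length := by
  have h1 : 0 < φ.length := List.length_pos_iff.2 h
  have h2 := Nat.sqrt_le (12 * φ.length)
  have h3 : 0 < Nat.sqrt (12 * φ.length) := Nat.sqrt_pos.2 (by omega)
  unfold nv gs
  nlinarith

theorem cloud_nodup (φ : CNF3) (v : ℕ) : (cloud φ v).Nodup :=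
  (List.nodup_range.filter _).sublist (List.take_sublist _ _)

theorem cloud_length (φ : CNF3) (v : ℕ) : (cloud φ v).length = side φ v * side φ v := by
  rw [cloud, List.length_take]
  exact min_eq_left (Nat.sqrt_le _)

theorem mem_cloud {v x : ℕ} (h : x ∈ cloud φ v) : x < 12 * φ.length ∧ var φ x = v := by
  have := List.mem_filter.1 (List.mem_of_mem_take h)
  simpa using this

theorem getD_mem {v i : ℕ} (h : i < side φ v * side φ v) : (cloud φ v).getD i 0 ∈ cloud φ v := by
  rw [← cloud_length] at h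
  rw [List.getD_eq_getElem _ _ h]
  exact List.getElem_mem h

theorem idxOf_getD {v i : ℕ} (h : i < side φ v * side φ v) :
    (cloud φ v).idxOf ((cloud φ v).getD i 0) = i := by
  rw [← cloud_length] at h
  rw [List.getD_eq_getElem _ _ h]
  exact (cloud_nodup φ v).idxOf_getElem i h

theorem idxOf_lt {v x : ℕ} (h : x ∈ cloud φ v) : (cloud φ v).idxOf x < side φ v * side φ v := by
  rw [← cloud_length]
  exact List.idxOf_lt_length_of_mem h

theorem getD_idxOf {v x : ℕ} (h : x ∈ cloud φ v) :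
    (cloud φ v).getD ((cloud φ v).idxOf x) 0 = x := by
  have h1 := List.idxOf_lt_length_of_mem h
  rw [List.getD_eq_getElem _ _ h1, List.getElem_idxOf]

theorem step_cloud {v i : ℕ} (h : i < side φ v * side φ v) (q : Fin 8) :
    step φ (1, q) ((cloud φ v).getD i 0) = (cloud φ v).getD (marg (side φ v) q i) 0 := by
  have h1 := getD_mem h
  have h2 := (mem_cloud h1).2
  simp only [step, h2, h1, idxOf_getD h]
  simp

theorem step_not {x : ℕ} (h : x ∉ cloud φ (var φ x)) (q : Fin 8) : step φ (1, q) x = x := by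
  simp [step, h]

theorem side_pos {v i : ℕ} (h : i < side φ v * side φ v) : 0 < side φ v :=
  Nat.pos_of_ne_zero fun h0 => by simp [h0] at h

theorem step_one (hM : MargOK lam) (q : Fin 8) (x : ℕ) : var φ (step φ (1, q) x) = var φ x ∧
    (x < nv φ → step φ (1, q) x < nv φ) ∧ step φ (1, q + 4) (step φ (1, q) x) = x := by
  by_cases h : x ∈ cloud φ (var φ x)
  · have h1 := idxOf_lt h
    obtain ⟨m1, m2, -⟩ := hM _ (side_pos h1)
    have e := step_cloud h1 q
    rw [getD_idxOf h] at e
    have h2 := mem_cloud (getD_mem (m1 q _ h1))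
    rw [e, step_cloud (m1 q _ h1), m2 q _ h1, getD_idxOf h]
    exact ⟨h2.2, fun _ => h2.1.trans (lt_nv φ), rfl⟩
  · rw [step_not h, step_not h]
    exact ⟨rfl, id, rfl⟩

theorem step_zero (q : Fin 8) {x : ℕ} (h : x < 3 * φ.length) :
    step φ (0, q) x < 3 * φ.length ∧ step φ (0, q) x / 3 = x / 3 ∧
      step φ (0, q + 4) (step φ (0, q) x) = x := by
  have h4 : (q + 4 < 4 ↔ ¬ q < 4) := by revert q; decide
  have h1 : step φ (0, q) x < 3 * φ.length ∧ step φ (0, q) x / 3 = x / 3 := by
    simp only [step, if_true, h]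
    omega
  refine ⟨h1.1, h1.2, ?_⟩
  rw [step, if_pos rfl, if_pos h1.1]
  simp only [step, if_true, h, h4]
  by_cases hq : q < 4 <;> simp only [hq, if_true, if_false, not_true, not_false_iff] <;> omega

theorem step_lt (hM : MargOK lam) (p : Port) {x : ℕ} (h : x < nv φ) :
    step φ p x < nv φ ∧ step φ (inv p) (step φ p x) = x := by
  obtain ⟨a, q⟩ := p
  fin_cases a
  · by_cases hx : x < 3 * φ.length
    · have := step_zero q hx
      have := lt_nv φ
      exact ⟨by simp only [Fin.zero_eta]; omega, (step_zero q hx).2.2⟩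
    · simp [step, inv, hx, h]
  · exact ⟨(step_one hM q x).2.1 h, (step_one hM q x).2.2⟩
  · obtain ⟨m1, m2, -⟩ := hM (gs φ) (Nat.succ_pos _)
    exact ⟨by simpa [step, nv] using m1 q x h, by simpa [step, inv] using m2 q x h⟩

/-- The port maps on the finite set of vertices. -/
def stepF (hM : MargOK lam) (φ : CNF3) (p : Port) (x : Fin (nv φ)) : Fin (nv φ) :=
  ⟨step φ p x, (step_lt hM p x.2).1⟩

theorem stepF_inv (hM : MargOK lam) (φ : CNF3) (p : Port) (x : Fin (nv φ)) :
    stepF hM φ (inv p) (stepF hM φ p x) = x := Fin.ext (step_lt hM p x.2).2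

theorem sq_avg8 (g : Fin 8 → ℝ) : ((∑ q, g q) / 8) ^ 2 ≤ (∑ q, g q ^ 2) / 8 := by
  have := sq_sum_le_card_mul_sum_sq (s := (univ : Finset (Fin 8))) (f := g)
  simp only [card_univ, Fintype.card_fin, Nat.cast_ofNat] at this
  rw [div_pow]
  linarith

theorem gap (hM : MargOK lam) (φ : CNF3) : Gap (stepF hM φ) √((2 + lam ^ 2) / 3) := by
  intro f hf
  have hb : ∀ p, ∑ x, f (stepF hM φ p x) ^ 2 = ∑ x, f x ^ 2 := fun p =>
    (Finite.injective_iff_bijective.1 (Function.LeftInverse.injective (stepF_inv hM φ p))).sum_comp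
      fun x => f x ^ 2
  have h1 : ∀ a, ∑ x, ((∑ q, f (stepF hM φ (a, q) x)) / 8) ^ 2 ≤ ∑ x, f x ^ 2 := fun a => by
    refine (sum_le_sum fun x _ => sq_avg8 _).trans ?_
    rw [← sum_div, sum_comm]
    simp [hb]
  have h2 : ∑ x, ((∑ q, f (stepF hM φ (2, q) x)) / 8) ^ 2 ≤ lam ^ 2 * ∑ x, f x ^ 2 := by
    obtain ⟨m1, -, m3⟩ := hM (gs φ) (Nat.succ_pos _)
    have e := m3 (fun i => if h : i < nv φ then f ⟨i, h⟩ else 0) (by
      change ∑ i ∈ range (nv φ), _ = _
      rw [← Fin.sum_univ_eq_sum_range _ (nv φ)]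
      simpa using hf)
    change ∑ i ∈ range (nv φ), _ ≤ _ * ∑ i ∈ range (nv φ), _ at e
    rw [← Fin.sum_univ_eq_sum_range _ (nv φ), ← Fin.sum_univ_eq_sum_range _ (nv φ)] at e
    simp only [Fin.is_lt, dif_pos, Fin.eta] at e
    refine le_of_eq_of_le (sum_congr rfl fun x _ => ?_) e
    congr 2
    refine sum_congr rfl fun q _ => ?_
    rw [dif_pos (show marg (gs φ) q x < nv φ from m1 q x x.2)]
    rfl
  rw [Real.sq_sqrt (by positivity)]
  have h3 : ∀ x, (𝔼 p, f (stepF hM φ p x)) ^ 2 ≤ (((∑ q, f (stepF hM φ (0, q) x)) / 8) ^ 2 +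
      ((∑ q, f (stepF hM φ (1, q) x)) / 8) ^ 2 + ((∑ q, f (stepF hM φ (2, q) x)) / 8) ^ 2) / 3 :=
    fun x => by
      rw [Fintype.expect_eq_sum_div_card, Fintype.sum_prod_type, Fin.sum_univ_three]
      simp only [Fintype.card_prod, Fintype.card_fin]
      generalize ∑ q, f (stepF hM φ (0, q) x) = a
      generalize ∑ q, f (stepF hM φ (1, q) x) = b
      generalize ∑ q, f (stepF hM φ (2, q) x) = c
      push_cast
      nlinarith [sq_nonneg (a - b), sq_nonneg (b - c), sq_nonneg (a - c)]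
  refine (sum_le_sum fun x _ => h3 x).trans ?_
  rw [← sum_div, sum_add_distrib, sum_add_distrib]
  linarith [h1 0, h1 1]

theorem complete (hM : MargOK lam) (h : Sat φ) : ∃ σ : Fin (nv φ) → S3,
    ∀ (x : Fin (nv φ)) p, con φ x p (σ x) (σ (stepF hM φ p x)) = true := by
  obtain ⟨τ, hτ⟩ := h
  let lab : ℕ → S3 := fun x => (τ (clauseAt φ (x % (3 * φ.length) / 3)).1.1,
    τ (clauseAt φ (x % (3 * φ.length) / 3)).2.1.1, τ (clauseAt φ (x % (3 * φ.length) / 3)).2.2.1)
  have h1 : ∀ x, sel x (lab x) = τ (var φ x) := fun x => by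
    simp only [sel, var, lab]
    split_ifs <;> rfl
  refine ⟨fun x => lab x, fun x ⟨a, q⟩ => ?_⟩
  fin_cases a
  · by_cases hx : (x : ℕ) < 3 * φ.length
    · obtain ⟨e1, e2, -⟩ := step_zero q hx
      have e3 : lab (step φ (0, q) x) = lab x := by
        simp only [lab, Nat.mod_eq_of_lt e1, Nat.mod_eq_of_lt hx, e2]
      have e4 : clauseAt φ (x / 3) ∈ φ := by
        have : (x : ℕ) / 3 < φ.length := by omega
        rw [clauseAt, List.getD_eq_getElem _ _ this]
        exact List.getElem_mem this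
      have e5 := hτ _ e4
      simp only [con, stepF, Fin.zero_eta, if_true, hx, e3, beq_self_eq_true, Bool.true_and]
      simp only [lab, Nat.mod_eq_of_lt hx]
      exact e5
    · simp [con, hx]
  · simp [con, stepF, h1, (step_one hM q x).1]
  · simp [con]

end Vale.Agent.P325.PCP
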