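import Vale.Agent.P325.PCPGraph

/-! Soundness of the degree reduction. -/

namespace Vale.Agent.P325.PCP

open Finset
open scoped Classical BigOperators

variable {φ : CNF3} {lam : ℝ}

theorem expand (hM : MargOK lam) (h0 : 0 ≤ lam) (h1 : lam ≤ 1) (s : ℕ) (β : ℕ → Bool) :
    ∃ b : Bool, 8 * (1 - lam) * ∑ i ∈ range (s * s), (if β i = b then (0 : ℝ) else 1) ≤
      ∑ i ∈ range (s * s), ∑ q : Fin 8, if β i = β (marg s q i) then (0 : ℝ) else 1 := by
  rcases Nat.eq_zero_or_pos s with rfl | hs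
  · simp
  obtain ⟨m1, m2, m3⟩ := hM s hs
  have hn : (0 : ℝ) < (s * s : ℕ) := by exact_mod_cast Nat.mul_pos hs hs
  obtain ⟨b, hb⟩ : ∃ b : Bool,
      2 * ∑ i ∈ range (s * s), (if β i = b then (0 : ℝ) else 1) ≤ (s * s : ℕ) := by
    have e : ∑ i ∈ range (s * s), (if β i = true then (0 : ℝ) else 1) +
        ∑ i ∈ range (s * s), (if β i = false then (0 : ℝ) else 1) = (s * s : ℕ) := by
      rw [← sum_add_distrib, sum_congr rfl (g := fun _ => (1 : ℝ)) fun i _ => by
        cases β i <;> simp]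
      simp
    by_contra hc
    push Not at hc
    linarith [hc true, hc false]
  refine ⟨b, ?_⟩
  set D := ∑ i ∈ range (s * s), (if β i = b then (0 : ℝ) else 1) with hD
  have hD0 : 0 ≤ D := sum_nonneg fun i _ => by split_ifs <;> norm_num
  obtain ⟨δ, hδ⟩ : ∃ δ : ℝ, δ * (s * s : ℕ) = D := ⟨D / (s * s : ℕ), div_mul_cancel₀ _ hn.ne'⟩
  have hδ2 : δ ≤ 1 / 2 := by nlinarith
  set f : ℕ → ℝ := fun i => (if β i = b then (0 : ℝ) else 1) - δ with hf
  have f0 : ∑ i ∈ range (s * s), f i = 0 := by
    rw [hf, sum_sub_distrib, ← hD, sum_const, card_range, nsmul_eq_mul, ← hδ]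
    ring
  have f2 : ∑ i ∈ range (s * s), f i ^ 2 = D * (1 - δ) := by
    have : ∀ i, f i ^ 2 = (1 - 2 * δ) * (if β i = b then (0 : ℝ) else 1) + δ ^ 2 := fun i => by
      simp only [hf]
      split_ifs <;> ring
    simp only [this]
    rw [sum_add_distrib, ← mul_sum, ← hD, sum_const, card_range, nsmul_eq_mul, ← hδ]
    ring
  have f3 : ∀ q, ∑ i ∈ range (s * s), f (marg s q i) ^ 2 = ∑ i ∈ range (s * s), f i ^ 2 := fun q => by
    refine sum_nbij' (marg s q) (marg s (q + 4)) (fun i hi => ?_) (fun i hi => ?_) (fun i hi => ?_)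
      (fun i hi => ?_) fun _ _ => rfl
    · exact mem_range.2 (m1 _ _ (mem_range.1 hi))
    · exact mem_range.2 (m1 _ _ (mem_range.1 hi))
    · exact m2 _ _ (mem_range.1 hi)
    · have := m2 (q + 4) i (mem_range.1 hi)
      rwa [(by decide : ∀ q : Fin 8, q + 4 + 4 = q)] at this
  have f4 : ∑ i ∈ range (s * s), f i * ((∑ q, f (marg s q i)) / 8) ≤
      lam * ∑ i ∈ range (s * s), f i ^ 2 := by
    have a1 := sum_mul_sq_le_sq_mul_sq (range (s * s)) f fun i => (∑ q, f (marg s q i)) / 8
    have a2 : 0 ≤ ∑ i ∈ range (s * s), f i ^ 2 := sum_nonneg fun _ _ => sq_nonneg _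
    refine le_of_sq_le_sq ?_ (mul_nonneg h0 a2)
    refine a1.trans ((mul_le_mul_of_nonneg_left (m3 f f0) a2).trans_eq ?_)
    ring
  have f5 : ∀ i, ∑ q : Fin 8, (if β i = β (marg s q i) then (0 : ℝ) else 1) =
      8 * f i ^ 2 + ∑ q, f (marg s q i) ^ 2 - 16 * (f i * ((∑ q, f (marg s q i)) / 8)) := fun i => by
    have : ∀ j, (if β i = β j then (0 : ℝ) else 1) = f i ^ 2 + f j ^ 2 - 2 * f i * f j := fun j => by
      simp only [hf]
      cases β i <;> cases β j <;> cases b <;> simp <;> ring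
    simp only [this]
    rw [sum_sub_distrib, sum_add_distrib, ← mul_sum]
    simp
    ring
  simp only [f5]
  rw [sum_sub_distrib, sum_add_distrib, ← mul_sum, ← mul_sum, sum_comm]
  simp only [f3, sum_const, card_univ, Fintype.card_fin, nsmul_eq_mul, f2] at f4 ⊢
  push_cast
  nlinarith [mul_nonneg (mul_nonneg hD0 (sub_nonneg.2 h1)) (sub_nonneg.2 hδ2)]

theorem var_add (φ : CNF3) (x : ℕ) : var φ (3 * φ.length + x) = var φ x := by
  simp only [var, sel, Nat.add_mod_left, Nat.mul_add_mod]

theorem occ_mem {x : ℕ} (h : x < 3 * φ.length) : x ∈ cloud φ (var φ x) := by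
  set P : ℕ → Bool := fun y => var φ y == var φ x with hP
  have e1 : ∀ k, (List.range (3 * φ.length + k)).filter P =
      (List.range (3 * φ.length)).filter P ++ ((List.range k).filter P).map (3 * φ.length + ·) :=
    fun k => by
      rw [List.range_add, List.filter_append, List.filter_map]
      congr 2
      exact List.filter_congr fun y _ => by simp [hP, var_add]
  have e2 : ∀ k, ((List.range (3 * φ.length + k)).filter P).length =
      ((List.range (3 * φ.length)).filter P).length + ((List.range k).filter P).length :=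
    fun k => by rw [e1, List.length_append, List.length_map]
  have e3 : 12 * φ.length = 3 * φ.length + (3 * φ.length + (3 * φ.length + 3 * φ.length)) := by
    ring
  have e4 : (full φ (var φ x)).length = 4 * ((List.range (3 * φ.length)).filter P).length := by
    rw [full, e3, e2, e2, e2]
    ring
  have e5 : x ∈ (List.range (3 * φ.length)).filter P := by simp [hP, h]
  have e6 : ((List.range (3 * φ.length)).filter P).length ≤
      side φ (var φ x) * side φ (var φ x) := by
    have a1 := Nat.lt_succ_sqrt (full φ (var φ x)).length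
    have a2 := List.length_pos_of_mem e5
    have a3 : 0 < side φ (var φ x) := Nat.sqrt_pos.2 (by omega)
    rw [e4, ← e4] at a1
    change _ < (side φ (var φ x) + 1) * (side φ (var φ x) + 1) at a1
    nlinarith
  rw [cloud, full, e3, e1, List.take_append, List.take_of_length_le e6]
  exact List.mem_append_left _ e5

theorem sum_cloud (φ : CNF3) (v : ℕ) (F : ℕ → ℝ) : ∑ x ∈ (cloud φ v).toFinset, F x =
    ∑ i ∈ range (side φ v * side φ v), F ((cloud φ v).getD i 0) := by
  refine sum_nbij' (fun x => (cloud φ v).idxOf x) (fun i => (cloud φ v).getD i 0)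
    (fun x hx => ?_) (fun i hi => ?_) (fun x hx => ?_) (fun i hi => ?_) fun x hx => ?_
  · exact mem_range.2 (idxOf_lt (List.mem_toFinset.1 hx))
  · exact List.mem_toFinset.2 (getD_mem (mem_range.1 hi))
  · exact getD_idxOf (List.mem_toFinset.1 hx)
  · exact idxOf_getD (mem_range.1 hi)
  · rw [getD_idxOf (List.mem_toFinset.1 hx)]

theorem minority (hM : MargOK lam) (h0 : 0 ≤ lam) (h1 : lam ≤ 1) (φ : CNF3) (ob : ℕ → Bool) :
    ∃ τ : ℕ → Bool,
      8 * (1 - lam) * ∑ x ∈ range (3 * φ.length), (if ob x = τ (var φ x) then (0 : ℝ) else 1) ≤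
        ∑ x ∈ range (nv φ), ∑ q : Fin 8, if ob x = ob (step φ (1, q) x) then (0 : ℝ) else 1 := by
  choose τ hτ using fun v => expand hM h0 h1 (side φ v) fun i => ob ((cloud φ v).getD i 0)
  refine ⟨τ, ?_⟩
  have hl := lt_nv φ
  rw [← sum_fiberwise_of_maps_to (s := range (3 * φ.length)) (t := (range (nv φ)).image (var φ))
    (g := var φ) fun x hx => mem_image_of_mem _ (mem_range.2 (by have := mem_range.1 hx; omega)),
    ← sum_fiberwise_of_maps_to (s := range (nv φ)) (t := (range (nv φ)).image (var φ))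
    (g := var φ) fun x hx => mem_image_of_mem _ hx, mul_sum]
  refine sum_le_sum fun v _ => ?_
  have a1 : ∑ x ∈ range (3 * φ.length) with var φ x = v,
      (if ob x = τ (var φ x) then (0 : ℝ) else 1) ≤
      ∑ x ∈ (cloud φ v).toFinset, (if ob x = τ v then (0 : ℝ) else 1) := by
    rw [sum_congr rfl (g := fun x => if ob x = τ v then (0 : ℝ) else 1) fun x hx => by
      rw [(mem_filter.1 hx).2]]
    refine sum_le_sum_of_subset_of_nonneg (fun x hx => ?_) fun _ _ _ => by split_ifs <;> norm_num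
    obtain ⟨e1, e2⟩ := mem_filter.1 hx
    exact List.mem_toFinset.2 (e2 ▸ occ_mem (mem_range.1 e1))
  have a2 : ∑ x ∈ (cloud φ v).toFinset,
      ∑ q : Fin 8, (if ob x = ob (step φ (1, q) x) then (0 : ℝ) else 1) ≤
      ∑ x ∈ range (nv φ) with var φ x = v,
        ∑ q : Fin 8, if ob x = ob (step φ (1, q) x) then (0 : ℝ) else 1 := by
    refine sum_le_sum_of_subset_of_nonneg (fun x hx => ?_) fun _ _ _ =>
      sum_nonneg fun _ _ => by split_ifs <;> norm_num
    have := mem_cloud (List.mem_toFinset.1 hx)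
    exact mem_filter.2 ⟨mem_range.2 (this.1.trans hl), this.2⟩
  refine (mul_le_mul_of_nonneg_left a1 (by linarith)).trans (le_trans ?_ a2)
  rw [sum_cloud, sum_cloud]
  refine (hτ v).trans_eq (sum_congr rfl fun i hi => sum_congr rfl fun q _ => ?_)
  rw [step_cloud (mem_range.1 hi)]

theorem cnfCount_eq (φ : CNF3) (τ : ℕ → Bool) : (φ.length : ℝ) - cnfCount φ τ =
    ∑ j ∈ range φ.length, if clauseTrue τ (clauseAt φ j) = true then (0 : ℝ) else 1 := by
  induction φ with
  | nil => simp [cnfCount]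
  | cons c φ ih =>
    rw [List.length_cons, sum_range_succ']
    have e : (cnfCount (c :: φ) τ : ℝ) =
        cnfCount φ τ + 1 - if clauseTrue τ (clauseAt (c :: φ) 0) = true then (0 : ℝ) else 1 := by
      rw [cnfCount, cnfCount, List.countP_cons, show clauseAt (c :: φ) 0 = c from rfl]
      split_ifs <;> push_cast <;> ring
    have e1 : ∑ j ∈ range φ.length,
        (if clauseTrue τ (clauseAt (c :: φ) (j + 1)) = true then (0 : ℝ) else 1) =
        ∑ j ∈ range φ.length, if clauseTrue τ (clauseAt φ j) = true then (0 : ℝ) else 1 := rfl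
    rw [e, e1, ← ih]
    push_cast
    ring

theorem sum_range_three (m : ℕ) (F : ℕ → ℝ) :
    ∑ x ∈ range (3 * m), F x = ∑ j ∈ range m, (F (3 * j) + F (3 * j + 1) + F (3 * j + 2)) := by
  induction m with
  | zero => simp
  | succ m ih => rw [mul_add, mul_one, sum_range_succ, sum_range_succ, sum_range_succ,
      sum_range_succ, ih]; ring

theorem clause_le (φ : CNF3) (σ : ℕ → S3) (τ : ℕ → Bool) :
    ∑ j ∈ range φ.length, (if clauseTrue τ (clauseAt φ j) = true then (0 : ℝ) else 1) ≤
      ∑ x ∈ range (3 * φ.length), (if sel x (σ x) = τ (var φ x) then (0 : ℝ) else 1) +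
      ∑ x ∈ range (3 * φ.length),
        (if con φ x (0, 0) (σ x) (σ (step φ (0, 0) x)) = true then (0 : ℝ) else 1) := by
  rw [sum_range_three, sum_range_three, ← sum_add_distrib]
  refine sum_le_sum fun j hj => ?_
  have hj' := mem_range.1 hj
  have nn : ∀ (p : Prop) [Decidable p], 0 ≤ (if p then (0 : ℝ) else 1) := fun p _ => by
    split_ifs <;> norm_num
  by_contra hc
  push Not at hc
  have z : ∀ (p : Prop) [Decidable p], (if p then (0 : ℝ) else 1) < 1 → p := fun p _ h => by
    by_contra hp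
    simp [hp] at h
  have hc1 : ¬ clauseTrue τ (clauseAt φ j) = true := fun h => by
    rw [if_pos h] at hc
    exact absurd hc (not_lt.2 (by positivity))
  rw [if_neg hc1] at hc
  have b0 := z (sel (3 * j) (σ (3 * j)) = τ (var φ (3 * j))) (lt_of_le_of_lt (by
    simp only [add_assoc]; exact le_add_of_nonneg_right (by positivity)) hc)
  have b1 := z (sel (3 * j + 1) (σ (3 * j + 1)) = τ (var φ (3 * j + 1))) (lt_of_le_of_lt (by
    refine le_add_of_le_of_nonneg (le_add_of_le_of_nonneg (le_add_of_nonneg_left (nn _)) (nn _)) ?_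
    positivity) hc)
  have b2 := z (sel (3 * j + 2) (σ (3 * j + 2)) = τ (var φ (3 * j + 2))) (lt_of_le_of_lt (by
    exact le_add_of_le_of_nonneg (le_add_of_nonneg_left (by positivity)) (by positivity)) hc)
  have c0 := z (con φ (3 * j) (0, 0) (σ (3 * j)) (σ (step φ (0, 0) (3 * j))) = true)
    (lt_of_le_of_lt (by
      refine le_add_of_nonneg_of_le (by positivity) ?_
      simp only [add_assoc]; exact le_add_of_nonneg_right (by positivity)) hc)
  have c1 := z (con φ (3 * j + 1) (0, 0) (σ (3 * j + 1)) (σ (step φ (0, 0) (3 * j + 1))) = true)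
    (lt_of_le_of_lt (by
      exact le_add_of_nonneg_of_le (by positivity)
        (le_add_of_le_of_nonneg (le_add_of_nonneg_left (nn _)) (nn _))) hc)
  have l0 : 3 * j < 3 * φ.length := by omega
  have l1 : 3 * j + 1 < 3 * φ.length := by omega
  have l2 : 3 * j + 2 < 3 * φ.length := by omega
  have s0 : step φ (0, 0) (3 * j) = 3 * j + 1 := by simp [step, l0]; omega
  have s1 : step φ (0, 0) (3 * j + 1) = 3 * j + 2 := by simp [step, l1]; omega
  have d0 : 3 * j / 3 = j := by omega
  have d1 : (3 * j + 1) / 3 = j := by omega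
  have d2 : (3 * j + 2) / 3 = j := by omega
  have r0 : 3 * j % 3 = 0 := by omega
  have r1 : (3 * j + 1) % 3 = 1 := by omega
  have r2 : (3 * j + 2) % 3 = 2 := by omega
  simp only [con, if_true, l0, l1, s0, s1, Bool.and_eq_true, beq_iff_eq, d0] at c0 c1
  simp only [sel, var, Nat.mod_eq_of_lt, l0, l1, l2, d0, d1, d2, r0, r1, r2, if_true, one_ne_zero,
    if_false, OfNat.ofNat_ne_zero, OfNat.ofNat_ne_one, ← c1.1, ← c0.1] at b0 b1 b2
  apply hc1
  rw [clauseTrue, ← b0, ← b1, ← b2]
  exact c0.2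

theorem sound (hM : MargOK lam) (h0 : 0 ≤ lam) (h1 : lam < 1) (hφ : φ ≠ []) {u : ℝ} (hu : 0 ≤ u)
    (h : ∀ τ, (cnfCount φ τ : ℝ) ≤ (1 - u) * φ.length) (σ : Fin (nv φ) → S3) :
    (1 - lam) / 2304 * u * Fintype.card (Fin (nv φ) × Port) ≤
      ((univ.filter fun e : Fin (nv φ) × Port =>
        con φ e.1 e.2 (σ e.1) (σ (stepF hM φ e.2 e.1)) = false).card : ℝ) := by
  let σ' : ℕ → S3 := fun x => if h : x < nv φ then σ ⟨x, h⟩ else default
  obtain ⟨τ, hτ⟩ := minority hM h0 h1.le φ fun x => sel x (σ' x)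
  have a1 := clause_le φ σ' τ
  rw [← cnfCount_eq] at a1
  have nn : ∀ (p : Prop) [Decidable p], 0 ≤ (if p then (0 : ℝ) else 1) := fun p _ => by
    split_ifs <;> norm_num
  have a2 : ((univ.filter fun e : Fin (nv φ) × Port =>
        con φ e.1 e.2 (σ e.1) (σ (stepF hM φ e.2 e.1)) = false).card : ℝ) =
      ∑ x ∈ range (nv φ), ∑ p : Port,
        if con φ x p (σ' x) (σ' (step φ p x)) = true then (0 : ℝ) else 1 := by
    rw [card_filter, Nat.cast_sum, Fintype.sum_prod_type, ← Fin.sum_univ_eq_sum_range _ (nv φ)]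
    refine sum_congr rfl fun x _ => sum_congr rfl fun p _ => ?_
    have e1 : σ' x = σ x := dif_pos x.2
    have e2 : σ' (step φ p x) = σ (stepF hM φ p x) := dif_pos (step_lt hM p x.2).1
    rw [e1, e2]
    cases con φ x p (σ x) (σ (stepF hM φ p x)) <;> simp
  have a3 : ∑ x ∈ range (3 * φ.length),
        (if con φ x (0, 0) (σ' x) (σ' (step φ (0, 0) x)) = true then (0 : ℝ) else 1) ≤
      ∑ x ∈ range (nv φ), ∑ p : Port,
        if con φ x p (σ' x) (σ' (step φ p x)) = true then (0 : ℝ) else 1 := by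
    have hl := lt_nv φ
    refine (sum_le_sum_of_subset_of_nonneg (range_subset_range.2 (by omega))
      fun _ _ _ => nn _).trans (sum_le_sum fun x _ => ?_)
    exact single_le_sum (f := fun p : Port =>
      if con φ x p (σ' x) (σ' (step φ p x)) = true then (0 : ℝ) else 1) (fun _ _ => nn _)
      (mem_univ (0, 0))
  have a4 : ∑ x ∈ range (nv φ), ∑ q : Fin 8,
        (if sel x (σ' x) = sel (step φ (1, q) x) (σ' (step φ (1, q) x)) then (0 : ℝ) else 1) ≤
      ∑ x ∈ range (nv φ), ∑ p : Port,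
        if con φ x p (σ' x) (σ' (step φ p x)) = true then (0 : ℝ) else 1 := by
    refine sum_le_sum fun x _ => ?_
    rw [Fintype.sum_prod_type]
    refine le_trans ?_ (single_le_sum (f := fun a : Fin 3 => ∑ q : Fin 8,
      if con φ x (a, q) (σ' x) (σ' (step φ (a, q) x)) = true then (0 : ℝ) else 1)
      (fun _ _ => sum_nonneg fun _ _ => nn _) (mem_univ 1))
    simp [con]
  have a5 : (Fintype.card (Fin (nv φ) × Port) : ℝ) ≤ 1152 * φ.length := by
    have := nv_le hφ
    simp only [Fintype.card_prod, Fintype.card_fin]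
    exact_mod_cast (by omega)
  have a6 := h τ
  have a7 := mul_le_mul_of_nonneg_left a5 (show 0 ≤ (1 - lam) / 2304 * u by
    have := sub_nonneg.2 h1.le
    positivity)
  rw [a2]
  have a8 : 0 ≤ ∑ x ∈ range (nv φ), ∑ p : Port,
      if con φ x p (σ' x) (σ' (step φ p x)) = true then (0 : ℝ) else 1 :=
    sum_nonneg fun _ _ => sum_nonneg fun _ _ => nn _
  have a9 := mul_le_mul_of_nonneg_left (a1.trans (add_le_add le_rfl a3)) (sub_nonneg.2 h1.le)
  have a10 := mul_le_mul_of_nonneg_left a6 (sub_nonneg.2 h1.le)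
  nlinarith

end Vale.Agent.P325.PCP
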