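import Vale.Agent.P325.DefsA

/-! Averages over port words and walks. -/

namespace Vale.Agent.P325.Pow

open Finset
open scoped Classical BigOperators

variable {P X : Type} [Fintype P] [Nonempty P]

/-- Average over all words of length `n`. -/
noncomputable def avg (n : ℕ) (f : List P → ℝ) : ℝ := 𝔼 s : Fin n → P, f (List.ofFn s)

omit [Nonempty P] in
theorem avg_zero (f : List P → ℝ) : avg 0 f = f [] := by
  simp [avg]

omit [Nonempty P] in
theorem avg_succ (n : ℕ) (f : List P → ℝ) :
    avg (n + 1) f = 𝔼 p, avg n fun l => f (p :: l) := by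
  unfold avg
  rw [← expect_product', univ_product_univ]
  refine (Fintype.expect_equiv (Fin.consEquiv fun _ : Fin (n + 1) => P) _ _ fun x => ?_).symm
  simp [Fin.consEquiv, List.ofFn_succ]

theorem avg_const (n : ℕ) (c : ℝ) : avg n (fun _ : List P => c) = c := Fintype.expect_const _

omit [Nonempty P] in
theorem avg_mono {n : ℕ} {f g : List P → ℝ} (h : ∀ l, l.length = n → f l ≤ g l) :
    avg n f ≤ avg n g := expect_le_expect fun _ _ => h _ List.length_ofFn

omit [Nonempty P] in
theorem avg_congr {n : ℕ} {f g : List P → ℝ} (h : ∀ l, l.length = n → f l = g l) :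
    avg n f = avg n g :=
  le_antisymm (avg_mono fun l hl => (h l hl).le) (avg_mono fun l hl => (h l hl).ge)

omit [Nonempty P] in
theorem avg_nonneg {n : ℕ} {f : List P → ℝ} (h : ∀ l, 0 ≤ f l) : 0 ≤ avg n f :=
  expect_nonneg fun _ _ => h _

omit [Nonempty P] in
theorem avg_append (m n : ℕ) (f : List P → ℝ) :
    avg (m + n) f = avg m fun a => avg n fun b => f (a ++ b) := by
  induction m generalizing f with
  | zero => simp [avg_zero]
  | succ m ih =>
    rw [Nat.add_right_comm, avg_succ, avg_succ]
    exact expect_congr rfl fun p _ => ih _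

theorem avg_take {m n : ℕ} (h : m ≤ n) (f : List P → ℝ) :
    avg n (fun l => f (l.take m)) = avg m f := by
  obtain ⟨k, rfl⟩ := Nat.exists_eq_add_of_le h
  rw [avg_append]
  refine avg_congr fun a ha => ?_
  rw [← avg_const (P := P) k (f a)]
  exact avg_congr fun b _ => by rw [← ha, List.take_left]

omit [Nonempty P] in
theorem avg_sum {I : Type} (n : ℕ) (s : Finset I) (f : I → List P → ℝ) :
    avg n (fun l => ∑ i ∈ s, f i l) = ∑ i ∈ s, avg n (f i) := expect_sum_comm _ _ _

omit [Nonempty P] in
theorem avg_expect {I : Type} (n : ℕ) (s : Finset I) (f : I → List P → ℝ) :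
    avg n (fun l => 𝔼 i ∈ s, f i l) = 𝔼 i ∈ s, avg n (f i) := expect_comm _ _ _

omit [Nonempty P] in
theorem avg_add (n : ℕ) (f g : List P → ℝ) :
    avg n (fun l => f l + g l) = avg n f + avg n g := expect_add_distrib _ _ _

omit [Nonempty P] in
theorem avg_mul (n : ℕ) (c : ℝ) (f : List P → ℝ) :
    avg n (fun l => c * f l) = c * avg n f := (mul_expect _ _ _).symm

omit [Nonempty P] in
theorem avg_mul' (n : ℕ) (c : ℝ) (f : List P → ℝ) :
    avg n (fun l => f l * c) = avg n f * c := (expect_mul _ _ _).symm

/-- The word leading back. -/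
def rev (ι : P → P) (l : List P) : List P := (l.map ι).reverse

omit [Fintype P] [Nonempty P] in
theorem length_rev (ι : P → P) (l : List P) : (rev ι l).length = l.length := by simp [rev]

omit [Nonempty P] in
theorem avg_rev {ι : P → P} (hι : ∀ p, ι (ι p) = p) (n : ℕ) (f : List P → ℝ) :
    avg n (fun l => f (rev ι l)) = avg n f := by
  have hi : Function.Involutive fun (s : Fin n → P) (i : Fin n) => ι (s i.rev) := fun s => by
    funext i; simp [hι]
  refine Fintype.expect_bijective _ hi.bijective _ _ fun s => congrArg f ?_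
  refine List.ext_getElem (by simp [rev]) fun i h1 h2 => ?_
  simp only [rev, List.getElem_reverse, List.getElem_map, List.getElem_ofFn, List.length_map,
    List.length_ofFn]
  congr 2
  ext
  simp only [Fin.val_rev]
  omega

omit [Fintype P] [Nonempty P] in
theorem walk_cons (π : P → X → X) (x : X) (p : P) (s : List P) :
    walk π x (p :: s) = walk π (π p x) s := rfl

omit [Fintype P] [Nonempty P] in
theorem walk_append (π : P → X → X) (x : X) (s s' : List P) :
    walk π x (s ++ s') = walk π (walk π x s) s' := List.foldl_append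

omit [Fintype P] [Nonempty P] in
theorem walk_rev {ι : P → P} {π : P → X → X} (h : ∀ p x, π (ι p) (π p x) = x) (s : List P)
    (x : X) : walk π (walk π x s) (rev ι s) = x := by
  induction s generalizing x with
  | nil => rfl
  | cons p s ih =>
    have e : rev ι (p :: s) = rev ι s ++ [ι p] := by simp [rev]
    rw [e, walk_append, walk_cons π x, ih]
    exact h p x

omit [Fintype P] [Nonempty P] in
theorem consAlong_getD {C : Type} (π : P → X → X) (con : X → P → C) (d : C) (s : List P) (p : P)
    (s' : List P) (x : X) :
    (consAlong π con x (s ++ p :: s')).getD s.length d = con (walk π x s) p := by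
  induction s generalizing x with
  | nil => rfl
  | cons q s ih => exact ih (π q x)

variable [Fintype X]

omit [Fintype P] [Nonempty P] in
theorem expect_walk {ι : P → P} {π : P → X → X} (h : ∀ p x, π (ι p) (π p x) = x) (s : List P)
    (g : X → ℝ) : 𝔼 x, g (walk π x s) = 𝔼 x, g x :=
  Fintype.expect_bijective (fun x => walk π x s)
    (Finite.injective_iff_bijective.1 (Function.LeftInverse.injective
      (g := fun y => walk π y (rev ι s)) (walk_rev h s))) _ _
    fun _ => rfl

omit [Nonempty P] in
theorem expect_reverse {ι : P → P} {π : P → X → X} (hι : ∀ p, ι (ι p) = p)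
    (h : ∀ p x, π (ι p) (π p x) = x) (n : ℕ) (K : X → List P → ℝ) :
    𝔼 a, avg n (K a) = 𝔼 v, avg n fun s => K (walk π v s) (rev ι s) := by
  rw [← avg_expect, ← avg_expect, ← avg_rev hι n fun l => 𝔼 a, K a l]
  exact avg_congr fun s _ => (expect_walk h s fun a => K a (rev ι s)).symm

end Vale.Agent.P325.Pow
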