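import Vale.Agent.P325.PowA

/-! Second moment of the number of marked edges along a walk. -/

namespace Vale.Agent.P325.Pow

open Finset
open scoped Classical BigOperators

variable {P X : Type} [Fintype P] [Nonempty P] [Fintype X] [Nonempty X]

/-- Total weight of the edges along a walk. -/
def cnt (π : P → X → X) (f : X → P → ℝ) : X → List P → ℝ
  | _, [] => 0
  | x, p :: l => f x p + cnt π f (π p x) l

omit [Nonempty P] [Nonempty X] in
theorem gap_expect {π : P → X → X} {lam : ℝ} (hg : Gap π lam) (g : X → ℝ) (h0 : 𝔼 x, g x = 0) :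
    𝔼 x, (𝔼 p, g (π p x)) ^ 2 ≤ lam ^ 2 * 𝔼 x, g x ^ 2 := by
  have h1 : ∑ x, g x = 0 := by rw [← Fintype.card_mul_expect, h0, mul_zero]
  rw [Fintype.expect_eq_sum_div_card, Fintype.expect_eq_sum_div_card, ← mul_div_assoc]
  exact div_le_div_of_nonneg_right (hg g h1) (Nat.cast_nonneg _)

omit [Nonempty X] in
theorem expect_port {ι : P → P} {π : P → X → X} (h : ∀ p x, π (ι p) (π p x) = x) (g : X → ℝ) :
    𝔼 x, 𝔼 p, g (π p x) = 𝔼 x, g x := by
  rw [expect_comm, ← Fintype.expect_const (ι := P) (𝔼 x, g x)]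
  exact expect_congr rfl fun p _ => expect_walk h [p] g

omit [Fintype X] [Nonempty X] in
theorem avg_cnt_succ (π : P → X → X) (f : X → P → ℝ) (n : ℕ) (x : X) :
    avg (n + 1) (cnt π f x) = 𝔼 p, f x p + 𝔼 p, avg n (cnt π f (π p x)) := by
  rw [avg_succ, ← expect_add_distrib]
  refine expect_congr rfl fun p _ => ?_
  simp only [cnt]
  rw [avg_add, avg_const]

theorem sq_add_le {l : ℝ} (h0 : 0 < l) (h1 : l < 1) (x y : ℝ) :
    (x + y) ^ 2 ≤ (1 - l)⁻¹ * x ^ 2 + l⁻¹ * y ^ 2 := by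
  have h2 : 0 < 1 - l := by linarith
  have e : (1 - l)⁻¹ * x ^ 2 + l⁻¹ * y ^ 2 - (x + y) ^ 2 =
      (l * x - (1 - l) * y) ^ 2 / (l * (1 - l)) := by
    field_simp
    ring
  have : 0 ≤ (l * x - (1 - l) * y) ^ 2 / (l * (1 - l)) := by positivity
  linarith

theorem first_dev {ι : P → P} {π : P → X → X} (h : ∀ p x, π (ι p) (π p x) = x) {lam : ℝ}
    (h0 : 0 < lam) (h1 : lam < 1) (hg : Gap π lam) {f : X → P → ℝ} (f0 : ∀ x p, 0 ≤ f x p)
    (f1 : ∀ x p, f x p ≤ 1) {φ : ℝ} (hφ : 𝔼 x, 𝔼 p, f x p = φ) (n : ℕ) :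
    𝔼 x, (avg n (cnt π f x) - n * φ) = 0 ∧
      𝔼 x, (avg n (cnt π f x) - n * φ) ^ 2 ≤ (1 - lam)⁻¹ ^ 2 * φ := by
  have hφ0 : 0 ≤ φ := hφ ▸ expect_nonneg fun x _ => expect_nonneg fun p _ => f0 x p
  have h2 : 0 < 1 - lam := by linarith
  have g0 : 𝔼 x, (𝔼 p, f x p - φ) = 0 := by
    rw [expect_sub_distrib, hφ, Fintype.expect_const, sub_self]
  have g2 : 𝔼 x, (𝔼 p, f x p - φ) ^ 2 ≤ φ := by
    have a1 : 𝔼 x, (𝔼 p, f x p - φ) ^ 2 ≤ 𝔼 x, ((1 - 2 * φ) * 𝔼 p, f x p + φ ^ 2) := by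
      refine expect_le_expect fun x _ => ?_
      have b0 : 0 ≤ 𝔼 p, f x p := expect_nonneg fun p _ => f0 x p
      have b1 : 𝔼 p, f x p ≤ 1 := expect_le univ_nonempty fun p _ => f1 x p
      nlinarith
    rw [expect_add_distrib, ← mul_expect, hφ, Fintype.expect_const] at a1
    nlinarith
  induction n with
  | zero =>
    simp only [avg_zero, cnt, Nat.cast_zero, zero_mul, sub_self, expect_const_zero, true_and,
      ne_eq, OfNat.ofNat_ne_zero, not_false_eq_true, zero_pow]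
    positivity
  | succ n ih =>
    have e : ∀ x, avg (n + 1) (cnt π f x) - (n + 1 : ℕ) * φ =
        (𝔼 p, f x p - φ) + 𝔼 p, (avg n (cnt π f (π p x)) - n * φ) := fun x => by
      rw [avg_cnt_succ, expect_sub_distrib, Fintype.expect_const]
      push_cast
      ring
    simp only [e]
    constructor
    · rw [expect_add_distrib, g0, expect_port h fun x => avg n (cnt π f x) - n * φ, ih.1, add_zero]
    · have a1 := gap_expect hg _ ih.1
      refine (expect_le_expect fun x _ => sq_add_le h0 h1 _ _).trans ?_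
      rw [expect_add_distrib, ← mul_expect, ← mul_expect]
      have a2 := mul_le_mul_of_nonneg_left g2 (inv_pos.2 h2).le
      have a3 := mul_le_mul_of_nonneg_left
        (a1.trans (mul_le_mul_of_nonneg_left ih.2 (sq_nonneg lam))) (inv_pos.2 h0).le
      refine (add_le_add a2 a3).trans (le_of_eq ?_)
      field_simp
      ring

theorem second_moment {ι : P → P} {π : P → X → X} (h : ∀ p x, π (ι p) (π p x) = x) {lam : ℝ}
    (h0 : 0 < lam) (h1 : lam < 1) (hg : Gap π lam) {f : X → P → ℝ} (f0 : ∀ x p, 0 ≤ f x p)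
    (f1 : ∀ x p, f x p ≤ 1) {φ : ℝ} (hφ : 𝔼 x, 𝔼 p, f x p = φ) (n : ℕ) :
    𝔼 x, avg n (fun l => cnt π f x l ^ 2) ≤
      n * (1 + 2 * (1 - lam)⁻¹) * φ + (n * φ) ^ 2 := by
  have hφ0 : 0 ≤ φ := hφ ▸ expect_nonneg fun x _ => expect_nonneg fun p _ => f0 x p
  obtain ⟨κ, hκ⟩ : ∃ κ, κ = (1 - lam)⁻¹ := ⟨_, rfl⟩
  have κ0 : 0 < κ := hκ ▸ inv_pos.2 (by linarith)
  rw [← hκ]
  induction n with
  | zero => simp [avg_zero, cnt]
  | succ n ih =>
    have a0 := (first_dev h h0 h1 hg f0 f1 hφ n).2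
    rw [← hκ] at a0
    have a1 : ∀ x, avg (n + 1) (fun l => cnt π f x l ^ 2) ≤
        𝔼 p, ((1 + 2 * n * φ + κ) * f x p + (κ⁻¹ * (avg n (cnt π f (π p x)) - n * φ) ^ 2 +
          avg n fun l => cnt π f (π p x) l ^ 2)) := fun x => by
      rw [avg_succ]
      refine expect_le_expect fun p _ => ?_
      have e : ∀ l, cnt π f x (p :: l) ^ 2 =
          f x p ^ 2 + (2 * f x p * cnt π f (π p x) l + cnt π f (π p x) l ^ 2) := fun l => by
        simp only [cnt]; ring
      simp only [e]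
      rw [avg_add, avg_add, avg_const, avg_mul]
      generalize avg n (cnt π f (π p x)) = b
      have b0 := f0 x p
      have b1 := f1 x p
      generalize f x p = y at b0 b1
      have b2 : 2 * y * (b - n * φ) ≤ κ * y ^ 2 + κ⁻¹ * (b - n * φ) ^ 2 := by
        have e2 : κ * y ^ 2 + κ⁻¹ * (b - n * φ) ^ 2 - 2 * y * (b - n * φ) =
            (κ * y - (b - n * φ)) ^ 2 / κ := by
          field_simp
          ring
        have : 0 ≤ (κ * y - (b - n * φ)) ^ 2 / κ := by positivity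
        linarith
      have b3 : y ^ 2 ≤ y := by nlinarith
      have b4 := mul_le_mul_of_nonneg_left b3 κ0.le
      nlinarith
    refine (expect_le_expect fun x _ => a1 x).trans ?_
    simp only [expect_add_distrib, ← mul_expect]
    rw [hφ, expect_port h fun x => (avg n (cnt π f x) - n * φ) ^ 2,
      expect_port h fun x => avg n fun l => cnt π f x l ^ 2]
    have a2 := mul_le_mul_of_nonneg_left a0 (inv_pos.2 κ0).le
    have e3 : κ⁻¹ * (κ ^ 2 * φ) = κ * φ := by field_simp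
    rw [e3] at a2
    push_cast
    nlinarith [sq_nonneg φ]

end Vale.Agent.P325.Pow
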