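import Vale.Agent.P325.PowB

/-! First moment of the number of detected violations along a walk. -/

namespace Vale.Agent.P325.Pow

open Finset
open scoped Classical BigOperators

variable {P X S : Type}

/-- Indicator of an equality. -/
noncomputable def ind (a b : S) : ℝ := if a = b then 1 else 0

theorem ind_nonneg (a b : S) : 0 ≤ ind a b := by unfold ind; split_ifs <;> norm_num

theorem ind_le (a b : S) : ind a b ≤ 1 := by unfold ind; split_ifs <;> norm_num

/-- Weight of the edge after the word `s`, counted when both opinions are the popular ones. -/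
noncomputable def det (ι : P → P) (π : P → X → X) (f : X → P → ℝ) (o : X → List P → S)
    (σ : X → S) (t : ℕ) (a : X) (s : List P) : List P → ℝ
  | [] => 0
  | p :: s' => f (walk π a s) p * ind (o a s) (σ (walk π a s)) *
      if s'.length < t then
        ind (o (walk π (π p (walk π a s)) s') (rev ι s')) (σ (π p (walk π a s))) else 0

/-- Number of detected violations. -/
noncomputable def num (ι : P → P) (π : P → X → X) (f : X → P → ℝ) (o : X → List P → S)
    (σ : X → S) (t : ℕ) (a : X) (l : List P) : ℝ :=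
  ∑ x ∈ range t, det ι π f o σ t a (l.take x) (l.drop x)

/-- Weight of the first edge. -/
def hd (f : X → P → ℝ) (v : X) : List P → ℝ
  | [] => 0
  | p :: _ => f v p

variable {ι : P → P} {π : P → X → X} {f : X → P → ℝ} {o : X → List P → S} {σ : X → S} {t : ℕ}

theorem det_nonneg (f0 : ∀ x p, 0 ≤ f x p) (a : X) (s r : List P) :
    0 ≤ det ι π f o σ t a s r := by
  cases r with
  | nil => exact le_rfl
  | cons p s' =>
    refine mul_nonneg (mul_nonneg (f0 _ _) (ind_nonneg _ _)) ?_
    split_ifs
    · exact ind_nonneg _ _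
    · exact le_rfl

theorem det_le (f0 : ∀ x p, 0 ≤ f x p) (a : X) (s r : List P) :
    det ι π f o σ t a s r ≤ hd f (walk π a s) r := by
  cases r with
  | nil => exact le_rfl
  | cons p s' =>
    refine (mul_le_of_le_one_right (mul_nonneg (f0 _ _) (ind_nonneg _ _)) ?_).trans
      (mul_le_of_le_one_right (f0 _ _) (ind_le _ _))
    split_ifs
    · exact ind_le _ _
    · exact zero_le_one

theorem cnt_nonneg (f0 : ∀ x p, 0 ≤ f x p) (a : X) (l : List P) : 0 ≤ cnt π f a l := by
  induction l generalizing a with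
  | nil => exact le_rfl
  | cons p l ih => exact add_nonneg (f0 _ _) (ih _)

theorem sum_hd_le (f0 : ∀ x p, 0 ≤ f x p) (l : List P) (a : X) (n : ℕ) :
    ∑ x ∈ range n, hd f (walk π a (l.take x)) (l.drop x) ≤ cnt π f a l := by
  induction l generalizing a n with
  | nil => simp [hd, cnt]
  | cons p l ih =>
    cases n with
    | zero => simpa using cnt_nonneg f0 a (p :: l)
    | succ n =>
      rw [sum_range_succ', cnt, add_comm]
      exact add_le_add le_rfl (ih (π p a) n)

theorem num_nonneg (f0 : ∀ x p, 0 ≤ f x p) (a : X) (l : List P) : 0 ≤ num ι π f o σ t a l :=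
  sum_nonneg fun _ _ => det_nonneg f0 _ _ _

theorem num_le (f0 : ∀ x p, 0 ≤ f x p) (a : X) (l : List P) :
    num ι π f o σ t a l ≤ cnt π f a l :=
  (sum_le_sum fun _ _ => det_le f0 _ _ _).trans (sum_hd_le f0 l a t)

theorem num_ne {a : X} {l : List P} (h : num ι π f o σ t a l ≠ 0) :
    ∃ s p s', l = s ++ p :: s' ∧ s.length < t ∧ s'.length < t ∧ f (walk π a s) p ≠ 0 ∧
      o a s = σ (walk π a s) ∧ o (walk π a l) (rev ι s') = σ (π p (walk π a s)) := by
  obtain ⟨x, hx, h1⟩ := exists_ne_zero_of_sum_ne_zero h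
  have e := List.take_append_drop x l
  have h2 : (l.take x).length < t := (List.length_take_le x l).trans_lt (mem_range.1 hx)
  generalize l.take x = s at h1 e h2
  generalize l.drop x = r at h1 e
  cases r with
  | nil => exact absurd rfl h1
  | cons p s' =>
    subst e
    simp only [det, ind, mul_ite, mul_one, mul_zero, ne_eq, ite_eq_right_iff, Classical.not_imp] at h1
    exact ⟨s, p, s', rfl, h2, h1.1, h1.2.2.2, h1.2.2.1, by rw [walk_append]; exact h1.2.1⟩

variable [Fintype P] [Fintype X]

/-- Probability that the end of a walk of length `x` holds the opinion `c` about its start. -/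
noncomputable def pop (ι : P → P) (π : P → X → X) (o : X → List P → S) (x : ℕ) (v : X) (c : S) :
    ℝ := avg x fun s => ind (o (walk π v s) (rev ι s)) c

theorem expect_det (hι : ∀ p, ι (ι p) = p) (h : ∀ p x, π (ι p) (π p x) = x) (x : ℕ) {y : ℕ}
    (hy : y < t) :
    𝔼 a, avg (x + y + 1) (fun l => det ι π f o σ t a (l.take x) (l.drop x)) =
      𝔼 v, 𝔼 p, f v p * (pop ι π o x v (σ v) * pop ι π o y (π p v) (σ (π p v))) := by
  have e1 : ∀ a, avg (x + y + 1) (fun l => det ι π f o σ t a (l.take x) (l.drop x)) =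
      avg x fun s => 𝔼 p, f (walk π a s) p * ind (o a s) (σ (walk π a s)) *
        pop ι π o y (π p (walk π a s)) (σ (π p (walk π a s))) := fun a => by
    rw [add_assoc, avg_append]
    refine avg_congr fun s hs => ?_
    rw [avg_succ]
    refine expect_congr rfl fun p _ => ?_
    rw [pop, ← avg_mul]
    refine avg_congr fun s' hs' => ?_
    rw [← hs, List.take_left, List.drop_left, det, if_pos (hs' ▸ hy)]
  simp only [e1]
  rw [expect_reverse hι h]
  refine expect_congr rfl fun v _ => ?_
  simp only [walk_rev h]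
  rw [avg_expect]
  refine expect_congr rfl fun p _ => ?_
  rw [avg_mul', avg_mul, mul_assoc]
  rfl

theorem first_moment (hι : ∀ p, ι (ι p) = p) (h : ∀ p x, π (ι p) (π p x) = x)
    (f0 : ∀ x p, 0 ≤ f x p) {q : ℝ} (hq : 0 ≤ q)
    (hσ : ∀ v, q ≤ ∑ x ∈ range t, pop ι π o x v (σ v)) :
    (𝔼 v, 𝔼 p, f v p) * q ^ 2 ≤ ∑ L ∈ range (2 * t), 𝔼 a, avg (L + 1) (num ι π f o σ t a) := by
  have e1 : ∀ L, 𝔼 a, avg (L + 1) (num ι π f o σ t a) = ∑ x ∈ range t,
      𝔼 a, avg (L + 1) fun l => det ι π f o σ t a (l.take x) (l.drop x) := fun L => by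
    rw [← expect_sum_comm]
    exact expect_congr rfl fun a _ => avg_sum _ _ _
  simp only [e1]
  rw [sum_comm]
  have a1 : ∀ x ∈ range t, ∑ y ∈ range t,
      𝔼 v, 𝔼 p, f v p * (pop ι π o x v (σ v) * pop ι π o y (π p v) (σ (π p v))) ≤
      ∑ L ∈ range (2 * t), 𝔼 a, avg (L + 1) fun l => det ι π f o σ t a (l.take x) (l.drop x) := by
    intro x hx
    rw [← sum_congr rfl fun y hy => expect_det hι h x (mem_range.1 hy),
      ← sum_image (s := range t) (g := fun y => x + y) (f := fun L =>
        𝔼 a, avg (L + 1) fun l => det ι π f o σ t a (l.take x) (l.drop x))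
        (fun _ _ _ _ h => Nat.add_left_cancel h)]
    refine sum_le_sum_of_subset_of_nonneg (fun L hL => ?_) fun L _ _ =>
      expect_nonneg fun a _ => avg_nonneg fun l => det_nonneg f0 _ _ _
    obtain ⟨y, hy, rfl⟩ := mem_image.1 hL
    rw [mem_range] at hx hy ⊢
    omega
  refine le_trans ?_ (sum_le_sum a1)
  simp only [← expect_sum_comm, ← mul_sum, ← sum_mul, expect_mul]
  refine expect_le_expect fun v _ => expect_le_expect fun p _ =>
    mul_le_mul_of_nonneg_left ?_ (f0 v p)
  rw [sq]
  exact mul_le_mul (hσ v) (hσ _) hq (hq.trans (hσ v))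

omit [Fintype X] in
theorem exists_pop [Nonempty P] [Fintype S] [Nonempty S] (ι : P → P) (π : P → X → X)
    (o : X → List P → S) (t : ℕ) (v : X) :
    ∃ c, (t : ℝ) / Fintype.card S ≤ ∑ x ∈ range t, pop ι π o x v c := by
  have e : ∑ c, ∑ x ∈ range t, pop ι π o x v c = t := by
    rw [sum_comm]
    have : ∀ x, ∑ c, pop ι π o x v c = 1 := fun x => by
      unfold pop
      rw [← avg_sum, ← avg_const (P := P) x 1]
      exact avg_congr fun s _ => by simp [ind]
    simp [this]
  obtain ⟨c, _, hc⟩ := exists_le_of_le_expect (s := univ) univ_nonempty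
    (f := fun c => ∑ x ∈ range t, pop ι π o x v c) (a := (t : ℝ) / Fintype.card S)
    (by rw [Fintype.expect_eq_sum_div_card, e])
  exact ⟨c, hc⟩

end Vale.Agent.P325.Pow
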