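import Vale.Agent.P325.PTools

/-! Completeness of the test of the final reduction. -/

namespace Vale.Agent.P325.Red

open Finset
open scoped Classical BigOperators

theorem expect_prod {ι κ : Type} [Fintype ι] [Fintype κ] (f : ι × κ → ℝ) :
    𝔼 x, f x = 𝔼 i, 𝔼 j, f (i, j) := by
  rw [← Finset.univ_product_univ, Finset.expect_product]

theorem expect_coord {ι β : Type} [Fintype ι] [DecidableEq ι] [Fintype β] [Nonempty β] (i : ι)
    (f : β → ℝ) :
    𝔼 u : ι → β, f (u i) = 𝔼 b, f b := by
  rw [Fintype.expect_equiv (Equiv.piSplitAt i fun _ => β) (fun u => f (u i)) (fun p => f p.1)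
    (fun _ => rfl), expect_prod]
  exact Finset.expect_congr rfl fun b _ => Fintype.expect_const (f b)

theorem expect_lin {J V : Type} [Fintype J] [DecidableEq J] [Fintype V] [AddCommGroup V]
    [Module (ZMod 2) V] (z : J → ZMod 2) (j0 : J) (hz : z j0 = 1) (h : V → ℝ) :
    𝔼 M : J → V, h (∑ j, z j • M j) = 𝔼 v, h v := by
  have h1 : ∀ v : V, 𝔼 M : J → V, h (∑ j, z j • M j) = 𝔼 M : J → V, h (∑ j, z j • M j + v) := by
    intro v
    symm
    refine Fintype.expect_equiv (Equiv.addRight (Pi.single j0 v)) _ _ fun M => ?_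
    congr 1
    simp only [Equiv.coe_addRight, Pi.add_apply, smul_add, Finset.sum_add_distrib]
    congr 1
    rw [Finset.sum_eq_single j0 (fun j _ hj => by simp [Pi.single_eq_of_ne hj]) (by simp), hz]
    simp
  calc 𝔼 M : J → V, h (∑ j, z j • M j) = 𝔼 v : V, 𝔼 M : J → V, h (∑ j, z j • M j + v) := by
        rw [← Fintype.expect_const (ι := V) (𝔼 M : J → V, h (∑ j, z j • M j))]
        exact Finset.expect_congr rfl fun v _ => h1 v
    _ = 𝔼 M : J → V, 𝔼 v, h v := by
        rw [Finset.expect_comm]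
        exact Finset.expect_congr rfl fun M _ =>
          Fintype.expect_equiv (Equiv.addLeft _) _ _ fun v => rfl
    _ = 𝔼 v, h v := Fintype.expect_const _

theorem acc_nonneg {l m : ℕ} {Ω : Type} [Fintype Ω] (a : Ω → Bv l × Bv m) {k : ℕ}
    (b : Fin k → ZMod 2) (F : (Fin k × Fin 3 → Bv l × Bv m) → Bv l) : 0 ≤ acc a b F :=
  expect_nonneg fun _ _ => expect_nonneg fun _ _ => expect_nonneg fun _ _ =>
    expect_nonneg fun _ _ => by split_ifs <;> norm_num

/-- The code of a vector. -/
def code {l m : ℕ} (g : Bv m → Bv l) (v : Bv l × Bv m) : Bv l := v.1 + g v.2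

theorem zmod_cases (x : ZMod 2) : x = 0 ∨ x = 1 := by
  revert x
  decide

theorem acc_complete {l m : ℕ} {Ω : Type} [Fintype Ω] [Nonempty Ω] (g : Bv m → Bv l)
    (a : Ω → Bv l × Bv m) (p : ℝ) (hp0 : 0 ≤ p)
    (hp : ((univ.filter fun x : Bv m × Ω => (a x.2).1 + g (x.1 + (a x.2).2) ≠ g x.1).card : ℝ) ≤
      p * Fintype.card (Bv m × Ω))
    {k : ℕ} (b : Fin k → ZMod 2) (z : Fin k × Fin 3 → ZMod 2)
    (hz : ∀ i, z (i, 0) + z (i, 1) + z (i, 2) = b i) :
    1 - p ≤ acc a b fun M => code g (∑ j, z j • M j) := by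
  have key : ∀ (M : Fin k × Fin 3 → Bv l × Bv m) (ω : Ω) (y : Fin k × Fin 3 → ZMod 2)
      (n : Fin k → Bv l), ∑ j, z j • (M j + y j • a ω + (n j.1, 0))
        = ∑ j, z j • M j + (∑ j, z j * y j) • a ω + (∑ i, b i • n i, 0) := by
    intro M ω y n
    simp only [smul_add, Finset.sum_add_distrib, smul_smul, Finset.sum_smul]
    congr 1
    rw [Fintype.sum_prod_type]
    ext1
    · simp only [Prod.fst_sum, Prod.smul_mk, Fin.sum_univ_three, Prod.fst_add]
      exact Finset.sum_congr rfl fun i _ => by rw [← add_smul, ← add_smul, hz]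
    · simp [Prod.snd_sum]
  have pass : ∀ (M : Fin k × Fin 3 → Bv l × Bv m) (ω : Ω) (y : Fin k × Fin 3 → ZMod 2)
      (n : Fin k → Bv l), (∑ j, z j * y j = 0 ∨ (a ω).1 + g ((∑ j, z j • M j).2 + (a ω).2)
        = g (∑ j, z j • M j).2) → code g (∑ j, z j • (M j + y j • a ω + (n j.1, 0)))
        = code g (∑ j, z j • M j) + ∑ i, b i • n i := by
    intro M ω y n h
    rw [key]
    unfold code
    rcases zmod_cases (∑ j, z j * y j) with h0 | h1
    · rw [h0]
      simp only [zero_smul, add_zero, Prod.fst_add, Prod.snd_add]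
      abel
    · rw [h1] at h ⊢
      have h2 := h.resolve_left one_ne_zero
      simp only [one_smul, add_zero, Prod.fst_add, Prod.snd_add]
      rw [← h2]
      abel
  by_cases h0 : ∀ j, z j = 0
  · refine le_trans (by linarith : 1 - p ≤ 1) ?_
    refine le_expect univ_nonempty fun M _ => le_expect univ_nonempty fun ω _ =>
      le_expect univ_nonempty fun y _ => le_expect univ_nonempty fun n _ => ?_
    rw [if_pos (pass M ω y n (Or.inl (by simp [h0])))]
  · obtain ⟨j0, hj0⟩ := not_forall.1 h0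
    have hj := (zmod_cases (z j0)).resolve_left hj0
    let G : Bv m × Ω → ℝ := fun x =>
      if (a x.2).1 + g (x.1 + (a x.2).2) ≠ g x.1 then 1 else 0
    have h1 : 𝔼 x, G x ≤ p := by
      rw [Fintype.expect_eq_sum_div_card, div_le_iff₀ (by exact_mod_cast Fintype.card_pos)]
      refine le_trans (le_of_eq ?_) hp
      rw [Finset.card_filter]
      push_cast
      rfl
    have h2 : 𝔼 M : Fin k × Fin 3 → Bv l × Bv m, 𝔼 ω, (1 - G ((∑ j, z j • M j).2, ω))
        = 1 - 𝔼 x, G x := by
      rw [expect_lin z j0 hj fun v : Bv l × Bv m => 𝔼 ω, (1 - G (v.2, ω)), expect_prod,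
        expect_prod G]
      simp only [expect_sub_distrib, Fintype.expect_const]
    refine le_trans (by linarith) (h2.ge.trans ?_)
    refine expect_le_expect fun M _ => expect_le_expect fun ω _ =>
      le_expect univ_nonempty fun y _ => le_expect univ_nonempty fun n _ => ?_
    by_cases h3 : (a ω).1 + g ((∑ j, z j • M j).2 + (a ω).2) = g (∑ j, z j • M j).2
    · rw [if_pos (pass M ω y n (Or.inr h3))]
      simp only [G]
      split_ifs <;> norm_num
    · simp only [G]
      rw [if_pos h3]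
      split_ifs <;> norm_num

/-- Union bound over the coordinates of a random tuple. -/
theorem tuple_bound {N k : ℕ} (hN : 0 < N) (good : Fin N → Prop) (A : (Fin k → Fin N) → ℝ)
    (p η : ℝ) (hp : 0 ≤ p) (h0 : ∀ U, 0 ≤ A U) (h1 : ∀ U, (∀ i, good (U i)) → 1 - p ≤ A U)
    (hg : (1 - η) * N ≤ ((univ.filter good).card : ℝ)) : 1 - p - k * η ≤ 𝔼 U, A U := by
  have : Nonempty (Fin N) := ⟨⟨0, hN⟩⟩
  let G : Fin N → ℝ := fun e => if good e then 0 else 1
  have hN' : (0 : ℝ) < N := by exact_mod_cast hN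
  have h2 : 𝔼 e, G e ≤ η := by
    rw [Fintype.expect_eq_sum_div_card, Fintype.card_fin, div_le_iff₀ hN']
    have h3 : ∑ e, G e + ((univ.filter good).card : ℝ) = N := by
      rw [Finset.card_filter]
      push_cast
      rw [← Finset.sum_add_distrib, Finset.sum_congr rfl (g := fun _ => (1 : ℝ))
        fun e _ => by simp only [G]; split_ifs <;> norm_num]
      simp
    linarith
  have h4 : 𝔼 U : Fin k → Fin N, (1 - p - ∑ i, G (U i)) = 1 - p - k * 𝔼 e, G e := by
    rw [expect_sub_distrib, Fintype.expect_const, expect_sum_comm]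
    rw [Finset.sum_congr rfl fun i _ => expect_coord i G]
    simp
  have h5 := mul_le_mul_of_nonneg_left h2 (Nat.cast_nonneg (α := ℝ) k)
  refine le_trans (by linarith) (h4.ge.trans (expect_le_expect fun U _ => ?_))
  have hG : ∀ e, 0 ≤ G e := fun e => by simp only [G]; split_ifs <;> norm_num
  by_cases h : ∀ i, good (U i)
  · have := Finset.sum_nonneg fun i (_ : i ∈ univ) => hG (U i)
    linarith [h1 U h]
  · obtain ⟨i, hi⟩ := not_forall.1 h
    have h6 := Finset.single_le_sum (f := fun i => G (U i)) (fun i _ => hG (U i)) (mem_univ i)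
    have h7 : G (U i) = 1 := if_neg hi
    linarith [h0 U]

end Vale.Agent.P325.Red
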