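import Vale.Agent.P325.Defs

/-! Abstract lemmas for the soundness proof (part E2). -/

namespace Vale.Agent.P325.Snd

open Finset
open scoped Classical BigOperators

lemma z2_cases (x : ZMod 2) : x = 0 ∨ x = 1 := by
  revert x
  decide

lemma sg_add (x y : ZMod 2) : sg (x + y) = sg x * sg y := by
  have h11 : (1 : ZMod 2) + 1 = 0 := by decide
  rcases z2_cases x with rfl | rfl <;> rcases z2_cases y with rfl | rfl <;> simp [sg, h11]

lemma sg_sq (x : ZMod 2) : sg x * sg x = 1 := by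
  unfold sg
  split_ifs <;> norm_num

lemma sg_zero : sg 0 = 1 := by simp [sg]

lemma abs_sg (x : ZMod 2) : |sg x| = 1 := by
  unfold sg
  split_ifs <;> norm_num

lemma sg_sum {I : Type} (s : Finset I) (h : I → ZMod 2) :
    sg (∑ i ∈ s, h i) = ∏ i ∈ s, sg (h i) := by
  induction s using Finset.induction_on with
  | empty => simp [sg_zero]
  | insert a s ha ih => rw [sum_insert ha, prod_insert ha, sg_add, ih]

lemma sum_sg_mul (y : ZMod 2) : ∑ t : ZMod 2, sg (t * y) = if y = 0 then 2 else 0 := by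
  have h : (univ : Finset (ZMod 2)) = {0, 1} := by decide
  rw [h, sum_pair (by decide)]
  by_cases hy : y = 0
  · simp [hy, sg_zero]; norm_num
  · simp [hy, sg]

lemma sum_sg_dot {I : Type} [Fintype I] [DecidableEq I] (y : I → ZMod 2) :
    ∑ w : I → ZMod 2, sg (∑ j, w j * y j) = if y = 0 then (Fintype.card (I → ZMod 2) : ℝ) else 0 := by
  have h1 : ∑ w : I → ZMod 2, sg (∑ j, w j * y j) = ∏ j, ∑ t : ZMod 2, sg (t * y j) := by
    rw [Finset.prod_univ_sum]
    simp only [Fintype.piFinset_univ, sg_sum]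
  rw [h1]
  simp only [sum_sg_mul]
  by_cases hy : y = 0
  · simp [hy]
  · rw [if_neg hy]
    obtain ⟨j, hj⟩ := Function.ne_iff.mp hy
    exact prod_eq_zero (mem_univ j) (if_neg hj)

/-- Parseval for a sign valued function. -/
lemma parseval {I : Type} [Fintype I] [DecidableEq I] (g : (I → ZMod 2) → ℝ) (hg : ∀ y, g y * g y = 1) :
    ∑ w : I → ZMod 2, (𝔼 y : I → ZMod 2, g y * sg (∑ j, w j * y j)) ^ 2 = 1 := by
  have hc : (0 : ℝ) < Fintype.card (I → ZMod 2) := by exact_mod_cast Fintype.card_pos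
  have key : ∀ w : I → ZMod 2, (𝔼 y : I → ZMod 2, g y * sg (∑ j, w j * y j)) ^ 2 =
      (∑ y : I → ZMod 2, ∑ y' : I → ZMod 2, g y * g y' * sg (∑ j, w j * (y + y') j)) /
        (Fintype.card (I → ZMod 2) : ℝ) ^ 2 := by
    intro w
    rw [Fintype.expect_eq_sum_div_card, div_pow, sq, Finset.sum_mul_sum]
    congr 1
    refine sum_congr rfl fun y _ => sum_congr rfl fun y' _ => ?_
    have : ∑ j, w j * (y + y') j = ∑ j, w j * y j + ∑ j, w j * y' j := by
      rw [← sum_add_distrib]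
      exact sum_congr rfl fun j _ => by simp [mul_add]
    rw [this, sg_add]
    ring
  simp only [key]
  rw [← sum_div, sum_comm]
  have h2 : ∀ y : I → ZMod 2, ∑ w : I → ZMod 2, ∑ y' : I → ZMod 2,
      g y * g y' * sg (∑ j, w j * (y + y') j) = Fintype.card (I → ZMod 2) := by
    intro y
    rw [sum_comm]
    have h3 : ∀ y' : I → ZMod 2, ∑ w : I → ZMod 2, g y * g y' * sg (∑ j, w j * (y + y') j) =
        if y' = y then (Fintype.card (I → ZMod 2) : ℝ) else 0 := by
      intro y'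
      rw [← mul_sum, sum_sg_dot]
      by_cases h : y' = y
      · subst h
        have : y' + y' = 0 := by
          funext j
          exact CharTwo.add_self_eq_zero _
        rw [if_pos this, if_pos rfl, hg, one_mul]
      · have : ¬ (y + y' = 0) := by
          intro h0
          apply h
          funext j
          have h1 := congrFun h0 j
          simp only [Pi.add_apply, Pi.zero_apply] at h1
          have h2 : y j + y' j + y j = y' j := by
            rw [add_right_comm, CharTwo.add_self_eq_zero, zero_add]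
          rw [← h2, h1, zero_add]
        rw [if_neg this, if_neg h, mul_zero]
    simp only [h3]
    simp
  simp only [h2]
  rw [sum_const, card_univ, nsmul_eq_mul]
  field_simp

/-- A randomised strategy can be replaced by a deterministic one. -/
lemma derand {E Q A : Type} [Fintype E] [Fintype A] [Nonempty A] (ali : E → Q) (P : E → A)
    (μ : E → ℝ) (p : Q → A → ℝ) (hp : ∀ q a, 0 ≤ p q a)
    (hp1 : ∀ q, ∑ a, p q a = 1) :
    ∃ g : Q → A, ∑ e, μ e * p (ali e) (P e) ≤ ∑ e, if P e = g (ali e) then μ e else 0 := by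
  let W : Q → A → ℝ := fun q a => ∑ e, if ali e = q ∧ P e = a then μ e else 0
  have hmax : ∀ q, ∃ a, ∀ a', W q a' ≤ W q a := fun q => by
    obtain ⟨a, -, ha⟩ := Finset.exists_max_image univ (W q) univ_nonempty
    exact ⟨a, fun a' => ha a' (mem_univ _)⟩
  choose g hg using hmax
  refine ⟨g, ?_⟩
  have hL : ∑ e, μ e * p (ali e) (P e) = ∑ q ∈ univ.image ali, ∑ a, p q a * W q a := by
    simp only [W, mul_sum]
    rw [show (∑ q ∈ univ.image ali, ∑ a, ∑ e, p q a * if ali e = q ∧ P e = a then μ e else 0) =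
      ∑ e, ∑ q ∈ univ.image ali, ∑ a, p q a * if ali e = q ∧ P e = a then μ e else 0 from by
        rw [sum_comm]
        rw [show (∑ a, ∑ q ∈ univ.image ali, ∑ e, p q a * if ali e = q ∧ P e = a then μ e else 0) =
          ∑ a, ∑ e, ∑ q ∈ univ.image ali, p q a * if ali e = q ∧ P e = a then μ e else 0 from
            sum_congr rfl fun a _ => sum_comm]
        rw [sum_comm]
        exact sum_congr rfl fun e _ => sum_comm]
    refine sum_congr rfl fun e _ => ?_
    rw [sum_eq_single (ali e)]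
    · rw [sum_eq_single (P e)]
      · simp [mul_comm]
      · intro a _ ha
        rw [if_neg (fun h => ha h.2.symm), mul_zero]
      · simp
    · intro q _ hq
      exact sum_eq_zero fun a _ => by rw [if_neg (fun h => hq h.1.symm), mul_zero]
    · intro h
      exact absurd (mem_image_of_mem ali (mem_univ e)) h
  have hR : (∑ e, if P e = g (ali e) then μ e else 0) = ∑ q ∈ univ.image ali, W q (g q) := by
    simp only [W]
    rw [sum_comm]
    refine sum_congr rfl fun e _ => ?_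
    rw [sum_eq_single (ali e)]
    · simp
    · intro q _ hq
      rw [if_neg (fun h => hq h.1.symm)]
    · intro h
      exact absurd (mem_image_of_mem ali (mem_univ e)) h
  rw [hL, hR]
  refine sum_le_sum fun q _ => ?_
  calc ∑ a, p q a * W q a ≤ ∑ a, p q a * W q (g q) :=
        sum_le_sum fun a _ => mul_le_mul_of_nonneg_left (hg q a) (hp q a)
    _ = W q (g q) := by rw [← sum_mul, hp1, one_mul]

/-- Push forward of a product weight. -/
lemma push_prod {X Y : Type} [Fintype X] [Fintype Y] [DecidableEq X] (φ : Y → X) (μ : Y → ℝ) (k : ℕ)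
    (Ψ : (Fin k → X) → ℝ) :
    ∑ y : Fin k → Y, (∏ i, μ (y i)) * Ψ (fun i => φ (y i)) =
      ∑ x : Fin k → X, (∏ i, ∑ y, if φ y = x i then μ y else 0) * Ψ x := by
  have h1 : ∀ x : Fin k → X, (∏ i, ∑ y, if φ y = x i then μ y else 0) =
      ∑ y : Fin k → Y, if (fun i => φ (y i)) = x then ∏ i, μ (y i) else 0 := by
    intro x
    rw [Finset.prod_univ_sum]
    simp only [Fintype.piFinset_univ]
    refine sum_congr rfl fun y _ => ?_
    by_cases h : (fun i => φ (y i)) = x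
    · rw [if_pos h]
      exact prod_congr rfl fun i _ => if_pos (congrFun h i)
    · rw [if_neg h]
      obtain ⟨i, hi⟩ := Function.ne_iff.mp h
      exact prod_eq_zero (mem_univ i) (if_neg hi)
  simp only [h1, sum_mul]
  rw [sum_comm]
  refine sum_congr rfl fun y _ => ?_
  rw [sum_eq_single (fun i => φ (y i))]
  · simp
  · intro x _ hx
    rw [if_neg (fun h => hx h.symm), zero_mul]
  · simp

lemma expect_prod {X : Type} [Fintype X] [Nonempty X] (k : ℕ) (ρ : X → ℝ) :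
    (𝔼 x : Fin k → X, ∏ i, ρ (x i)) = (𝔼 x, ρ x) ^ k := by
  rw [Fintype.expect_eq_sum_div_card, Fintype.expect_eq_sum_div_card, div_pow]
  have : ∑ x : Fin k → X, ∏ i, ρ (x i) = (∑ x, ρ x) ^ k := by
    rw [← Fin.prod_const k, Finset.prod_univ_sum]
    simp
  rw [this]
  simp

/-- The chi square covering bound. -/
lemma chi {X : Type} [Fintype X] [Nonempty X] (k : ℕ) (ρ : X → ℝ) (τ : ℝ)
    (h1 : (𝔼 x, ρ x) = 1) (h2 : (𝔼 x, ρ x ^ 2) ≤ 1 + τ) (Ψ : (Fin k → X) → ℝ)
    (hΨ : ∀ x, Ψ x ^ 2 ≤ 1) :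
    ((𝔼 x : Fin k → X, (∏ i, ρ (x i)) * Ψ x) - 𝔼 x, Ψ x) ^ 2 ≤ (1 + τ) ^ k - 1 := by
  have e1 : (𝔼 x : Fin k → X, (∏ i, ρ (x i)) * Ψ x) - 𝔼 x, Ψ x =
      𝔼 x : Fin k → X, ((∏ i, ρ (x i)) - 1) * Ψ x := by
    rw [← Finset.expect_sub_distrib]
    exact expect_congr rfl fun x _ => by ring
  rw [e1]
  have e2 := Finset.expect_mul_sq_le_sq_mul_sq (univ : Finset (Fin k → X))
    (fun x => (∏ i, ρ (x i)) - 1) Ψ
  have e3 : (𝔼 x : Fin k → X, Ψ x ^ 2) ≤ 1 := by
    calc (𝔼 x : Fin k → X, Ψ x ^ 2) ≤ 𝔼 _x : Fin k → X, (1 : ℝ) :=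
          expect_le_expect fun x _ => hΨ x
      _ = 1 := by simp
  have e4 : (𝔼 x : Fin k → X, ((∏ i, ρ (x i)) - 1) ^ 2) = (𝔼 x, ρ x ^ 2) ^ k - 1 := by
    have : ∀ x : Fin k → X, ((∏ i, ρ (x i)) - 1) ^ 2 =
        (∏ i, ρ (x i) ^ 2) - 2 * (∏ i, ρ (x i)) + 1 := by
      intro x
      rw [prod_pow]
      ring
    simp only [this]
    rw [expect_add_distrib, expect_sub_distrib, ← mul_expect, expect_prod k (fun x => ρ x ^ 2),
      expect_prod k ρ, h1]
    simp
    ring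
  have e5 : (0 : ℝ) ≤ 𝔼 x, ρ x ^ 2 := expect_nonneg fun x _ => sq_nonneg _
  have e6 : (𝔼 x, ρ x ^ 2) ^ k ≤ (1 + τ) ^ k := pow_le_pow_left₀ e5 h2 k
  have e7 : (0 : ℝ) ≤ 𝔼 x : Fin k → X, ((∏ i, ρ (x i)) - 1) ^ 2 :=
    expect_nonneg fun x _ => sq_nonneg _
  calc _ ≤ _ := e2
    _ ≤ (𝔼 x : Fin k → X, ((∏ i, ρ (x i)) - 1) ^ 2) * 1 := mul_le_mul_of_nonneg_left e3 e7
    _ ≤ _ := by rw [mul_one, e4]; linarith

/-- Choice of the smoothing weight and of the number of repetitions. -/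
lemma params (η n : ℝ) (hη : 0 < η) (hη1 : η ≤ 1) (hn : 1 ≤ n) :
    ∃ (β : ℝ) (k : ℕ), 0 < β ∧ β ≤ 1 ∧ (1 + β ^ 2 * n) ^ k - 1 ≤ η ^ 2 / 4 ∧
      (1 - β / n * (1 / 24) ^ 2 / 16) ^ k < (η ^ 2 / 4) ^ 2 := by
  set B : ℝ := 9216 * n * (16 / η ^ 4) with hB
  have hη4 : η ^ 4 ≤ 1 := pow_le_one₀ hη.le hη1
  have hη2 : η ^ 2 ≤ 1 := pow_le_one₀ hη.le hη1
  have hBpos : 0 < B := by positivity
  set β : ℝ := η ^ 2 / (8 * n * (B + 1)) with hβ
  have hβpos : 0 < β := by positivity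
  have hβ1 : β ≤ 1 := by
    rw [hβ, div_le_one (by positivity)]
    nlinarith
  refine ⟨β, ⌈B / β⌉₊, hβpos, hβ1, ?_, ?_⟩
  · have hk : (⌈B / β⌉₊ : ℝ) ≤ B / β + 1 := (Nat.ceil_lt_add_one (by positivity)).le
    have hkβ : (⌈B / β⌉₊ : ℝ) * β ≤ B + 1 := by
      calc (⌈B / β⌉₊ : ℝ) * β ≤ (B / β + 1) * β := mul_le_mul_of_nonneg_right hk hβpos.le
        _ = B + β := by field_simp
        _ ≤ B + 1 := by linarith
    have hx : (⌈B / β⌉₊ : ℝ) * (β ^ 2 * n) ≤ η ^ 2 / 8 := by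
      calc (⌈B / β⌉₊ : ℝ) * (β ^ 2 * n) = ((⌈B / β⌉₊ : ℝ) * β) * (β * n) := by ring
        _ ≤ (B + 1) * (β * n) := mul_le_mul_of_nonneg_right hkβ (by positivity)
        _ = η ^ 2 / 8 := by rw [hβ]; field_simp
    have h1 : (1 + β ^ 2 * n) ^ ⌈B / β⌉₊ ≤ Real.exp (⌈B / β⌉₊ * (β ^ 2 * n)) := by
      rw [Real.exp_nat_mul]
      exact pow_le_pow_left₀ (by positivity) (by linarith [Real.add_one_le_exp (β ^ 2 * n)]) _
    have h2 : Real.exp (⌈B / β⌉₊ * (β ^ 2 * n)) ≤ Real.exp (η ^ 2 / 8) := Real.exp_le_exp.mpr hx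
    have h3 : Real.exp (η ^ 2 / 8) ≤ 1 + η ^ 2 / 4 := by
      have h4 := Real.abs_exp_sub_one_le (x := η ^ 2 / 8) (by
        rw [abs_of_nonneg (by positivity)]; linarith)
      rw [abs_of_nonneg (a := η ^ 2 / 8) (by positivity)] at h4
      have := le_abs_self (Real.exp (η ^ 2 / 8) - 1)
      linarith
    linarith
  · have hk : B / β ≤ (⌈B / β⌉₊ : ℝ) := Nat.le_ceil _
    have hkβ : B ≤ (⌈B / β⌉₊ : ℝ) * β := by rwa [div_le_iff₀ hβpos] at hk
    set x : ℝ := β / n * (1 / 24) ^ 2 / 16 with hx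
    have hx0 : 0 ≤ x := by positivity
    have hx1 : x ≤ 1 := by
      have : β / n ≤ 1 := by rw [div_le_one (by linarith)]; linarith
      rw [hx]
      nlinarith
    have h1 : (1 - x) ^ ⌈B / β⌉₊ ≤ Real.exp (⌈B / β⌉₊ * (-x)) := by
      rw [Real.exp_nat_mul]
      exact pow_le_pow_left₀ (by linarith) (by linarith [Real.add_one_le_exp (-x)]) _
    have h2 : 16 / η ^ 4 ≤ ⌈B / β⌉₊ * x := by
      have : (⌈B / β⌉₊ : ℝ) * x = ((⌈B / β⌉₊ : ℝ) * β) / (9216 * n) := by
        rw [hx]; field_simp; norm_num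
      rw [this, le_div_iff₀ (by positivity)]
      calc 16 / η ^ 4 * (9216 * n) = B := by rw [hB]; ring
        _ ≤ _ := hkβ
    have h3 : 16 / η ^ 4 < Real.exp (⌈B / β⌉₊ * x) := by
      have := Real.add_one_le_exp (⌈B / β⌉₊ * x)
      linarith
    have h4 : Real.exp (⌈B / β⌉₊ * (-x)) < (η ^ 2 / 4) ^ 2 := by
      rw [mul_neg, Real.exp_neg, inv_lt_comm₀ (Real.exp_pos _) (by positivity)]
      have : ((η ^ 2 / 4) ^ 2)⁻¹ = 16 / η ^ 4 := by field_simp; norm_num
      rwa [this]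
    exact lt_of_le_of_lt h1 h4

end Vale.Agent.P325.Snd
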