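import Vale.Agent.P325.SndA

/-! The smooth one coordinate game of the soundness proof (part E2). -/

namespace Vale.Agent.P325.Snd

open Finset
open scoped Classical BigOperators

/-- Modes: full, null, or one variable. -/
abbrev Mode : Type := Option (Option (Fin 3))

/-- Keep the columns allowed by the mode. -/
def mask {α : Type} [Zero α] : Mode → (Fin 3 → α) → Fin 3 → α
  | none, R => R
  | some none, _ => 0
  | some (some q), R => fun p => if p = q then R q else 0

/-- From answers of the small prover to bits at the three columns. -/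
def emb : Mode → (Fin 3 → ZMod 2) → Fin 3 → ZMod 2
  | none, y => y
  | some none, _ => 0
  | some (some q), y => fun p => if p = q then y 0 else 0

/-- The projection of answers. -/
def pr : Mode → (Fin 3 → ZMod 2) → Fin 3 → ZMod 2
  | none, z => z
  | some none, _ => 0
  | some (some q), z => fun p => if p = 0 then z q else 0

/-- Weights of the modes in the small measure. -/
noncomputable def w0 : Mode → ℝ
  | none => 0
  | some none => 1 / 2
  | some (some _) => 1 / 6

/-- Weights of the modes. -/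
noncomputable def wt (β : ℝ) (md : Mode) : ℝ := (if md = none then 1 - β else 0) + β * w0 md

lemma w0_nonneg (md : Mode) : 0 ≤ w0 md := by
  rcases md with _ | _ | _ <;> simp [w0]

lemma sum_w0 : ∑ md : Mode, w0 md = 1 := by
  simp [Fintype.sum_option, w0]
  norm_num

lemma sum_wt (β : ℝ) : ∑ md : Mode, wt β md = 1 := by
  simp only [wt, sum_add_distrib, ← mul_sum, sum_w0]
  simp

lemma wt_ge (β : ℝ) (hβ : β ≤ 1) (md : Mode) : β * w0 md ≤ wt β md := by
  unfold wt
  split_ifs <;> linarith

lemma emb_pr (md : Mode) (t : Fin 3 → ZMod 2) : emb md (pr md t) = mask md t := by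
  rcases md with _ | _ | q <;> simp [emb, pr, mask]

lemma emb_add (md : Mode) (y y' : Fin 3 → ZMod 2) : emb md (y + y') = emb md y + emb md y' := by
  rcases md with _ | _ | q
  · simp [emb]
  · simp [emb]
  · funext p
    simp only [emb, Pi.add_apply]
    split_ifs <;> simp

lemma dot_emb (md : Mode) (z y : Fin 3 → ZMod 2) :
    ∑ p, z p * emb md y p = ∑ p, pr md z p * y p := by
  rcases md with _ | _ | q <;> simp [emb, pr]

lemma mask_shift {V : Type} [AddCommGroup V] [Module (ZMod 2) V] (md : Mode) (R : Fin 3 → V)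
    (y : Fin 3 → ZMod 2) (u : V) :
    mask md (fun p => R p + emb md y p • u) = fun p => mask md R p + emb md y p • u := by
  rcases md with _ | _ | q
  · simp [mask]
  · funext p
    simp [mask, emb]
  · funext p
    simp only [mask, emb]
    split_ifs <;> simp

lemma mask_map {α γ : Type} [Zero α] [Zero γ] (h : α → γ) (h0 : h 0 = 0) (md : Mode)
    (R : Fin 3 → α) : (fun p => h (mask md R p)) = mask md (fun p => h (R p)) := by
  rcases md with _ | _ | q
  · simp [mask]
  · funext p
    simp [mask, h0]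
  · funext p
    simp only [mask]
    split_ifs <;> simp [h0]

section game

variable {V : Type} [Fintype V] [AddCommGroup V] {N : ℕ}

/-- The edge measure. -/
noncomputable def mu (β : ℝ) (ε : Fin N × Mode × (Fin 3 → V)) : ℝ :=
  wt β ε.2.1 / (N * Fintype.card (Fin 3 → V))

/-- The small edge measure. -/
noncomputable def mu0 (ε : Fin N × Mode × (Fin 3 → V)) : ℝ :=
  if ε.2.2 = 0 then w0 ε.2.1 / N else 0

lemma card_pos' : (0 : ℝ) < Fintype.card (Fin 3 → V) := by exact_mod_cast Fintype.card_pos

lemma sum_mu (hN : 0 < N) (β : ℝ) : ∑ ε : Fin N × Mode × (Fin 3 → V), mu β ε = 1 := by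
  have hc := card_pos' (V := V)
  have hN' : (0 : ℝ) < N := by exact_mod_cast hN
  simp only [mu, Fintype.sum_prod_type, sum_const, card_univ, nsmul_eq_mul, Fintype.card_fin]
  rw [← mul_sum, ← sum_div, sum_wt]
  field_simp

omit [Fintype V] in
lemma mu0_nonneg (ε : Fin N × Mode × (Fin 3 → V)) : 0 ≤ mu0 ε := by
  unfold mu0
  split_ifs
  · exact div_nonneg (w0_nonneg _) (Nat.cast_nonneg _)
  · exact le_rfl

lemma mu_nonneg (β : ℝ) (h0 : 0 ≤ β) (h1 : β ≤ 1) (ε : Fin N × Mode × (Fin 3 → V)) :
    0 ≤ mu β ε :=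
  div_nonneg (le_trans (mul_nonneg h0 (w0_nonneg _)) (wt_ge β h1 _)) (by positivity)

lemma sum_mu0_gen (P : Fin N × Mode × (Fin 3 → V) → Prop) {_ : DecidablePred P} :
    ∑ ε : Fin N × Mode × (Fin 3 → V), (if P ε then mu0 ε else 0) =
      ∑ e : Fin N, ∑ md : Mode, if P (e, md, 0) then w0 md / N else 0 := by
  simp only [Fintype.sum_prod_type]
  refine sum_congr rfl fun e _ => sum_congr rfl fun md _ => ?_
  rw [sum_eq_single 0]
  · simp [mu0]
  · intro R _ hR
    simp [mu0, hR]
  · simp

lemma sum_mu0 (hN : 0 < N) : ∑ ε : Fin N × Mode × (Fin 3 → V), mu0 ε = 1 := by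
  have hN' : (0 : ℝ) < N := by exact_mod_cast hN
  have := @sum_mu0_gen V _ _ N (fun _ => True) (fun _ => inferInstance)
  simp only [if_true] at this
  rw [this]
  simp only [← sum_div, sum_w0, sum_const, card_univ, nsmul_eq_mul, Fintype.card_fin]
  field_simp

lemma mu0_le (β : ℝ) (h0 : 0 ≤ β) (h1 : β ≤ 1) (ε : Fin N × Mode × (Fin 3 → V)) :
    β / Fintype.card (Fin 3 → V) * mu0 ε ≤ mu β ε := by
  unfold mu0
  split_ifs
  · have hc := card_pos' (V := V)
    have : β / Fintype.card (Fin 3 → V) * (w0 ε.2.1 / N) =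
        β * w0 ε.2.1 / (N * Fintype.card (Fin 3 → V)) := by
      rw [div_mul_div_comm, mul_comm (Fintype.card (Fin 3 → V) : ℝ)]
    rw [this]
    exact div_le_div_of_nonneg_right (wt_ge β h1 _) (by positivity)
  · rw [mul_zero]
    exact mu_nonneg β h0 h1 ε

/-- Density of the non full part. -/
noncomputable def zeta (M : Fin 3 → V) : ℝ :=
  ∑ md : Mode, ∑ R : Fin 3 → V, if mask md R = M then w0 md else 0

lemma zeta_nonneg (M : Fin 3 → V) : 0 ≤ zeta M :=
  sum_nonneg fun md _ => sum_nonneg fun R _ => by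
    split_ifs
    · exact w0_nonneg _
    · exact le_rfl

lemma zeta_le (M : Fin 3 → V) : zeta M ≤ Fintype.card (Fin 3 → V) := by
  calc zeta M ≤ ∑ md : Mode, ∑ _R : Fin 3 → V, w0 md :=
        sum_le_sum fun md _ => sum_le_sum fun R _ => by
          split_ifs
          · exact le_rfl
          · exact w0_nonneg _
    _ = _ := by
      simp only [sum_const, card_univ, nsmul_eq_mul]
      rw [← mul_sum, sum_w0, mul_one]

lemma sum_zeta : ∑ M : Fin 3 → V, zeta M = Fintype.card (Fin 3 → V) := by
  unfold zeta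
  rw [sum_comm]
  have : ∀ md : Mode, ∑ M : Fin 3 → V, ∑ R : Fin 3 → V, (if mask md R = M then w0 md else 0) =
      Fintype.card (Fin 3 → V) * w0 md := by
    intro md
    rw [sum_comm]
    simp
  simp only [this]
  rw [← mul_sum, sum_w0, mul_one]

/-- Density of the smooth measure. -/
noncomputable def rho (β : ℝ) (x : Fin N × (Fin 3 → V)) : ℝ := (1 - β) + β * zeta x.2

lemma expect_snd (hN : 0 < N) (h : (Fin 3 → V) → ℝ) :
    (𝔼 x : Fin N × (Fin 3 → V), h x.2) = (∑ M, h M) / Fintype.card (Fin 3 → V) := by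
  have hc := card_pos' (V := V)
  have hN' : (0 : ℝ) < N := by exact_mod_cast hN
  rw [Fintype.expect_eq_sum_div_card, Fintype.sum_prod_type]
  simp only [sum_const, card_univ, nsmul_eq_mul, Fintype.card_prod, Fintype.card_fin,
    Nat.cast_mul]
  field_simp

lemma expect_rho (hN : 0 < N) (β : ℝ) : (𝔼 x : Fin N × (Fin 3 → V), rho β x) = 1 := by
  have hc := card_pos' (V := V)
  have := expect_snd hN (fun M : Fin 3 → V => (1 - β) + β * zeta M)
  simp only [rho]
  rw [this, sum_add_distrib, ← mul_sum, sum_zeta, sum_const, card_univ, nsmul_eq_mul]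
  field_simp
  ring

lemma expect_rho_sq (hN : 0 < N) (β : ℝ) :
    (𝔼 x : Fin N × (Fin 3 → V), rho β x ^ 2) ≤ 1 + β ^ 2 * Fintype.card (Fin 3 → V) := by
  have hc := card_pos' (V := V)
  have := expect_snd hN (fun M : Fin 3 → V => ((1 - β) + β * zeta M) ^ 2)
  simp only [rho]
  rw [this, div_le_iff₀ hc]
  calc ∑ M : Fin 3 → V, ((1 - β) + β * zeta M) ^ 2
      ≤ ∑ M : Fin 3 → V, ((1 - β) ^ 2 + (2 * β * (1 - β) +
          β ^ 2 * Fintype.card (Fin 3 → V)) * zeta M) := by
        refine sum_le_sum fun M _ => ?_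
        have h1 := mul_le_mul_of_nonneg_right (zeta_le M) (zeta_nonneg M)
        have h2 := mul_le_mul_of_nonneg_left h1 (sq_nonneg β)
        nlinarith
    _ = Fintype.card (Fin 3 → V) * (1 - β) ^ 2 + (2 * β * (1 - β) +
          β ^ 2 * Fintype.card (Fin 3 → V)) * Fintype.card (Fin 3 → V) := by
        rw [sum_add_distrib, ← mul_sum, sum_zeta, sum_const, card_univ, nsmul_eq_mul]
    _ ≤ _ := by nlinarith [mul_nonneg hc.le (sq_nonneg β)]

lemma push_mu (β : ℝ) (x : Fin N × (Fin 3 → V)) :
    (∑ ε : Fin N × Mode × (Fin 3 → V),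
      if (ε.1, mask ε.2.1 ε.2.2) = x then mu β ε else 0) =
      rho β x / (N * Fintype.card (Fin 3 → V)) := by
  obtain ⟨e, M⟩ := x
  rw [Fintype.sum_prod_type, sum_eq_single e]
  · rw [Fintype.sum_prod_type]
    have h1 : ∀ (md : Mode) (R : Fin 3 → V),
        (if (e, mask md R) = (e, M) then mu β ((e, md, R) : Fin N × Mode × (Fin 3 → V)) else 0) =
        ((if md = none ∧ R = M then 1 - β else 0) + β * (if mask md R = M then w0 md else 0)) /
          (N * Fintype.card (Fin 3 → V)) := by
      intro md R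
      simp only [Prod.mk.injEq, true_and, mu, wt]
      rcases md with _ | md
      · simp only [mask, true_and, if_true]
        by_cases h : R = M <;> simp [h]
      · simp only [reduceCtorEq, false_and, if_false]
        split_ifs <;> simp
    simp only [h1, ← sum_div]
    congr 1
    simp only [sum_add_distrib, ← mul_sum, rho, zeta]
    congr 1
    simp [Fintype.sum_option]
  · intro e' _ he'
    exact sum_eq_zero fun y _ => if_neg fun h => he' (congrArg Prod.fst h)
  · simp

/-- The smooth measure is close to the uniform one on bounded functions. -/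
lemma smooth_close (hN : 0 < N) (β : ℝ) (k : ℕ) (Ψ : (Fin k → Fin N × (Fin 3 → V)) → ℝ)
    (hΨ : ∀ x, Ψ x ^ 2 ≤ 1) :
    ((∑ ε : Fin k → Fin N × Mode × (Fin 3 → V), (∏ i, mu β (ε i)) *
        Ψ (fun i => ((ε i).1, mask (ε i).2.1 (ε i).2.2))) - 𝔼 x, Ψ x) ^ 2 ≤
      (1 + β ^ 2 * Fintype.card (Fin 3 → V)) ^ k - 1 := by
  have : Nonempty (Fin N) := ⟨⟨0, hN⟩⟩
  have h := chi k (rho (N := N) (V := V) β) _ (expect_rho hN β) (expect_rho_sq hN β) Ψ hΨ
  have h2 := push_prod (fun ε : Fin N × Mode × (Fin 3 → V) => (ε.1, mask ε.2.1 ε.2.2))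
    (mu β) k Ψ
  have h3 : (∑ x : Fin k → Fin N × (Fin 3 → V), (∏ i, ∑ ε : Fin N × Mode × (Fin 3 → V),
      if (ε.1, mask ε.2.1 ε.2.2) = x i then mu β ε else 0) * Ψ x) =
      𝔼 x : Fin k → Fin N × (Fin 3 → V), (∏ i, rho β (x i)) * Ψ x := by
    rw [Fintype.expect_eq_sum_div_card, sum_div]
    refine sum_congr rfl fun x _ => ?_
    simp only [push_mu]
    rw [prod_div_distrib]
    simp only [prod_const, card_univ, Fintype.card_fin, Fintype.card_pi, Fintype.card_prod,
      Nat.cast_pow, Nat.cast_mul]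
    ring
  rw [h2, h3]
  exact h

/-- Questions of the small prover. -/
abbrev AQ (N : ℕ) (V : Type) : Type := (Fin N × (Fin 3 → V)) ⊕ Option (ℕ × V)

/-- The question of the small prover on an edge. -/
def ali (π : V → V) (var : Fin N → Fin 3 → ℕ) : Fin N × Mode × (Fin 3 → V) → AQ N V
  | (e, none, R) => Sum.inl (e, fun p => π (R p))
  | (_, some none, _) => Sum.inr none
  | (e, some (some q), R) => Sum.inr (some (var e q, π (R q)))

/-- The question of the large prover on an edge. -/
def bob (π : V → V) (ε : Fin N × Mode × (Fin 3 → V)) : Fin N × (Fin 3 → V) :=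
  (ε.1, fun p => π (mask ε.2.1 ε.2.2 p))

/-- The projection constraint on an edge. -/
noncomputable def proj (rhs : Fin N → ZMod 2) (ε : Fin N × Mode × (Fin 3 → V))
    (z : Fin 3 → ZMod 2) : Option (Fin 3 → ZMod 2) :=
  if z 0 + z 1 + z 2 = rhs ε.1 then some (pr ε.2.1 z) else none

lemma mask_zero {α : Type} [Zero α] (md : Mode) : mask md (0 : Fin 3 → α) = 0 := by
  rcases md with _ | _ | q
  · rfl
  · rfl
  · funext p
    simp [mask]

lemma null_half (π : V → V) (var : Fin N → Fin 3 → ℕ) (v : Fin N × (Fin 3 → V))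
    {_ : ∀ ε, Decidable (bob π ε = v ∧ ali π var ε = Sum.inr none)}
    {_ : ∀ ε : Fin N × Mode × (Fin 3 → V), Decidable (bob π ε = v)} :
    ∑ ε : Fin N × Mode × (Fin 3 → V),
      (if bob π ε = v ∧ ali π var ε = Sum.inr none then mu0 ε else 0) =
      (1 / 2) * ∑ ε : Fin N × Mode × (Fin 3 → V), (if bob π ε = v then mu0 ε else 0) := by
  rw [sum_mu0_gen (fun ε => bob π ε = v ∧ ali π var ε = Sum.inr none),
    sum_mu0_gen (fun ε => bob π ε = v), mul_sum]
  refine sum_congr rfl fun e _ => ?_
  simp only [bob, mask_zero]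
  by_cases h : (e, fun p => π ((0 : Fin 3 → V) p)) = v
  · simp only [h, true_and, if_true]
    rw [← sum_div, sum_w0]
    simp [Fintype.sum_option, ali, w0]
    ring
  · simp only [h, false_and, if_false]
    simp

lemma val_mu0 (hN : 0 < N) (π : V → V) (var : Fin N → Fin 3 → ℕ) (rhs : Fin N → ZMod 2)
    (hL : ∀ σ : ℕ → ZMod 2, ((univ.filter fun e : Fin N =>
        σ (var e 0) + σ (var e 1) + σ (var e 2) = rhs e).card : ℝ) ≤ (3 / 4) * N)
    (f : Fin N × (Fin 3 → V) → Fin 3 → ZMod 2) (g : AQ N V → Fin 3 → ZMod 2)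
    {_ : ∀ ε, Decidable (proj rhs ε (f (bob π ε)) = some (g (ali π var ε)))} :
    ∑ ε : Fin N × Mode × (Fin 3 → V),
      (if proj rhs ε (f (bob π ε)) = some (g (ali π var ε)) then mu0 ε else 0) ≤ 1 - 1 / 24 := by
  have hN' : (0 : ℝ) < N := by exact_mod_cast hN
  rw [sum_mu0_gen (fun ε => proj rhs ε (f (bob π ε)) = some (g (ali π var ε)))]
  let σ : ℕ → ZMod 2 := fun x => g (Sum.inr (some (x, π 0))) 0
  have hb : ∀ e : Fin N, (∑ md : Mode,
      if proj rhs ((e, md, 0) : Fin N × Mode × (Fin 3 → V)) (f (bob π (e, md, 0))) =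
        some (g (ali π var (e, md, 0))) then w0 md / N else 0) ≤
      (5 / 6 + if σ (var e 0) + σ (var e 1) + σ (var e 2) = rhs e then 1 / 6 else 0) / N := by
    intro e
    have hle : ∀ (md : Mode) (P : Prop) {_ : Decidable P},
        (if P then w0 md / N else 0) ≤ w0 md / (N : ℝ) := by
      intro md P _
      split_ifs
      · exact le_rfl
      · exact div_nonneg (w0_nonneg _) hN'.le
    by_cases hs : σ (var e 0) + σ (var e 1) + σ (var e 2) = rhs e
    · rw [if_pos hs]
      calc _ ≤ ∑ md : Mode, w0 md / (N : ℝ) := sum_le_sum fun md _ => hle md _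
        _ = _ := by rw [← sum_div, sum_w0]; norm_num
    · rw [if_neg hs]
      have hex : ∃ q : Fin 3, ¬ (proj rhs ((e, some (some q), 0) : Fin N × Mode × (Fin 3 → V))
          (f (bob π (e, some (some q), 0))) = some (g (ali π var (e, some (some q), 0)))) := by
        by_contra hcon
        push Not at hcon
        apply hs
        have hz : ∀ q : Fin 3, (f (e, fun _ => π 0) 0 + f (e, fun _ => π 0) 1 +
            f (e, fun _ => π 0) 2 = rhs e) ∧ σ (var e q) = f (e, fun _ => π 0) q := by
          intro q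
          have h := hcon q
          simp only [proj, bob, mask_zero, ali, Pi.zero_apply] at h
          split_ifs at h with h1
          refine ⟨h1, ?_⟩
          have h2 := congrFun (Option.some.inj h) 0
          simp only [pr, if_true] at h2
          exact h2.symm
        rw [(hz 0).2, (hz 1).2, (hz 2).2]
        exact (hz 0).1
      obtain ⟨q, hq⟩ := hex
      calc _ ≤ ∑ md : Mode, (w0 md / (N : ℝ) - if md = some (some q) then (1 / 6 : ℝ) / N else 0) := by
            refine sum_le_sum fun md _ => ?_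
            by_cases hm : md = some (some q)
            · subst hm
              rw [if_neg hq, if_pos rfl]
              simp [w0]
            · rw [if_neg hm, sub_zero]
              exact hle md _
        _ = _ := by
            rw [sum_sub_distrib, ← sum_div, sum_w0]
            simp
            ring
  refine le_trans (sum_le_sum fun e _ => hb e) ?_
  rw [← sum_div, sum_add_distrib, div_le_iff₀ hN']
  have h1 := hL σ
  rw [← sum_filter]
  simp only [sum_const, card_univ, Fintype.card_fin, nsmul_eq_mul]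
  linarith

end game

end Vale.Agent.P325.Snd
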