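import Vale.Agent.P325.SndB

/-! Decoding strategies from a table with large line coefficients (part E2). -/

namespace Vale.Agent.P325.Snd

open Finset
open scoped Classical BigOperators

variable {l m N k : ℕ}

/-- The functional given by `φ`. -/
def lam (φ : Bv l) (v : Bv l × Bv m) : ZMod 2 := φ ⬝ᵥ v.1

/-- Projection to the kernel of `lam φ` along `κ`. -/
def prj (φ κ : Bv l) (v : Bv l × Bv m) : Bv l × Bv m := v + lam φ v • ((κ, 0) : Bv l × Bv m)

lemma z2_add_self (t : ZMod 2) : t + t = 0 := CharTwo.add_self_eq_zero t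

lemma lam_shift {φ κ : Bv l} (h : φ ⬝ᵥ κ = 1) (v : Bv l × Bv m) (t : ZMod 2) :
    lam φ (v + t • ((κ, 0) : Bv l × Bv m)) = lam φ v + t := by
  simp [lam, dotProduct_add, dotProduct_smul, h]

lemma prj_shift {φ κ : Bv l} (h : φ ⬝ᵥ κ = 1) (v : Bv l × Bv m) (t : ZMod 2) :
    prj φ κ (v + t • ((κ, 0) : Bv l × Bv m)) = prj φ κ v := by
  unfold prj
  rw [lam_shift h, add_assoc, ← add_smul, add_comm (lam φ v) t, ← add_assoc, z2_add_self, zero_add]

lemma prj_add (φ κ : Bv l) (v : Bv l × Bv m) (t : ZMod 2) :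
    prj φ κ v + (lam φ v + t) • ((κ, 0) : Bv l × Bv m) = v + t • ((κ, 0) : Bv l × Bv m) := by
  unfold prj
  rw [add_assoc, ← add_smul, ← add_assoc, z2_add_self, zero_add]

lemma lam_zero (φ : Bv l) : lam φ (0 : Bv l × Bv m) = 0 := by simp [lam]

lemma prj_zero (φ κ : Bv l) : prj φ κ (0 : Bv l × Bv m) = 0 := by simp [prj, lam_zero]

lemma lineCoef_shift (G : (Fin k × Fin 3 → Bv l × Bv m) → Bv l) (φ κ : Bv l)
    (M : Fin k × Fin 3 → Bv l × Bv m) (x0 z : Fin k × Fin 3 → ZMod 2) :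
    lineCoef G φ κ (fun j => M j + x0 j • ((κ, 0) : Bv l × Bv m)) z =
      sg (∑ j, z j * x0 j) * lineCoef G φ κ M z := by
  unfold lineCoef
  rw [mul_expect]
  refine Fintype.expect_equiv (Equiv.addRight x0) _ _ fun x => ?_
  rw [← sg_add]
  congr 1
  have h1 : (fun j => M j + x0 j • ((κ, 0) : Bv l × Bv m) + x j • ((κ, 0) : Bv l × Bv m)) =
      fun j => M j + (Equiv.addRight x0 x) j • ((κ, 0) : Bv l × Bv m) := by
    funext j
    simp only [Equiv.coe_addRight, Pi.add_apply, add_smul]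
    abel
  have h2 : ∑ j, z j * (Equiv.addRight x0 x) j = ∑ j, z j * x j + ∑ j, z j * x0 j := by
    rw [← sum_add_distrib]
    exact sum_congr rfl fun j _ => by simp [mul_add]
  rw [h1, h2, add_left_comm, add_comm (∑ j, z j * x j), ← add_assoc (∑ j, z j * x0 j),
    z2_add_self, zero_add]

lemma abs_lineCoef_prj (G : (Fin k × Fin 3 → Bv l × Bv m) → Bv l) (φ κ : Bv l)
    (M : Fin k × Fin 3 → Bv l × Bv m) (z : Fin k × Fin 3 → ZMod 2) :
    |lineCoef G φ κ (fun j => prj φ κ (M j)) z| = |lineCoef G φ κ M z| := by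
  have := lineCoef_shift G φ κ M (fun j => lam φ (M j)) z
  unfold prj
  rw [this, abs_mul, abs_sg, one_mul]

/-- The table of a tuple of equations. -/
noncomputable def FU (var : Fin N → Fin 3 → ℕ) (F : (ℕ → Bv l × Bv m) → Bv l)
    (U : Fin k → Fin N) (M : Fin k × Fin 3 → Bv l × Bv m) : Bv l :=
  F (fun x => ∑ j : Fin k × Fin 3, if var (U j.1) j.2 = x then M j else 0)

/-- Solutions of the equations. -/
def Valid (b : Fin k → ZMod 2) (z : Fin k × Fin 3 → ZMod 2) : Prop :=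
  ∀ i, z (i, 0) + z (i, 1) + z (i, 2) = b i

lemma exists_best (b : Fin k → ZMod 2) (h : (Fin k × Fin 3 → ZMod 2) → ℝ) :
    ∃ z, Valid b z ∧ ∀ z', Valid b z' → h z' ≤ h z := by
  have hne : (univ.filter (Valid b)).Nonempty := by
    refine ⟨fun j => if j.2 = 0 then b j.1 else 0, ?_⟩
    simp [Valid]
  obtain ⟨z, hz, hz'⟩ := Finset.exists_max_image _ h hne
  exact ⟨z, (mem_filter.mp hz).2, fun z' h' => hz' z' (mem_filter.mpr ⟨mem_univ _, h'⟩)⟩

/-- Sign of a real number. -/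
noncomputable def sgn (t : ℝ) : ℝ := if 0 ≤ t then 1 else -1

lemma sgn_mul_self (t : ℝ) : sgn t * t = |t| := by
  unfold sgn
  split_ifs with h
  · rw [one_mul, abs_of_nonneg h]
  · rw [abs_of_neg (not_le.mp h)]
    ring

lemma sgn_sq (t : ℝ) : sgn t ^ 2 = 1 := by
  unfold sgn
  split_ifs <;> norm_num

/-- The bounded test function. -/
noncomputable def Psi (φ κ : Bv l) (G : (Fin k × Fin 3 → Bv l × Bv m) → Bv l)
    (zs : (Fin k × Fin 3 → Bv l × Bv m) → Fin k × Fin 3 → ZMod 2)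
    (M : Fin k × Fin 3 → Bv l × Bv m) : ℝ :=
  sgn (lineCoef G φ κ (fun j => prj φ κ (M j)) (zs fun j => prj φ κ (M j))) *
    sg (φ ⬝ᵥ G M + ∑ j, zs (fun j => prj φ κ (M j)) j * lam φ (M j))

lemma Psi_sq (φ κ : Bv l) (G : (Fin k × Fin 3 → Bv l × Bv m) → Bv l)
    (zs : (Fin k × Fin 3 → Bv l × Bv m) → Fin k × Fin 3 → ZMod 2)
    (M : Fin k × Fin 3 → Bv l × Bv m) : Psi φ κ G zs M ^ 2 = 1 := by
  unfold Psi
  rw [mul_pow, sgn_sq, one_mul, sq, sg_sq]

/-- The embedding of answers, all coordinates. -/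
def embs (md : Fin k → Mode) (y : Fin k × Fin 3 → ZMod 2) (j : Fin k × Fin 3) : ZMod 2 :=
  emb (md j.1) (fun p => y (j.1, p)) j.2

lemma key {φ κ : Bv l} (h : φ ⬝ᵥ κ = 1) (G : (Fin k × Fin 3 → Bv l × Bv m) → Bv l)
    (zs : (Fin k × Fin 3 → Bv l × Bv m) → Fin k × Fin 3 → ZMod 2)
    (md : Fin k → Mode) (R : Fin k → Fin 3 → Bv l × Bv m) (c : Fin k × Fin 3 → Bv l × Bv m)
    (hc : c = fun j => prj φ κ (mask (md j.1) (R j.1) j.2)) :
    (𝔼 y : Fin k × Fin 3 → ZMod 2, Psi φ κ G zs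
        (fun j => mask (md j.1) (R j.1) j.2 + embs md y j • ((κ, 0) : Bv l × Bv m))) =
      sgn (lineCoef G φ κ c (zs c)) * 𝔼 y : Fin k × Fin 3 → ZMod 2,
        sg (φ ⬝ᵥ G (fun j => c j + embs md y j • ((κ, 0) : Bv l × Bv m)) +
          ∑ j, zs c j * embs md y j) := by
  rw [mul_expect]
  let y0 : Fin k × Fin 3 → ZMod 2 := fun j => pr (md j.1) (fun p => lam φ (R j.1 p)) j.2
  refine Fintype.expect_equiv (Equiv.addLeft y0) _ _ fun y => ?_
  have h1 : ∀ j, embs md (Equiv.addLeft y0 y) j =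
      lam φ (mask (md j.1) (R j.1) j.2) + embs md y j := by
    intro j
    have e1 : (fun p => (Equiv.addLeft y0 y) (j.1, p)) =
        pr (md j.1) (fun p => lam φ (R j.1 p)) + fun p => y (j.1, p) := by
      funext p
      simp [y0]
    have e2 := congrFun (mask_map (lam φ) (lam_zero φ) (md j.1) (R j.1)) j.2
    unfold embs
    rw [e1, emb_add, emb_pr, Pi.add_apply, ← e2]
  unfold Psi
  simp only [prj_shift h, lam_shift h, h1, ← hc]
  have h2 : (fun j => mask (md j.1) (R j.1) j.2 + embs md y j • ((κ, 0) : Bv l × Bv m)) =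
      fun j => c j + (lam φ (mask (md j.1) (R j.1) j.2) + embs md y j) •
        ((κ, 0) : Bv l × Bv m) := by
    funext j
    rw [hc]
    exact (prj_add φ κ _ _).symm
  rw [h2]

lemma uniform_part {φ κ : Bv l} (h : φ ⬝ᵥ κ = 1) (G : (Fin k × Fin 3 → Bv l × Bv m) → Bv l)
    (zs : (Fin k × Fin 3 → Bv l × Bv m) → Fin k × Fin 3 → ZMod 2) :
    (𝔼 M, Psi φ κ G zs M) =
      𝔼 M : Fin k × Fin 3 → Bv l × Bv m,
        |lineCoef G φ κ (fun j => prj φ κ (M j)) (zs fun j => prj φ κ (M j))| := by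
  have h1 : ∀ y : Fin k × Fin 3 → ZMod 2, (𝔼 M, Psi φ κ G zs M) =
      𝔼 M : Fin k × Fin 3 → Bv l × Bv m,
        Psi φ κ G zs (fun j => M j + y j • ((κ, 0) : Bv l × Bv m)) := by
    intro y
    exact (Fintype.expect_equiv (Equiv.addRight fun j => y j • ((κ, 0) : Bv l × Bv m)) _ _
      fun M => rfl).symm
  have h2 : (𝔼 M, Psi φ κ G zs M) = 𝔼 _y : Fin k × Fin 3 → ZMod 2, 𝔼 M, Psi φ κ G zs M := by
    simp
  rw [h2, expect_congr rfl fun y _ => h1 y, expect_comm]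
  refine expect_congr rfl fun M _ => ?_
  have h3 := key h G zs (fun _ => none) (fun i p => M (i, p)) (fun j => prj φ κ (M j)) rfl
  rw [← sgn_mul_self]
  exact h3

lemma expect_split {A V : Type} [Fintype A] [Fintype V]
    (H : (Fin k → A) → (Fin k × Fin 3 → V) → ℝ) :
    (𝔼 x : Fin k → A × (Fin 3 → V), H (fun i => (x i).1) (fun j => (x j.1).2 j.2)) =
      𝔼 U, 𝔼 M, H U M := by
  let e : (Fin k → A × (Fin 3 → V)) ≃ (Fin k → A) × (Fin k × Fin 3 → V) :=
    { toFun := fun x => (fun i => (x i).1, fun j => (x j.1).2 j.2)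
      invFun := fun u i => (u.1 i, fun p => u.2 (i, p))
      left_inv := fun x => rfl
      right_inv := fun u => rfl }
  rw [← Finset.expect_product']
  exact Fintype.expect_equiv e _ (fun u => H u.1 u.2) fun x => rfl

/-- The vector valued function contributed by one coordinate. -/
noncomputable def contr (κ : Bv l) (var : Fin N → Fin 3 → ℕ) :
    AQ N (Bv l × Bv m) → (Fin 3 → ZMod 2) → ℕ → Bv l × Bv m
  | Sum.inl (e, c), y => fun x => ∑ p, if var e p = x then c p + y p • ((κ, 0) : Bv l × Bv m) else 0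
  | Sum.inr none, _ => 0
  | Sum.inr (some (nm, v)), y => fun x => if nm = x then v + y 0 • ((κ, 0) : Bv l × Bv m) else 0

lemma contr_ali (φ κ : Bv l) (var : Fin N → Fin 3 → ℕ)
    (ε : Fin N × Mode × (Fin 3 → Bv l × Bv m)) (y : Fin 3 → ZMod 2) (x : ℕ) :
    (∑ p, if var ε.1 p = x then prj φ κ (mask ε.2.1 ε.2.2 p) +
        emb ε.2.1 y p • ((κ, 0) : Bv l × Bv m) else 0) =
      contr κ var (ali (prj φ κ) var ε) y x := by
  obtain ⟨e, md, R⟩ := ε
  rcases md with _ | _ | q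
  · rfl
  · simp [mask, emb, contr, ali, prj_zero]
  · simp only [mask, emb, contr, ali]
    rw [sum_eq_single q]
    · simp
    · intro p _ hp
      simp [hp, prj_zero]
    · simp

/-- The sign table of the small prover. -/
noncomputable def gA (φ κ : Bv l) (var : Fin N → Fin 3 → ℕ) (F : (ℕ → Bv l × Bv m) → Bv l)
    (q : Fin k → AQ N (Bv l × Bv m)) (y : Fin k × Fin 3 → ZMod 2) : ℝ :=
  sg (φ ⬝ᵥ F fun x => ∑ i, contr κ var (q i) (fun p => y (i, p)) x)

/-- Fourier coefficients of the sign table of the small prover. -/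
noncomputable def ghat (φ κ : Bv l) (var : Fin N → Fin 3 → ℕ) (F : (ℕ → Bv l × Bv m) → Bv l)
    (q : Fin k → AQ N (Bv l × Bv m)) (w : Fin k → Fin 3 → ZMod 2) : ℝ :=
  𝔼 y : Fin k × Fin 3 → ZMod 2, gA φ κ var F q y * sg (∑ j : Fin k × Fin 3, w j.1 j.2 * y j)

lemma sum_ghat (φ κ : Bv l) (var : Fin N → Fin 3 → ℕ) (F : (ℕ → Bv l × Bv m) → Bv l)
    (q : Fin k → AQ N (Bv l × Bv m)) : ∑ w, ghat φ κ var F q w ^ 2 = 1 := by
  have h := parseval (gA φ κ var F q) fun y => sg_sq _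
  refine Eq.trans ?_ h
  exact Fintype.sum_equiv (Equiv.curry (Fin k) (Fin 3) (ZMod 2)).symm _ _ fun w => rfl

lemma edge_part {φ κ : Bv l} (h : φ ⬝ᵥ κ = 1) (var : Fin N → Fin 3 → ℕ)
    (F : (ℕ → Bv l × Bv m) → Bv l)
    (zs : (Fin k → Fin N) → (Fin k × Fin 3 → Bv l × Bv m) → Fin k × Fin 3 → ZMod 2) (β : ℝ) :
    ∃ s : (Fin k → Fin N × Mode × (Fin 3 → Bv l × Bv m)) → ℝ, (∀ ε, s ε ^ 2 = 1) ∧
      (∑ ε : Fin k → Fin N × Mode × (Fin 3 → Bv l × Bv m), (∏ i, mu β (ε i)) *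
        Psi φ κ (FU var F fun i => (ε i).1) (zs fun i => (ε i).1)
          (fun j => mask (ε j.1).2.1 (ε j.1).2.2 j.2)) =
      ∑ ε : Fin k → Fin N × Mode × (Fin 3 → Bv l × Bv m), (∏ i, mu β (ε i)) *
        (s ε * ghat φ κ var F (fun i => ali (prj φ κ) var (ε i))
          (fun i => pr (ε i).2.1 fun p => zs (fun i => (ε i).1)
            (fun j => prj φ κ (mask (ε j.1).2.1 (ε j.1).2.2 j.2)) (i, p))) := by
  refine ⟨fun ε => sgn (lineCoef (FU var F fun i => (ε i).1) φ κ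
    (fun j => prj φ κ (mask (ε j.1).2.1 (ε j.1).2.2 j.2))
    (zs (fun i => (ε i).1) fun j => prj φ κ (mask (ε j.1).2.1 (ε j.1).2.2 j.2))),
    fun ε => sgn_sq _, ?_⟩
  have h1 : ∀ y : Fin k × Fin 3 → ZMod 2,
      (∑ ε : Fin k → Fin N × Mode × (Fin 3 → Bv l × Bv m), (∏ i, mu β (ε i)) *
        Psi φ κ (FU var F fun i => (ε i).1) (zs fun i => (ε i).1)
          (fun j => mask (ε j.1).2.1 (ε j.1).2.2 j.2)) =
      ∑ ε : Fin k → Fin N × Mode × (Fin 3 → Bv l × Bv m), (∏ i, mu β (ε i)) *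
        Psi φ κ (FU var F fun i => (ε i).1) (zs fun i => (ε i).1)
          (fun j => mask (ε j.1).2.1 (ε j.1).2.2 j.2 +
            embs (fun i => (ε i).2.1) y j • ((κ, 0) : Bv l × Bv m)) := by
    intro y
    let T : (Fin k → Fin N × Mode × (Fin 3 → Bv l × Bv m)) →
        (Fin k → Fin N × Mode × (Fin 3 → Bv l × Bv m)) := fun ε i =>
      ((ε i).1, (ε i).2.1, fun p => (ε i).2.2 p +
        emb (ε i).2.1 (fun p => y (i, p)) p • ((κ, 0) : Bv l × Bv m))
    have hT : Function.Involutive T := by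
      intro ε
      funext i
      refine Prod.ext rfl (Prod.ext rfl ?_)
      funext p
      simp only [T]
      rw [add_assoc, ← add_smul, z2_add_self, zero_smul, add_zero]
    refine (Fintype.sum_equiv hT.toPerm _ _ fun ε => ?_).symm
    congr 2
    funext j
    exact (congrFun (mask_shift (ε j.1).2.1 (ε j.1).2.2 (fun p => y (j.1, p))
      ((κ, 0) : Bv l × Bv m)) j.2).symm
  have h2 : ∀ t : ℝ, t = 𝔼 _y : Fin k × Fin 3 → ZMod 2, t := fun t => by simp
  rw [h2 (∑ ε : Fin k → Fin N × Mode × (Fin 3 → Bv l × Bv m), (∏ i, mu β (ε i)) *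
        Psi φ κ (FU var F fun i => (ε i).1) (zs fun i => (ε i).1)
          (fun j => mask (ε j.1).2.1 (ε j.1).2.2 j.2)), expect_congr rfl fun y _ => h1 y,
    expect_sum_comm]
  refine sum_congr rfl fun ε _ => ?_
  rw [← mul_expect, key h _ _ (fun i => (ε i).2.1) (fun i => (ε i).2.2) _ rfl]
  congr 2
  unfold ghat gA
  refine expect_congr rfl fun y _ => ?_
  rw [sg_add]
  congr 2
  · unfold FU
    congr 2
    funext x
    rw [Fintype.sum_prod_type]
    exact sum_congr rfl fun i _ => contr_ali φ κ var (ε i) (fun p => y (i, p)) x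
  · rw [Fintype.sum_prod_type, Fintype.sum_prod_type]
    exact sum_congr rfl fun i _ => dot_emb (ε i).2.1 _ (fun p => y (i, p))

end Vale.Agent.P325.Snd
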