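import Mathlib

/-! Definitions used in the statement of the Unique Games theorem. -/

namespace Vale.Agent.P325

/-- A 3-CNF formula: a list of clauses, each a triple of literals (variable, sign). -/
abbrev CNF3 : Type := List ((ℕ × Bool) × (ℕ × Bool) × (ℕ × Bool))

/-- The clause `c` is true under the assignment `σ`. -/
def clauseTrue (σ : ℕ → Bool) (c : (ℕ × Bool) × (ℕ × Bool) × (ℕ × Bool)) : Bool :=
  (σ c.1.1 == c.1.2) || (σ c.2.1.1 == c.2.1.2) || (σ c.2.2.1 == c.2.2.2)

/-- Satisfiability of a 3-CNF formula. -/
def Sat (φ : CNF3) : Prop := ∃ σ : ℕ → Bool, ∀ c ∈ φ, clauseTrue σ c = true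

/-- A Unique Games instance over the alphabet `Fin k`: a list of constraints `(u, v, π)`;
vertices are named by natural numbers. -/
abbrev UG (k : ℕ) : Type := List (ℕ × ℕ × Equiv.Perm (Fin k))

/-- Number of constraints satisfied by the labeling `a`. -/
def ugCount {k : ℕ} (G : UG k) (a : ℕ → Fin k) : ℕ :=
  G.countP fun c => decide (a c.2.1 = c.2.2 (a c.1))

/-- The value of an instance: the largest fraction of constraints satisfied by a labeling. -/
noncomputable def ugVal {k : ℕ} (G : UG k) : ℝ :=
  ⨆ a : ℕ → Fin k, (ugCount G a : ℝ) / (G.length : ℝ)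

/-- Self-delimiting binary code of a list of naturals. -/
def bitsOf (l : List ℕ) : List Bool :=
  l.flatMap fun a => a.bits.flatMap (fun b => [true, b]) ++ [false]

/-- A formula as a list of naturals, six for each clause. -/
def natsCNF (φ : CNF3) : List ℕ :=
  φ.flatMap fun c => [c.1.1, c.1.2.toNat, c.2.1.1, c.2.1.2.toNat, c.2.2.1, c.2.2.2.toNat]

/-- An instance as a list of naturals: for each constraint the two vertices and the table of the
permutation. -/
def natsUG {k : ℕ} (G : UG k) : List ℕ :=
  G.flatMap fun c => c.1 :: c.2.1 :: List.ofFn fun i => (c.2.2 i : ℕ)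

end Vale.Agent.P325
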